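import Crest.Agent.N265.K.Kos
import Crest.Agent.N265.K.PowB

/-!
# Row 265: linear algebra of Plücker vectors (helper91)

`ann y = {w | w ∧ y = 0}`; `wg k y : W → Λ^(k+1) W`; `dE k φ` the derivation of `Λ^k` extending `φ`.
-/

set_option autoImplicit false
noncomputable section
open Module

namespace Crest.Agent.N265.Plk
open _root_.Crest.Agent.N265.Pow _root_.Crest.Agent.N265.Pow.Ks

variable {W W' : Type} [AddCommGroup W] [Module ℂ W] [AddCommGroup W'] [Module ℂ W']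

lemma mem_Lam {k : ℕ} {y : EA W} : y ∈ Lam k W ↔ y ∈ ((⊤ : Submodule ℂ W).map iE) ^ k := by
  rw [Submodule.map_top]
lemma iE_mul_mem {k : ℕ} (w : W) {y : EA W} (hy : y ∈ Lam k W) : iE w * y ∈ Lam (k + 1) W :=
  mul_mem_pow (LinearMap.mem_range_self _ w) hy

/-- the vectors killing `y` -/
def ann (y : EA W) : Submodule ℂ W := LinearMap.ker (LinearMap.mulRight ℂ y ∘ₗ iE)
lemma mem_ann {y : EA W} {w : W} : w ∈ ann y ↔ iE w * y = 0 := Iff.rfl
lemma ann_smul {c : ℂ} (hc : c ≠ 0) (y : EA W) : ann (c • y) = ann y := by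
  ext w; simp [mem_ann, hc]
@[simp] lemma ann_zero : ann (0 : EA W) = ⊤ := by ext w; simp [mem_ann]

/-- `w ∧ y` -/
def wg (k : ℕ) : Lam k W →ₗ[ℂ] W →ₗ[ℂ] Lam (k + 1) W :=
  LinearMap.mk₂ ℂ (fun y w => ⟨iE w * y, iE_mul_mem w y.2⟩)
    (fun _ _ _ => Subtype.ext (mul_add _ _ _)) (fun _ _ _ => Subtype.ext (mul_smul_comm _ _ _))
    (fun _ _ _ => Subtype.ext (by simp [add_mul])) (fun _ _ _ => Subtype.ext (by simp))
@[simp] lemma wg_coe (k : ℕ) (y : Lam k W) (w : W) : (wg k y w : EA W) = iE w * y := rfl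
lemma ker_wg (k : ℕ) (y : Lam k W) : LinearMap.ker (wg k y) = ann (y : EA W) := by
  ext w; rw [LinearMap.mem_ker, Subtype.ext_iff]; rfl
lemma wg_eq_zero {k : ℕ} {y : Lam k W} {w : W} : wg k y w = 0 ↔ w ∈ ann (y : EA W) := by
  rw [← ker_wg]; rfl
lemma wg_lamM (k : ℕ) (f : W →ₗ[ℂ] W') (y : Lam k W) (w : W) :
    wg k (lamM k f y) (f w) = lamM (k + 1) f (wg k y w) :=
  Subtype.ext (by simp only [wg_coe, lamM_coe, map_mul, ExteriorAlgebra.map_apply_ι])

/-- division by independent vectors of the annihilator -/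
lemma exists_div : ∀ (m k : ℕ) (u : Fin m → W), LinearIndependent ℂ u → ∀ y ∈ Lam k W,
    (∀ i, u i ∈ ann y) → y = 0 ∨ (m ≤ k ∧ ∃ z ∈ Lam (k - m) W, y = ExteriorAlgebra.ιMulti ℂ m u * z)
  | 0, k, u, _, y, hy, _ => Or.inr ⟨k.zero_le, y, hy, by simp⟩
  | m + 1, k, u, hu, y, hy, h => by
    obtain ⟨ℓ, hℓ⟩ : ∃ ℓ : Dual ℂ W, ∀ i, ℓ (u i) = (Pi.single 0 1 : Fin (m + 1) → ℂ) i := by
      obtain ⟨g, hg⟩ := LinearMap.exists_extend
        ((Basis.span hu).constr ℂ (Pi.single 0 1 : Fin (m + 1) → ℂ))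
      refine ⟨g, fun i => ?_⟩
      have := LinearMap.congr_fun hg (Basis.span hu i)
      rwa [Basis.constr_basis, LinearMap.comp_apply, Submodule.subtype_apply, Basis.span_apply]
        at this
    have e : y = iE (u 0) * ct ℓ y := by
      have := ct_ι_mul ℓ (u 0) y
      rw [mem_ann.1 (h 0), map_zero, hℓ, Pi.single_eq_same, one_smul] at this
      exact (sub_eq_zero.1 this.symm)
    obtain ⟨h0, h1⟩ := ct_mem ℓ ⊤ k y (mem_Lam.1 hy)
    rcases k with _ | k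
    · exact Or.inl (by rw [e, h0 rfl, mul_zero])
    rcases exists_div m k (fun i => u i.succ) (hu.comp _ (Fin.succ_injective m)) (ct ℓ y)
      (mem_Lam.2 h1) (fun i => by
        have := ct_ι_mul ℓ (u i.succ) y
        rw [mem_ann.1 (h _), map_zero, hℓ, Pi.single_eq_of_ne (Fin.succ_ne_zero i), zero_smul,
          zero_sub] at this
        exact neg_eq_zero.1 this.symm) with h2 | ⟨h2, z, hz, h3⟩
    · exact Or.inl (by rw [e, h2, mul_zero])
    · refine Or.inr ⟨Nat.succ_le_succ h2, z, by rwa [Nat.add_sub_add_right], ?_⟩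
      rw [e, h3, ExteriorAlgebra.ιMulti_succ_apply, mul_assoc]
      rfl

variable {k : ℕ} {U : Submodule ℂ W} {y η : Lam k W}

lemma le_ann [FiniteDimensional ℂ U] (hU : finrank ℂ U ≤ k) (hy : y ∈ lamS k U) :
    U ≤ ann (y : EA W) := fun u hu => by
  have h1 : wg k y u ∈ lamS (k + 1) U := mul_mem_pow ⟨u, hu, rfl⟩ hy
  rw [lamS_eq_bot U (Nat.lt_succ_of_le hU)] at h1
  exact wg_eq_zero.1 h1

lemma finrank_le_of_le_ann [FiniteDimensional ℂ U] (h0 : y ≠ 0) (h : U ≤ ann (y : EA W)) :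
    finrank ℂ U ≤ k :=
  ((exists_div _ k (fun i => (finBasis ℂ U i : W))
    ((finBasis ℂ U).linearIndependent.map' U.subtype U.ker_subtype) y y.2
    fun i => h (finBasis ℂ U i).2).resolve_left fun e => h0 (Subtype.ext e)).1

lemma finrank_ann_le [FiniteDimensional ℂ W] (h0 : y ≠ 0) : finrank ℂ (ann (y : EA W)) ≤ k :=
  finrank_le_of_le_ann h0 le_rfl

lemma mem_lamS_of_le [FiniteDimensional ℂ U] (hU : finrank ℂ U = k) (h : U ≤ ann (y : EA W)) :
    y ∈ lamS k U := by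
  subst hU
  rcases exists_div _ _ (fun i => (finBasis ℂ U i : W))
    ((finBasis ℂ U).linearIndependent.map' U.subtype U.ker_subtype) y y.2
    fun i => h (finBasis ℂ U i).2 with e | ⟨-, z, hz, e⟩
  · rw [show y = 0 from Subtype.ext e]; exact zero_mem _
  · rw [Nat.sub_self, mem_Lam, pow_zero, Submodule.mem_one] at hz
    obtain ⟨c, rfl⟩ := hz
    have : y = c • exteriorPower.ιMulti ℂ _ fun i => (finBasis ℂ U i : W) := Subtype.ext (by
      rw [e, ← Algebra.commutes, ← Algebra.smul_def]; rfl)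
    rw [this]
    exact Submodule.smul_mem _ _ (ιMulti_mem _ fun i => (finBasis ℂ U i).2)

lemma mem_lamS_iff [FiniteDimensional ℂ U] (hU : finrank ℂ U = k) :
    y ∈ lamS k U ↔ U ≤ ann (y : EA W) := ⟨le_ann hU.le, mem_lamS_of_le hU⟩

lemma finrank_lamS_self [FiniteDimensional ℂ U] (hU : finrank ℂ U = k) :
    finrank ℂ (lamS k U) = 1 := by rw [finrank_lamS, hU, Nat.choose_self]

lemma exists_plk [FiniteDimensional ℂ U] (hU : finrank ℂ U = k) : ∃ y ∈ lamS k U, y ≠ 0 :=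
  Submodule.exists_mem_ne_zero_of_ne_bot fun e => by
    have := finrank_lamS_self hU
    rw [e, finrank_bot] at this
    exact zero_ne_one this

variable [FiniteDimensional ℂ W]

lemma ann_eq (hU : finrank ℂ U = k) (hy : y ∈ lamS k U) (h0 : y ≠ 0) : ann (y : EA W) = U :=
  (Submodule.eq_of_le_of_finrank_le (le_ann hU.le hy) (hU ▸ finrank_ann_le h0)).symm

lemma lamS_eq_span_plk (hU : finrank ℂ U = k) (hy : y ∈ lamS k U) (h0 : y ≠ 0) :
    lamS k U = Submodule.span ℂ {y} :=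
  (Submodule.eq_of_le_of_finrank_le ((Submodule.span_singleton_le_iff_mem _ _).2 hy)
    (by rw [finrank_lamS_self hU, finrank_span_singleton h0])).symm

lemma mem_lamS_ann (h : finrank ℂ (ann (y : EA W)) = k) : y ∈ lamS k (ann (y : EA W)) :=
  mem_lamS_of_le h le_rfl

lemma lamS_ann (h : finrank ℂ (ann (y : EA W)) = k) (h0 : y ≠ 0) :
    lamS k (ann (y : EA W)) = Submodule.span ℂ {y} := lamS_eq_span_plk h (mem_lamS_ann h) h0

/-- vectors killed by the annihilator of a Plücker vector are its multiples -/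
lemma mem_span_iff (h : finrank ℂ (ann (y : EA W)) = k) (h0 : y ≠ 0) :
    η ∈ Submodule.span ℂ {y} ↔ ann (y : EA W) ≤ ann (η : EA W) := by
  rw [← lamS_ann h h0, mem_lamS_iff h]

omit [FiniteDimensional ℂ W] in
/-- a Plücker vector is scaled by the product of the eigenvalues -/
lemma lamM_eigen {ι : Type} [Fintype ι] (hk : Fintype.card ι = k) {u : ι → W}
    (hu : LinearIndependent ℂ u) (h : ∀ i, u i ∈ ann (y : EA W)) {f : W →ₗ[ℂ] W} {c : ι → ℂ}
    (hf : ∀ i, f (u i) = c i • u i) : lamM k f y = (∏ i, c i) • y := by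
  let e := (Fintype.equivFinOfCardEq hk).symm
  rcases exists_div k k (u ∘ e) (hu.comp _ e.injective) y y.2 fun i => h _ with h0 | ⟨-, z, hz, h0⟩
  · rw [show y = 0 from Subtype.ext h0]; simp
  · rw [Nat.sub_self, mem_Lam, pow_zero, Submodule.mem_one] at hz
    obtain ⟨a, rfl⟩ := hz
    refine Subtype.ext ?_
    rw [lamM_coe, Submodule.coe_smul, h0, map_mul, AlgHom.commutes,
      ExteriorAlgebra.map_apply_ιMulti, ← smul_mul_assoc, ← e.prod_comp,
      ← AlternatingMap.map_smul_univ]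
    congr 2
    exact funext fun i => hf _
lemma lamM_two {A B : Submodule ℂ W} {f : W →ₗ[ℂ] W} {a c : ℂ} (hac : a ≠ c)
    (hA : ∀ u ∈ A, f u = a • u) (hB : ∀ u ∈ B, f u = c • u) (h : A ⊔ B = ann (y : EA W))
    (hk : finrank ℂ (ann (y : EA W)) = k) :
    lamM k f y = (a ^ finrank ℂ A * c ^ finrank ℂ B) • y := by
  have hd : Disjoint A B := Submodule.disjoint_def.2 fun u h1 h2 => by
    have := (hA u h1).symm.trans (hB u h2)
    rw [← sub_eq_zero, ← sub_smul, smul_eq_zero, sub_eq_zero] at this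
    exact this.resolve_left hac
  have h1 := Submodule.finrank_sup_add_finrank_inf_eq A B
  rw [hd.eq_bot, finrank_bot, h, hk] at h1
  rw [lamM_eigen (ι := Fin (finrank ℂ A) ⊕ Fin (finrank ℂ B)) (by simp; omega)
    (u := Sum.elim (fun i => (finBasis ℂ A i : W)) fun i => (finBasis ℂ B i : W))
    (((finBasis ℂ A).linearIndependent.map' A.subtype A.ker_subtype).sum_type
      ((finBasis ℂ B).linearIndependent.map' B.subtype B.ker_subtype) (hd.mono
        (Submodule.span_le.2 (by rintro _ ⟨i, rfl⟩; exact (finBasis ℂ A i).2))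
        (Submodule.span_le.2 (by rintro _ ⟨i, rfl⟩; exact (finBasis ℂ B i).2))))
    (by rintro (i | i) <;> rw [← h]
        exacts [Submodule.mem_sup_left (finBasis ℂ A i).2, Submodule.mem_sup_right (finBasis ℂ B i).2])
    (c := Sum.elim (fun _ => a) fun _ => c)
    (by rintro (i | i)
        exacts [hA _ (finBasis ℂ A i).2, hB _ (finBasis ℂ B i).2])]
  simp


/-! ### the derivation extending an endomorphism -/

section der
omit [FiniteDimensional ℂ W]
/-- the lift to the dual numbers -/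
def DA0 (φ : W →ₗ[ℂ] W) : EA W →ₐ[ℂ] TrivSqZeroExt (EA W) (EA W) :=
  ExteriorAlgebra.lift ℂ ⟨(TrivSqZeroExt.inlAlgHom ℂ (EA W) (EA W)).toLinearMap ∘ₗ iE +
      ((TrivSqZeroExt.inrHom (EA W) (EA W)).restrictScalars ℂ) ∘ₗ iE ∘ₗ φ, fun v => by
    ext
    · simp
    · simp⟩
lemma fst_DA0 (φ : W →ₗ[ℂ] W) (y : EA W) : (DA0 φ y).fst = y := by
  induction y using EA_ind with
  | h0 c => simp [TrivSqZeroExt.algebraMap_eq_inl']
  | ha x y hx hy => simp [hx, hy]
  | hm x v hx => rw [map_mul, TrivSqZeroExt.fst_mul, hx]; simp [DA0]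
/-- the derivation of `Λ W` extending `φ` -/
def DA (φ : W →ₗ[ℂ] W) : EA W →ₗ[ℂ] EA W :=
  ((TrivSqZeroExt.sndHom (EA W) (EA W)).restrictScalars ℂ) ∘ₗ (DA0 φ).toLinearMap
lemma DA_alg (φ : W →ₗ[ℂ] W) (c : ℂ) : DA φ (algebraMap ℂ _ c) = 0 := by
  simp [DA, TrivSqZeroExt.algebraMap_eq_inl']
lemma DA_ι_mul (φ : W →ₗ[ℂ] W) (v : W) (y : EA W) :
    DA φ (iE v * y) = iE (φ v) * y + iE v * DA φ y := by
  have : DA φ (iE v * y) = (DA0 φ (iE v) * DA0 φ y).snd := by rw [← map_mul]; rfl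
  rw [this, TrivSqZeroExt.snd_mul, fst_DA0, fst_DA0, add_comm]
  simp [DA0, DA]
lemma DA_add (φ ψ : W →ₗ[ℂ] W) (y : EA W) : DA (φ + ψ) y = DA φ y + DA ψ y := by
  induction y using EA_ind with
  | h0 c => simp [DA_alg]
  | ha x y hx hy => simp only [map_add, hx, hy]; abel
  | hm x v hx => simp only [DA_ι_mul, hx, LinearMap.add_apply, map_add, add_mul, mul_add]; abel
lemma DA_smul (c : ℂ) (φ : W →ₗ[ℂ] W) (y : EA W) : DA (c • φ) y = c • DA φ y := by
  induction y using EA_ind with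
  | h0 c => simp [DA_alg]
  | ha x y hx hy => simp only [map_add, hx, hy, smul_add]
  | hm x v hx => simp [DA_ι_mul, hx]
lemma DA_mem (φ : W →ₗ[ℂ] W) {k : ℕ} {y : EA W} (hy : y ∈ Lam k W) : DA φ y ∈ Lam k W := by
  refine pow_ind (LinearMap.range iE) (P := fun n y => DA φ y ∈ Lam n W)
    (fun c => by rw [DA_alg]; exact zero_mem _)
    (fun n x y hx hy => by rw [map_add]; exact add_mem hx hy) ?_ k y hy
  rintro n _ ⟨v, rfl⟩ x hx h
  rw [DA_ι_mul]
  exact add_mem (iE_mul_mem _ hx) (iE_mul_mem _ h)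
lemma DA_ιMulti (φ : W →ₗ[ℂ] W) : ∀ (k : ℕ) (v : Fin k → W),
    DA φ (ExteriorAlgebra.ιMulti ℂ k v) =
      ∑ i, ExteriorAlgebra.ιMulti ℂ k (Function.update v i (φ (v i)))
  | 0, v => by simpa using DA_alg φ 1
  | k + 1, v => by
    rw [ExteriorAlgebra.ιMulti_succ_apply, DA_ι_mul, DA_ιMulti φ k, Fin.sum_univ_succ,
      Finset.mul_sum, ExteriorAlgebra.ιMulti_succ_apply]
    congr 1
    refine Finset.sum_congr rfl fun i _ => ?_
    rw [ExteriorAlgebra.ιMulti_succ_apply, Function.update_of_ne (Fin.succ_ne_zero i).symm]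
    congr 2
    exact (Fin.tail_update_succ v i _).symm

/-- `φ ↦ (y ↦ ∑ y₁ ∧ ⋯ ∧ φ y_i ∧ ⋯ ∧ y_k)` -/
def dE (k : ℕ) : (W →ₗ[ℂ] W) →ₗ[ℂ] Lam k W →ₗ[ℂ] Lam k W :=
  LinearMap.mk₂ ℂ (fun φ y => ⟨DA φ y, DA_mem φ y.2⟩)
    (fun _ _ _ => Subtype.ext (DA_add _ _ _)) (fun _ _ _ => Subtype.ext (DA_smul _ _ _))
    (fun _ _ _ => Subtype.ext (map_add _ _ _)) (fun _ _ _ => Subtype.ext (map_smul _ _ _))
@[simp] lemma dE_coe (φ : W →ₗ[ℂ] W) (y : Lam k W) : (dE k φ y : EA W) = DA φ y := rfl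
lemma dE_ιMulti (φ : W →ₗ[ℂ] W) (v : Fin k → W) : dE k φ (exteriorPower.ιMulti ℂ k v) =
    ∑ i, exteriorPower.ιMulti ℂ k (Function.update v i (φ (v i))) :=
  Subtype.ext (by rw [Submodule.coe_sum]; exact DA_ιMulti φ k v)
lemma dE_wg (φ : W →ₗ[ℂ] W) (y : Lam k W) (w : W) :
    dE (k + 1) φ (wg k y w) = wg k y (φ w) + wg k (dE k φ y) w :=
  Subtype.ext (DA_ι_mul φ w y)
lemma DA_map (f : W →ₗ[ℂ] W') {φ : W →ₗ[ℂ] W} {φ' : W' →ₗ[ℂ] W'} (h : ∀ w, φ' (f w) = f (φ w))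
    (y : EA W) : DA φ' (ExteriorAlgebra.map f y) = ExteriorAlgebra.map f (DA φ y) := by
  induction y using EA_ind with
  | h0 c => simp [DA_alg]
  | ha x y hx hy => simp only [map_add, hx, hy]
  | hm x v hx => simp only [map_mul, map_add, ExteriorAlgebra.map_apply_ι, DA_ι_mul, hx, h]
lemma dE_lamM (f : W →ₗ[ℂ] W') {φ : W →ₗ[ℂ] W} {φ' : W' →ₗ[ℂ] W'} (h : ∀ w, φ' (f w) = f (φ w))
    (y : Lam k W) : dE k φ' (lamM k f y) = lamM k f (dE k φ y) :=
  Subtype.ext (by simp only [dE_coe, lamM_coe, DA_map f h])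
lemma wg_dE {φ : W →ₗ[ℂ] W} {u : W} (hu : u ∈ ann (y : EA W)) :
    wg k (dE k φ y) u = -wg k y (φ u) := by
  have := dE_wg φ y u
  rw [wg_eq_zero.2 hu, map_zero] at this
  exact eq_neg_of_add_eq_zero_right this.symm
end der
/-- first order variation of a Plücker vector -/
lemma sub_dE_mem_span_iff (h : finrank ℂ (ann (y : EA W)) = k) (h0 : y ≠ 0) {φ : W →ₗ[ℂ] W} :
    η - dE k φ y ∈ Submodule.span ℂ {y} ↔
      ∀ u ∈ ann (y : EA W), wg k η u + wg k y (φ u) = 0 := by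
  rw [mem_span_iff h h0]
  refine forall₂_congr fun u hu => ?_
  rw [← wg_eq_zero, map_sub, LinearMap.sub_apply, wg_dE hu, sub_neg_eq_add]
lemma dE_mem_span_iff (h : finrank ℂ (ann (y : EA W)) = k) (h0 : y ≠ 0) {φ : W →ₗ[ℂ] W} :
    dE k φ y ∈ Submodule.span ℂ {y} ↔ ∀ u ∈ ann (y : EA W), φ u ∈ ann (y : EA W) := by
  rw [← Submodule.neg_mem_iff, ← zero_sub, sub_dE_mem_span_iff h h0]
  simp [wg_eq_zero]

end Crest.Agent.N265.Plk
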