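import Crest.Agent.N265.Q.Gr1
import Crest.Agent.N265.K.AB4
import Crest.Agent.N265.M.Fam
import Crest.Agent.N265.Fib.H2
import Crest.Agent.N265.M.TV
import Crest.Agent.N265.M.Ty
import Crest.Agent.N265.M.Ty0
import Crest.Agent.N265.Fib.P4
import Crest.Agent.N265.Fx.Sc
import Crest.Agent.N265.M.Fix

-- ▼ part N265/Q/Gr
section

/-! # Task Q-GR: the graded Grassmannian in one block of Plücker coordinates
(definitions and points: `Q/Gr0`) -/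

set_option autoImplicit false
noncomputable section
open MvPolynomial TensorProduct Module

namespace Crest.Agent.N265
open Alg _root_.Crest.Agent.N265.Pow GV Bun

namespace GrD
variable {Γ : GrD} {y y' ξ : Pt}
theorem sm : Γ.Y.Sm Γ.dim := Spc.sm_of fun _ hy => ⟨by
  rw [← finrank_map_vec le_rfl, ← finrank_range_sup hy]
  exact Submodule.finrank_mono (map_tan_le hy), dim_le_ldim hy⟩
theorem map_tan (hy : y ∈ Γ.Y.pts) :
    (Γ.Y.Tan y).map Γ.vec = LinearMap.range (Γ.ks y) ⊔ Submodule.span ℂ {Γ.vec y} :=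
  Submodule.eq_of_le_of_finrank_eq (map_tan_le hy)
    (by rw [finrank_map_vec le_rfl, finrank_range_sup hy, (sm y hy).1])
/-- Kodaira-Spencer: `φ` is the first order variation of `U` along `ξ` -/
theorem isVar_iff (hy : y ∈ Γ.Y.pts) (hξ : ξ ∈ Γ.Y.Tan y) {φ : Γ.En.V} :
    (∀ j, IsVar Γ.Y.fn ⟨y, hy⟩ (Γ.Y.pd y ξ) (fun x => Γ.U j x.1) (φ j)) ↔
      Γ.vec ξ - Γ.ks y φ ∈ Submodule.span ℂ {Γ.vec y} := by
  refine ⟨sub_mem_of_isVar hy hξ, fun h j => ?_⟩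
  obtain ⟨ψ, hψ⟩ := exists_isVar hy hξ
  have h1 := sub_mem h (sub_mem_of_isVar hy hξ hψ)
  rw [sub_sub_sub_cancel_left, ← map_sub, ks_mem_span hy, mem_stab] at h1
  exact (hψ j).congr (h1 j)
lemma span_le_map {T : Submodule ℂ Pt} (h0 : y ∈ T) :
    Submodule.span ℂ {Γ.vec y} ≤ T.map Γ.vec :=
  (Submodule.span_singleton_le_iff_mem _ _).2 (Submodule.mem_map_of_mem h0)
theorem stab_le_enOf (hy : y ∈ Γ.Y.pts) {T : Submodule ℂ Pt} (h0 : y ∈ T) :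
    Γ.stab y ≤ Γ.enOf y T := by
  rw [← comap_span hy]; exact Submodule.comap_mono (span_le_map h0)
lemma range_sup_map (hy : y ∈ Γ.Y.pts) {T : Submodule ℂ Pt} (hT : T ≤ Γ.Y.Tan y) (h0 : y ∈ T) :
    LinearMap.range (Γ.ks y) ⊔ T.map Γ.vec = (Γ.Y.Tan y).map Γ.vec := by
  refine le_antisymm (sup_le ?_ (Submodule.map_mono hT)) ?_ <;> rw [map_tan hy]
  exacts [le_sup_left, sup_le_sup_left (span_le_map h0) _]
theorem finrank_enOf (hy : y ∈ Γ.Y.pts) {T : Submodule ℂ Pt} (hT : T ≤ Γ.Y.Tan y) (h0 : y ∈ T) :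
    finrank ℂ T + finrank ℂ (Γ.stab y) = 1 + finrank ℂ (Γ.enOf y T) := by
  have h1 := finrank_inf_comap_add ⊤ (T.map Γ.vec) (Γ.ks y)
  rw [top_inf_eq, Submodule.map_top, finrank_top, range_sup_map hy hT h0, finrank_map_vec hT,
    finrank_map_vec le_rfl, (sm y hy).1] at h1
  have := finrank_stab hy
  rw [enOf]
  omega
/-- the tangent bundle of a smooth subspace -/
theorem kl_tan_sub {Z : Spc} (hZ : Z.Sub Γ.Y) {n : ℕ} (hs : Z.Sm n) (Vs : Finset Var)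
    (hV : Z.Vars Vs) : (IsAB Z Γ.En fun y => Γ.enOf y (Z.Tan y)) ∧ (Bun.tan Z Vs hV n hs).kl =
      1 + (kc Z Γ.En (fun y => Γ.enOf y (Z.Tan y)) - kc Z Γ.En Γ.stab) := by
  have hb : Γ.b ∈ Z.B := hZ.1 ▸ b_mem
  obtain ⟨h1, h2⟩ := Γ.β.kc_tan hb (fun _ h => supp (hZ.2 h)) hs Vs hV
  have h3 := (Γ.β.kc_tan b_mem (fun _ h => supp h) sm _ vars).1.mono hZ
  have hst := isAB_stab.mono hZ
  have h4 : IsAB Z Γ.En fun y => Γ.enOf y (Z.Tan y) :=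
    ((IsAB.top hst.hin).comap_of_surj h3 h1 (isRM_ks Z) fun x hx => by
      rw [Submodule.map_top]
      exact range_sup_map (hZ.2 hx) (hZ.tan_le x) (self_mem_tan hx)).congr fun _ _ => top_inf_eq _
  have h0 : ∀ x ∈ Z.pts, Γ.β.vec Γ.b x ≠ 0 := fun x hx => vec_ne (hZ.2 hx)
  refine ⟨h4, ?_⟩
  rw [kq_iso h4 hst h1 (IsAB.span h1.hin (Γ.β.isRV_vec _) h0) (isRM_ks Z) fun x hx => ⟨?_, ?_⟩,
    kc_span h1.hin (Γ.β.isRV_vec _) h0, h2, add_sub_cancel]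
  · exact (congrArg _ (comap_span (hZ.2 hx))).trans
      (inf_eq_right.2 (stab_le_enOf (hZ.2 hx) (self_mem_tan hx)))
  · change ((Submodule.map Γ.vec _).comap _).map _ ⊔ Submodule.span ℂ {Γ.vec x} =
      Submodule.map Γ.vec _
    rw [Submodule.map_comap_eq, sup_comm, ← sup_inf_assoc_of_le _ (span_le_map (self_mem_tan hx)),
      inf_eq_right, sup_comm, ← map_tan (hZ.2 hx)]
    exact Submodule.map_mono (hZ.tan_le x)
theorem kl_tan (Vs : Finset Var) (hV : Γ.Y.Vars Vs) : (Bun.tan Γ.Y Vs hV _ sm).kl =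
    1 + ∑ j, K.dual _ (kc Γ.Y (Γ.G j) (Γ.U j)) *
      (kc Γ.Y (Γ.G j) (fun _ => ⊤) - kc Γ.Y (Γ.G j) (Γ.U j)) := by
  rw [(kl_tan_sub (Spc.Sub.refl _) sm Vs hV).2]
  have h1 : kc Γ.Y Γ.En (fun y => Γ.enOf y (Γ.Y.Tan y)) =
      kc Γ.Y Γ.En fun _ => Submodule.pi Set.univ fun _ => ⊤ := kc_congr fun x hx => by
    rw [Submodule.pi_top, eq_top_iff]
    intro φ _
    rw [enOf, map_tan hx]
    exact Submodule.mem_sup_left ⟨φ, rfl⟩
  have h2 := kc_pi fun j => (isAB_U (Γ := Γ) j).homMap (isAB_U j)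
  rw [h1, kc_pi fun j => IsAB.top ((isAB_U j).homMap (isAB_U j)).hin]
  change _ + (_ - kc Γ.Y Γ.En fun x => Submodule.pi Set.univ _) = _
  rw [h2, ← Finset.sum_sub_distrib]
  exact congrArg _ (Finset.sum_congr rfl fun j _ => kq_hom_top (isAB_U j) (isAB_U j))
lemma gpt_eq (hy : Γ.β.Supp Γ.b y) {w : ℤ} (hw : ∀ v : Var, y v ≠ 0 → v.2.2 = w) :
    gpt y = chi (eB Γ.b + w • eT) • y := by
  funext v
  by_cases hv : y v = 0
  · simp [gpt, hv]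
  · obtain ⟨i, rfl⟩ := hy.exists hv
    rw [← hw _ hv]; rfl
lemma g_vec_iff (hξ : Γ.β.Supp Γ.b ξ) {w : ℤ} :
    Γ.Λ.g (Γ.vec ξ) = chi (w • eT) • Γ.vec ξ ↔ ∀ v : Var, ξ v ≠ 0 → v.2.2 = w := by
  refine ⟨fun h v hv => ?_, fun h => ?_⟩
  · obtain ⟨i, rfl⟩ := hξ.exists hv
    have h1 := repr_g Γ.β.he (Γ.vec ξ) i
    rw [h, map_smul, Finsupp.smul_apply, smul_eq_mul, vec, Γ.β.repr_vec] at h1
    have h2 := congrArg (fun d : D => d none) (chi_inj (mul_right_cancel₀ hv h1))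
    simpa [eT, Blk.var] using h2.symm
  · have h1 := Γ.β.vec_gpt Γ.b ξ
    rw [gpt_eq hξ h, map_smul, chi_add, mul_smul] at h1
    exact (smul_right_injective _ (chi_ne _) h1).symm
/-- `T`-fixed points -/
theorem fixed_iff (hy : y ∈ Γ.Y.pts) :
    (∃ w : ℤ, ∀ v : Var, y v ≠ 0 → v.2.2 = w) ↔ ∀ j, (Γ.G j).Stab (Γ.U j y) := by
  refine ⟨fun ⟨w, hw⟩ j => ?_, fun h => ?_⟩
  · rw [Stab, (isAB_U j).eqv y hy, gpt_eq (supp hy) hw, U_smul (chi_ne _)]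
  · obtain ⟨c, -, hc⟩ := uniq hy (Γ.Y.inv y hy) fun j => (h j).symm.trans ((isAB_U j).eqv y hy)
    obtain ⟨u, -, hu⟩ := Γ.Y.rel y hy _ b_mem
    refine ⟨u.2.2, fun v hv => ?_⟩
    have h1 : chi (vdeg v) = c := mul_right_cancel₀ hv (congrFun hc v)
    have h2 : chi (vdeg u) = c := mul_right_cancel₀ hu (congrFun hc u)
    rw [← vdeg_none, chi_inj (h1.trans h2.symm), vdeg_none]
lemma _root_.Crest.Agent.N265.GV.g_of_mem_part {V : GV} {d : D} {v : V.V}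
    (h : v ∈ V.part (· = d)) : V.g v = chi d • v :=
  Module.End.mem_eigenspace_iff.1 (part_le (M := Module.End.eigenspace V.g.toLinearMap (chi d))
    (P := (· = d)) (fun _ e _ hv => Module.End.mem_eigenspace_iff.2 (e ▸ hv)) h)
lemma _root_.Crest.Agent.N265.GV.Stab.eq_sup {V : GV} {B : Finset ℕ} (hV : V.In B)
    {M : Submodule ℂ V.V} (h : V.Stab M) {d e : D} (hde : d ≠ e)
    (h01 : V.part (· = d) ⊔ V.part (· = e) = ⊤) : M ⊓ V.part (· = d) ⊔ M ⊓ V.part (· = e) = M := by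
  have h1 : V.part (· = d) ≤ V.part fun c => ¬ c = e :=
    part_le fun c hc v hv => mem_part (hc ▸ hde) hv
  have h2 : V.part (· = d) = V.part fun c => ¬ c = e := by
    rw [← top_inf_eq (V.part fun c => ¬ c = e), ← h01, sup_inf_assoc_of_le _ h1,
      (hV.isCompl_part (· = e)).inf_eq_bot, sup_bot_eq]
  rw [h2, sup_comm]
  exact h.eq_part_sup hV _
/-- the weight of a fixed point when only the weights `0, 1` occur -/
theorem wt_eq (hy : y ∈ Γ.Y.pts) (hs : ∀ j, (Γ.G j).Stab (Γ.U j y))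
    (h01 : ∀ j, (Γ.G j).part (· = 0) ⊔ (Γ.G j).part (· = eT) = ⊤) {v : Var} (hv : y v ≠ 0) :
    v.2.2 = ∑ j, (finrank ℂ (Γ.U j y ⊓ (Γ.G j).part (· = eT) : Submodule ℂ (Γ.G j).V) : ℤ) := by
  obtain ⟨w, hw⟩ := (fixed_iff hy).2 hs
  have hne : (0 : D) ≠ eT := fun e => by simpa [eT] using congrArg (fun d : D => d none) e
  have h1 := Plk.lamM_two (f := Γ.W.g.toLinearMap) (y := Γ.vec y) (a := 1) (c := chi eT)
    (A := Submodule.pi Set.univ fun j => Γ.U j y ⊓ (Γ.G j).part (· = 0))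
    (B := Submodule.pi Set.univ fun j => Γ.U j y ⊓ (Γ.G j).part (· = eT))
    (fun e => hne (chi_inj (chi_zero.trans e)))
    (fun u hu => funext fun j => by simpa using g_of_mem_part (hu j trivial).2)
    (fun u hu => funext fun j => g_of_mem_part (hu j trivial).2) (by
      rw [← Ut_def, Ut_eq hy]
      refine le_antisymm (sup_le (Submodule.pi_mono fun _ _ => inf_le_left)
        (Submodule.pi_mono fun _ _ => inf_le_left)) fun u hu => ?_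
      choose a ha c hc e using fun j => Submodule.mem_sup.1
        (((hs j).eq_sup (Γ.hG j) hne (h01 j)).ge (hu j trivial))
      exact Submodule.mem_sup.2 ⟨a, fun j _ => ha j, c, fun j _ => hc j, funext e⟩) (finrank_Ut hy)
  have hp : ∀ m : ℕ, chi eT ^ m = chi (m • eT) := fun m => by
    induction m with
    | zero => simp
    | succ m ih => rw [pow_succ, ih, succ_nsmul, chi_add]
  rw [one_pow, one_mul, finrank_sub_pi, hp] at h1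
  have h2 := smul_left_injective ℂ (vec_ne hy) (h1.symm.trans ((g_vec_iff (supp hy)).2 hw))
  simpa [eT, hw v hv] using congrArg (fun d : D => d none) (chi_inj h2).symm
/-- fixed directions at a fixed point are the variations of degree zero -/
theorem mem_enOf_fix (hy : y ∈ Γ.Y.pts) {w : ℕ → ℤ} (hw : ∀ v : Var, y v ≠ 0 → v.2.2 = w v.1)
    {φ : Γ.En.V} : φ ∈ Γ.enOf y (Γ.Y.Tan y ⊓ V.fixS w) ↔
      ∃ φ' : Γ.En.V, (∀ j, Deg0 (Γ.G j) (Γ.G j) (φ' j)) ∧ φ - φ' ∈ Γ.stab y := by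
  have hw' : ∀ v : Var, y v ≠ 0 → v.2.2 = w Γ.b := fun v hv => by
    obtain ⟨i, rfl⟩ := (supp hy).exists hv
    exact hw _ hv
  have hg := (g_vec_iff (supp hy)).2 hw'
  have hfix : ∀ ξ, Γ.β.Supp Γ.b ξ →
      (ξ ∈ V.fixS w ↔ Γ.Λ.g (Γ.vec ξ) = chi (w Γ.b • eT) • Γ.vec ξ) := fun ξ hξ => by
    rw [g_vec_iff hξ, V.mem_fixS]
    refine forall_congr' fun v => ?_
    refine not_imp_comm.trans (imp_congr_right fun hv => ?_)
    obtain ⟨i, rfl⟩ := hξ.exists hv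
    exact Iff.rfl
  have hks : ∀ ψ, Γ.Λ.g (Γ.ks y ψ) = chi (w Γ.b • eT) • Γ.ks y (Γ.En.g ψ) := fun ψ => by
    rw [ks_apply, ← dE_g, hg, map_smul, ks_apply]
  have hin : Γ.En.In ∅ := in_pi fun j => (Γ.hG j).hom (Γ.hG j)
  constructor
  · rintro ⟨ξ, ⟨h1, h2⟩, e⟩
    have hd : Deg0 Γ.En (Γ.Λ.shift (-(w Γ.b • eT))) (Γ.ks y) := fun ψ => by
      rw [shift_g, hks, smul_smul, ← chi_add, neg_add_cancel, chi_zero, one_smul]
    have hΛ : (Γ.Λ.shift (-(w Γ.b • eT))).In ∅ :=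
      ((in_pi Γ.hG).lam _).shift (neg_mem (zsmul_mem (eT_mem _) _))
    obtain ⟨φ₀, h₀, φ₁, h₁, rfl⟩ := Submodule.mem_sup.1
      ((hin.isCompl_part (· = 0)).sup_eq_top ▸ Submodule.mem_top : φ ∈ _)
    refine ⟨φ₀, fun j v => ?_, ?_⟩
    · have h3 := LinearMap.congr_fun (congrFun (g_of_mem_part h₀) j) ((Γ.G j).g v)
      rw [chi_zero, one_smul] at h3
      rw [← h3]
      change (Γ.G j).g (φ₀ j ((Γ.G j).g.symm ((Γ.G j).g v))) = _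
      rw [LinearEquiv.symm_apply_apply]
    · have h3 : Γ.ks y (φ₀ + φ₁) ∈ (Γ.Λ.shift (-(w Γ.b • eT))).part (· = 0) :=
        mem_part (P := (· = 0)) (d := 0) rfl (by
        rw [shift_g, ← e, (hfix ξ (supp_tan h1)).1 h2, smul_smul, ← chi_add, neg_add_cancel])
      have h4 := sub_mem h3 (hd.map_part _ (Submodule.mem_map_of_mem h₀))
      rw [map_add, add_sub_cancel_left] at h4
      have h5 := Submodule.disjoint_def.1 (hΛ.isCompl_part (· = 0)).disjoint _ h4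
        (hd.map_part _ (Submodule.mem_map_of_mem h₁))
      rw [add_sub_cancel_left, ← ks_mem_span hy, h5]
      exact zero_mem _
  · rintro ⟨ψ, h1, h2⟩
    obtain ⟨c, hc⟩ := Submodule.mem_span_singleton.1 ((ks_mem_span hy).2 h2)
    obtain ⟨ξ, hξ, e⟩ : Γ.ks y φ ∈ (Γ.Y.Tan y).map Γ.vec := by
      rw [map_tan hy]; exact Submodule.mem_sup_left ⟨φ, rfl⟩
    refine ⟨ξ, ⟨hξ, (hfix ξ (supp_tan hξ)).2 ?_⟩, e⟩
    have h3 : Γ.En.g ψ = ψ := funext fun j => LinearMap.ext fun v => by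
      change (Γ.G j).g (ψ j ((Γ.G j).g.symm v)) = _
      rw [← h1 j, LinearEquiv.apply_symm_apply]
    rw [map_sub, eq_sub_iff_add_eq] at hc
    rw [e, ← hc, map_add, map_smul, hg, hks, h3, smul_add, smul_comm]
/-- a family of graded subspaces over `X` gives a graph in `X × Y` -/
theorem exists_graph {X : Spc} (hb : Γ.b ∉ X.B) (L : ∀ j, Pt → Submodule ℂ (Γ.G j).V)
    (hL : ∀ j, IsAB X (Γ.G j) (L j)) (hk : ∀ j, ∀ x ∈ X.pts, finrank ℂ (L j x) = Γ.k j) :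
    ∃ (P : Spc) (A : Bun X) (y : A.ι → Var), IsPSub P A 0 Γ.b y ∧ A.Rk 1 ∧ Proj P Γ.Y ∧
      P.B = insert Γ.b X.B ∧ ∀ z, z ∈ P.pts ↔ z ∈ (X.fib Γ.Y).pts ∧
        ∀ j, Γ.U j z = L j (restr X.B z) := by
  have hK : ∀ x ∈ X.pts, finrank ℂ (Submodule.pi Set.univ fun j => L j x) = Γ.K := fun x hx => by
    rw [finrank_sub_pi]; exact Finset.sum_congr rfl fun j _ => hk j x hx
  let A := ((IsAB.pi hL).lamS Γ.K).toBun Γ.β.e (fun i => Γ.β.w i • eT)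
    (fun i => zsmul_mem (eT_mem _) _) Γ.β.he
  have hv : PVar A 0 Γ.b (Γ.β.var Γ.b) :=
    ⟨hb, zero_mem _, Γ.β.var_inj _, fun _ => rfl, fun _ => (zero_add _).symm⟩
  obtain ⟨P, hP⟩ := hv.exists_psub
  have he : ∀ z : Pt, (fun i => z (Γ.β.var Γ.b i)) = Γ.β.e.equivFun (Γ.vec z) := fun z =>
    funext fun i => (Γ.β.repr_vec _ z i).symm
  have hm : ∀ z, z ∈ P.pts ↔ restr X.B z ∈ X.pts ∧ Γ.β.e.equivFun (Γ.vec z) ∈
      (lamS Γ.K (Submodule.pi Set.univ fun j => L j (restr X.B z))).map Γ.β.e.equivFun.toLinearMap ∧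
      Γ.β.e.equivFun (Γ.vec z) ≠ 0 ∧ ∀ v, z v ≠ 0 → v.1 ∈ X.B ∨ v ∈ Set.range (Γ.β.var Γ.b) :=
    fun z => by rw [← he]; exact hP.mem z
  have hbb : Γ.b ∈ Γ.Y.B := b_mem
  have key : ∀ z, z ∈ P.pts ↔ z ∈ (X.fib Γ.Y).pts ∧ ∀ j, Γ.U j z = L j (restr X.B z) := fun z => by
    rw [hm, Spc.mem_fib]
    constructor
    · rintro ⟨h1, ⟨u, h2, e⟩, h3, h4⟩
      rw [Γ.β.e.equivFun.injective e] at h2
      obtain ⟨h5, h6⟩ := mem_of (y := restr Γ.Y.B z) (fun j => hk j _ h1) (fun v hv => by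
          by_contra h0
          have h7 : v.1 ∈ Γ.Y.B := by_contra fun h => h0 (if_neg h)
          rw [restr, if_pos h7] at h0
          rcases h4 v h0 with h | ⟨i, h⟩
          · exact hb (Finset.mem_singleton.1 h7 ▸ h)
          · exact hv i h.symm)
        (by rw [vec_restr hbb]; exact fun h => h3 (by rw [h, map_zero]))
        (by rw [vec_restr hbb]; exact h2)
      refine ⟨⟨h1, h5, fun v hv => ?_⟩, fun j => by rw [← h6, U_restr hbb]⟩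
      rcases h4 v hv with h | ⟨i, rfl⟩
      exacts [Finset.mem_union_left _ h, Finset.mem_union_right _ hbb]
    · rintro ⟨⟨h1, h2, h3⟩, h4⟩
      refine ⟨h1, Submodule.mem_map_of_mem ?_, ?_, fun v hv => ?_⟩
      · have := vec_mem h2
        rw [Ut_eq h2, vec_restr hbb] at this
        simpa only [U_restr hbb, h4] using this
      · rw [Ne, LinearEquiv.map_eq_zero_iff, ← vec_restr hbb]; exact vec_ne h2
      · refine (Finset.mem_union.1 (h3 v hv)).imp_right fun h => ?_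
        obtain ⟨i, e⟩ := (supp h2).exists (v := v) (by rwa [restr, if_pos h])
        exact ⟨i, e.symm⟩
  refine ⟨P, A, _, hP, fun x hx => ?_, ⟨?_, fun z hz => ((key z).1 hz).1.2.1⟩, hP.B, key⟩
  · exact (LinearEquiv.finrank_map_eq Γ.β.e.equivFun _).trans (Plk.finrank_lamS_self (hK x hx))
  · rw [hP.B]; exact Finset.singleton_subset_iff.2 (Finset.mem_insert_self _ _)
end GrD

end Crest.Agent.N265
end
end

-- ▼ part N265/Q/Sub
section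

/-! # Task Q-SUB: the space of subrepresentations of a quiver with relations as a cone -/

set_option autoImplicit false
noncomputable section
open MvPolynomial TensorProduct Module

namespace Crest.Agent.N265
open Alg GV

/-- arrows `Ar j j'` acting on the spaces `G j`, with relations `ρ a'' = ρ a ∘ ρ a'` -/
structure Quiv {J : Type} (G : J → GV) where
  Ar : J → J → Type
  [acg : ∀ j j', AddCommGroup (Ar j j')]
  [mod : ∀ j j', Module ℂ (Ar j j')]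
  [fd : ∀ j j', FiniteDimensional ℂ (Ar j j')]
  ρ : ∀ j j', Ar j j' →ₗ[ℂ] (G j).V →ₗ[ℂ] (G j').V
  deg : ∀ j j' a, Deg0 (G j) (G j') (ρ j j' a)
  Rl : ∀ j j' j'', Ar j' j'' → Ar j j' → Ar j j'' → Prop
  rel : ∀ j j' j'' a a' a'', Rl j j' j'' a a' a'' → ρ j j'' a'' = ρ j' j'' a ∘ₗ ρ j j' a'
attribute [instance] Quiv.acg Quiv.mod Quiv.fd

namespace Quiv
variable {J : Type} [Fintype J] {G : J → GV} (q : Quiv G)
/-- one-cochains -/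
abbrev C : GV := GV.pi fun e : J × J => (triv (q.Ar e.1 e.2)).hom ((G e.1).hom (G e.2))
/-- zero-cochains -/
abbrev En (G : J → GV) : GV := GV.pi fun j => (G j).hom (G j)
/-- `U` is a subrepresentation -/
def IsSub (U : ∀ j, Submodule ℂ (G j).V) : Prop := ∀ j j' a, ∀ u ∈ U j, q.ρ j j' a u ∈ U j'
/-- cochains preserving `U` -/
def den (U : ∀ j, Submodule ℂ (G j).V) : Submodule ℂ q.C.V where
  carrier := {c | ∀ j j' a, ∀ u ∈ U j, c (j, j') a u ∈ U j'}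
  add_mem' := fun h h' j j' a u hu => add_mem (h j j' a u hu) (h' j j' a u hu)
  zero_mem' := fun _ _ _ _ _ => zero_mem _
  smul_mem' := fun c _ h j j' a u hu => Submodule.smul_mem _ c (h j j' a u hu)
/-- cocycles modulo `U` -/
def Zc (U : ∀ j, Submodule ℂ (G j).V) : Submodule ℂ q.C.V where
  carrier := {c | ∀ j j' j'' a a' a'', q.Rl j j' j'' a a' a'' → ∀ u ∈ U j,
    c (j, j'') a'' u - q.ρ j' j'' a (c (j, j') a' u) - c (j', j'') a (q.ρ j j' a' u) ∈ U j''}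
  add_mem' := fun {c c'} h h' j j' j'' a a' a'' hr u hu => by
    convert add_mem (h j j' j'' a a' a'' hr u hu) (h' j j' j'' a a' a'' hr u hu) using 1
    simp only [Pi.add_apply, LinearMap.add_apply, map_add]
    abel
  zero_mem' := fun j j' j'' a a' a'' _ u _ => by
    change (0 : (G j'').V) - q.ρ j' j'' a 0 - 0 ∈ _
    simp
  smul_mem' := fun t c h j j' j'' a a' a'' hr u hu => by
    convert Submodule.smul_mem _ t (h j j' j'' a a' a'' hr u hu) using 1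
    simp only [Pi.smul_apply, LinearMap.smul_apply, map_smul, smul_sub]
/-- coboundaries -/
def δ : (En G).V →ₗ[ℂ] q.C.V where
  toFun φ e :=
    { toFun := fun a => q.ρ e.1 e.2 a ∘ₗ φ e.1 - φ e.2 ∘ₗ q.ρ e.1 e.2 a
      map_add' := fun a a' => LinearMap.ext fun u => by
        simp only [map_add, LinearMap.add_apply, LinearMap.sub_apply, LinearMap.comp_apply]
        abel
      map_smul' := fun t a => LinearMap.ext fun u => by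
        simp only [map_smul, LinearMap.smul_apply, LinearMap.sub_apply, LinearMap.comp_apply,
          RingHom.id_apply, smul_sub] }
  map_add' := fun φ ψ => funext fun e => LinearMap.ext fun a => LinearMap.ext fun u => by
    simp only [LinearMap.coe_mk, AddHom.coe_mk, Pi.add_apply, map_add, LinearMap.add_apply,
      LinearMap.sub_apply, LinearMap.comp_apply]
    abel
  map_smul' := fun t φ => funext fun e => LinearMap.ext fun a => LinearMap.ext fun u => by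
    simp only [LinearMap.coe_mk, AddHom.coe_mk, Pi.smul_apply, map_smul, LinearMap.smul_apply,
      LinearMap.sub_apply, LinearMap.comp_apply, RingHom.id_apply, smul_sub]
lemma δ_apply (φ : (En G).V) (j j' : J) (a : q.Ar j j') (u : (G j).V) :
    q.δ φ (j, j') a u = q.ρ j j' a (φ j u) - φ j' (q.ρ j j' a u) := rfl
lemma C_g (c : q.C.V) (j j' : J) (a : q.Ar j j') (u : (G j).V) :
    q.C.g c (j, j') a u = (G j').g (c (j, j') a ((G j).g.symm u)) := rfl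
lemma En_g (φ : (En G).V) (j : J) (u : (G j).V) :
    (En G).g φ j u = (G j).g (φ j ((G j).g.symm u)) := rfl
omit [Fintype J] in
lemma ρ_symm (j j' : J) (a : q.Ar j j') (u : (G j).V) :
    q.ρ j j' a ((G j).g.symm u) = (G j').g.symm (q.ρ j j' a u) := by
  rw [LinearEquiv.eq_symm_apply, ← q.deg, LinearEquiv.apply_symm_apply]
lemma deg0_δ : Deg0 (En G) q.C q.δ := fun φ =>
  funext fun ⟨j, j'⟩ => LinearMap.ext fun a => LinearMap.ext fun u => by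
    rw [C_g, δ_apply, δ_apply, En_g, En_g, q.deg, map_sub, ρ_symm]
lemma δ_mem_Zc (U : ∀ j, Submodule ℂ (G j).V) (φ : (En G).V) : q.δ φ ∈ q.Zc U :=
  fun j j' j'' a a' a'' hr u _ => by
    rw [δ_apply, δ_apply, δ_apply, q.rel j j' j'' a a' a'' hr]
    simp only [LinearMap.comp_apply, map_sub]
    convert zero_mem (U j'') using 1
    abel
lemma den_le_Zc {U : ∀ j, Submodule ℂ (G j).V} (h : q.IsSub U) : q.den U ≤ q.Zc U :=
  fun _ hc j j' j'' a a' a'' _ u hu => sub_mem (sub_mem (hc j j'' a'' u hu)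
    (h j' j'' a _ (hc j j' a' u hu))) (hc j' j'' a _ (h j j' a' u hu))
/-- the cochain of the representation -/
def rho : q.C.V := fun e => q.ρ e.1 e.2
lemma g_rho : q.C.g q.rho = q.rho :=
  funext fun ⟨j, j'⟩ => LinearMap.ext fun a => LinearMap.ext fun u => by
    rw [C_g]
    change (G j').g (q.ρ j j' a _) = q.ρ j j' a u
    rw [ρ_symm, LinearEquiv.apply_symm_apply]
lemma rho_mem_den {U : ∀ j, Submodule ℂ (G j).V} : q.rho ∈ q.den U ↔ q.IsSub U := Iff.rfl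
/-- the value of a relation on a cochain -/
def rm {j j' j'' : J} (a : q.Ar j' j'') (a' : q.Ar j j') (a'' : q.Ar j j'') :
    q.C.V →ₗ[ℂ] ((G j).hom (G j'')).V where
  toFun c := c (j, j'') a'' - q.ρ j' j'' a ∘ₗ c (j, j') a' - c (j', j'') a ∘ₗ q.ρ j j' a'
  map_add' c c' := LinearMap.ext fun u => by
    simp only [Pi.add_apply, map_add, LinearMap.add_apply, LinearMap.sub_apply,
      LinearMap.comp_apply]
    abel
  map_smul' t c := LinearMap.ext fun u => by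
    simp only [Pi.smul_apply, map_smul, LinearMap.smul_apply, LinearMap.sub_apply,
      LinearMap.comp_apply, RingHom.id_apply, smul_sub]
lemma rm_apply {j j' j'' : J} (a : q.Ar j' j'') (a' : q.Ar j j') (a'' : q.Ar j j'') (c : q.C.V)
    (u : (G j).V) : q.rm a a' a'' c u =
      c (j, j'') a'' u - q.ρ j' j'' a (c (j, j') a' u) - c (j', j'') a (q.ρ j j' a' u) := rfl
lemma deg0_rm {j j' j'' : J} (a : q.Ar j' j'') (a' : q.Ar j j') (a'' : q.Ar j j'') :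
    Deg0 q.C ((G j).hom (G j'')) (q.rm a a' a'') := fun c => LinearMap.ext fun u => by
  change _ = (G j'').g (q.rm a a' a'' c ((G j).g.symm u))
  rw [rm_apply, rm_apply, C_g, C_g, C_g, q.deg, map_sub, map_sub, ρ_symm]
/-- the relations -/
def Rels : Type := {t : Σ j j' j'' : J, q.Ar j' j'' × q.Ar j j' × q.Ar j j'' //
  q.Rl t.1 t.2.1 t.2.2.1 t.2.2.2.1 t.2.2.2.2.1 t.2.2.2.2.2}
lemma Zc_eq (U : ∀ j, Submodule ℂ (G j).V) : q.Zc U = ⨅ t : q.Rels,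
    (homMap (U t.1.1) (U t.1.2.2.1)).comap (q.rm t.1.2.2.2.1 t.1.2.2.2.2.1 t.1.2.2.2.2.2) := by
  ext c
  rw [Submodule.mem_iInf]
  exact ⟨fun h t => h _ _ _ _ _ _ t.2, fun h j j' j'' a a' a'' hr => h ⟨⟨j, j', j'', a, a', a''⟩, hr⟩⟩
/-- evaluation of a cochain -/
def ev {j j' : J} (a : q.Ar j j') : q.C.V →ₗ[ℂ] (G j).V →ₗ[ℂ] (G j').V where
  toFun c := c (j, j') a
  map_add' _ _ := rfl
  map_smul' _ _ := rfl

variable {X Q : Spc} {U : ∀ j, Pt → Submodule ℂ (G j).V}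
theorem isAB_den (hU : ∀ j, IsAB X (G j) (U j)) : IsAB X q.C fun x => q.den fun j => U j x :=
  (IsAB.pi fun e : J × J =>
    IsAB.homTo (in_triv (q.Ar e.1 e.2)) ((hU e.1).homMap (hU e.2))).congr fun _ _ =>
      Submodule.ext fun _ => ⟨fun h j j' => h (j, j') trivial, fun h e _ => h e.1 e.2⟩
theorem cog_Zc (hU : ∀ j, IsAB X (G j) (U j)) : CogA X fun x => q.Zc fun j => U j x :=
  (CogA.iInf fun t : q.Rels => ((hU t.1.1).homMap (hU t.1.2.2.1)).cog.comap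
    (φ := fun _ => q.rm t.1.2.2.2.1 t.1.2.2.2.2.1 t.1.2.2.2.2.2) (RegM.const _)).congr
    fun x _ => (q.Zc_eq fun j => U j x).symm
theorem eqv_Zc (hU : ∀ j, IsAB X (G j) (U j)) : Eqv X q.C fun x => q.Zc fun j => U j x :=
  (Eqv.iInf fun t : q.Rels => ((hU t.1.1).homMap (hU t.1.2.2.1)).eqv'.comap
    (IsRM.const (q.deg0_rm t.1.2.2.2.1 t.1.2.2.2.2.1 t.1.2.2.2.2.2))).congr
    fun x _ => (q.Zc_eq fun j => U j x).symm
/-- a regular map with kernel `den`, and the derivative of its value on the representation -/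
theorem exists_J (hU : ∀ j, IsAB X (G j) (U j)) :
    ∃ (V : GV) (Jm : Pt → q.C.V →ₗ[ℂ] V.V), V.In X.B ∧ IsRM X q.C V Jm ∧
      (∀ x ∈ X.pts, LinearMap.ker (Jm x) = q.den fun j => U j x) ∧
      ∀ x (hx : x ∈ X.pts), (q.IsSub fun j => U j x) → ∀ ξ ∈ X.Tan x, ∀ φ : (En G).V,
        (∀ j, IsVar X.fn ⟨x, hx⟩ (X.pd x ξ) (fun y => U j y.1) (φ j)) →
        dV (X.pd x ξ) (fun y : X.pts => Jm y.1 q.rho) = Jm x (q.δ φ) := by
  choose W Φ hW hΦ hr using fun j => (hU j).exists_range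
  choose W' Ψ hW' hΨ hk using fun j => (hU j).exists_ker
  have hmem : ∀ j, ∀ x ∈ X.pts, ∀ w, Φ j x w ∈ U j x := fun j x hx w => hr j x hx ▸ ⟨w, rfl⟩
  have hker : ∀ j, ∀ x ∈ X.pts, ∀ v, Ψ j x v = 0 ↔ v ∈ U j x := fun j x hx v => by
    rw [← hk j x hx, LinearMap.mem_ker]
  refine ⟨GV.pi fun e : J × J => (triv (q.Ar e.1 e.2)).hom ((W e.1).hom (W' e.2)),
    fun x => LinearMap.pi fun e => homM LinearMap.id (homM (Φ e.1 x) (Ψ e.2 x)) ∘ₗ LinearMap.proj e,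
    in_pi fun e => (in_triv _).hom ((hW e.1).hom (hW' e.2)),
    IsRM.pi fun e => (IsRM.id.homM ((hΦ e.1).homM (hΨ e.2))).comp
      (IsRM.const (V := q.C) (f := LinearMap.proj e) fun _ => rfl), fun x hx => ?_,
    fun x hx hs ξ hξ φ hφ => ?_⟩
  · ext c
    refine ⟨fun h j j' a u hu => ?_, fun h => ?_⟩
    · obtain ⟨w, rfl⟩ : u ∈ LinearMap.range (Φ j x) := (hr j x hx).symm ▸ hu
      exact (hker j' x hx _).1
        (LinearMap.congr_fun (LinearMap.congr_fun (congrFun h (j, j')) a) w)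
    · exact funext fun e => LinearMap.ext fun a => LinearMap.ext fun w =>
        (hker e.2 x hx _).2 (h e.1 e.2 a _ (hmem e.1 x hx w))
  · refine funext fun ⟨j, j'⟩ => LinearMap.ext fun a => LinearMap.ext fun w => ?_
    have hd := Spc.pder_pd hx hξ
    have e1 := dV_lin (δ := X.pd x ξ) (LinearMap.applyₗ w ∘ₗ LinearMap.applyₗ a ∘ₗ
      (LinearMap.proj (j, j') : (GV.pi fun e : J × J =>
        (triv (q.Ar e.1 e.2)).hom ((W e.1).hom (W' e.2))).V →ₗ[ℂ] _))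
      fun y : X.pts => (LinearMap.pi fun e => homM LinearMap.id (homM (Φ e.1 y.1) (Ψ e.2 y.1)) ∘ₗ
        LinearMap.proj e) q.rho
    refine e1.symm.trans ?_
    change dV (X.pd x ξ) (fun y : X.pts => Ψ j' y.1 (q.ρ j j' a (Φ j y.1 w))) =
      Ψ j' x (q.ρ j j' a (φ j (Φ j x w)) - φ j' (q.ρ j j' a (Φ j x w)))
    rw [hd.dV_app (hΨ j').reg (((hΦ j).reg w).map (q.ρ j j' a)), dV_lin, ← dV_apply]
    have h1 := IsVar.kill hd (hU j').alg (hΨ j').reg (fun y v hv => (hker j' y.1 y.2 v).2 hv)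
      (hφ j') _ (hs j j' a _ (hmem j x hx w))
    have h2 := (hker j' x hx _).2 (hs j j' a _
      (IsVar.into (hΦ j).reg (fun y v => hmem j y.1 y.2 v) (hφ j) w))
    rw [map_sub, map_sub, sub_eq_zero] at h2
    rw [map_sub, h2, eq_neg_of_add_eq_zero_left h1]
    abel
theorem exists_subSpc (hU : ∀ j, IsAB X (G j) (U j)) :
    ∃ Q : Spc, Q.Sub X ∧ ∀ x ∈ X.pts, x ∈ Q.pts ↔ q.IsSub fun j => U j x := by
  obtain ⟨V, Jm, hV, hJ, hk, -⟩ := q.exists_J hU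
  obtain ⟨n, b, deg, -, hb⟩ := hV.exists_basis
  obtain ⟨r, h1, h2⟩ := (hJ.app (IsRV.const q.g_rho)).exists_poly b hb
  refine ⟨X.cut (Set.range r) (by rintro _ ⟨i, rfl⟩; exact ⟨_, h1 i⟩), X.cut_sub _ _,
    fun x hx => ?_⟩
  rw [Spc.mem_cut, ← rho_mem_den, ← hk x hx, LinearMap.mem_ker, ← b.repr.map_eq_zero_iff]
  refine ⟨fun h => Finsupp.ext fun i => (h2 x hx i).symm.trans (h.2 _ ⟨i, rfl⟩), fun h => ⟨hx, ?_⟩⟩
  rintro _ ⟨i, rfl⟩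
  rw [h2 x hx i, h, Finsupp.zero_apply]
/-- covectors that extend to regular covectors killing `rho` and `den` -/
def ext (X : Spc) (U : ∀ j, Pt → Submodule ℂ (G j).V) (x : X.pts) : Submodule ℂ (Dual ℂ q.C.V) where
  carrier := {b | ∃ ν : X.pts → Dual ℂ q.C.V, RegV X.fn ν ∧ ν x = b ∧
    ∀ y, ν y q.rho = 0 ∧ ν y ∈ (q.den fun j => U j y.1).dualAnnihilator}
  add_mem' := by
    rintro _ _ ⟨ν, h1, rfl, h2⟩ ⟨ν', h1', rfl, h2'⟩
    exact ⟨_, h1.add h1', rfl, fun y => ⟨by simp [(h2 y).1, (h2' y).1], add_mem (h2 y).2 (h2' y).2⟩⟩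
  zero_mem' := ⟨_, RegV.zero, rfl, fun _ => ⟨rfl, zero_mem _⟩⟩
  smul_mem' := by
    rintro t _ ⟨ν, h1, rfl, h2⟩
    exact ⟨_, h1.csmul t, rfl, fun y => ⟨by simp [(h2 y).1], Submodule.smul_mem _ _ (h2 y).2⟩⟩
theorem ann_Zc_le (hU : ∀ j, IsAB X (G j) (U j)) (x : X.pts) (hs : q.IsSub fun j => U j x.1) :
    (q.Zc fun j => U j x.1).dualAnnihilator ≤ q.ext X U x := by
  rw [← Subspace.dualCoannihilator_dualAnnihilator_eq (W := q.ext X U x)]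
  refine Submodule.dualAnnihilator_anti fun c hc j j' j'' a a' a'' hr u hu => ?_
  refine (Subspace.forall_mem_dualAnnihilator_apply_eq_zero_iff _ _).1 fun ℓ hℓ => ?_
  obtain ⟨σ, hσ, hσm, rfl⟩ := (hU j).alg.exists_section (x₀ := x) hu
  obtain ⟨Λ, hΛ, hΛm, rfl⟩ := (hU j'').alg.perp.exists_section (x₀ := x) hℓ
  obtain ⟨f, hf, f0, P, hP, h1, h2, -⟩ := ((hU j').alg.algAt x).out
  simp only [Submodule.mem_dualAnnihilator] at hΛm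
  let ν : X.pts → Dual ℂ q.C.V := fun y => Λ y ∘ₗ (f y • (q.ev a'').flip (σ y) -
    q.ρ j' j'' a ∘ₗ (f y • LinearMap.id - P y) ∘ₗ (q.ev a').flip (σ y) -
    (q.ev a).flip (P y (q.ρ j j' a' (σ y))))
  have hν : ∀ y c, ν y c = Λ y (f y • c (j, j'') a'' (σ y) -
      q.ρ j' j'' a (f y • c (j, j') a' (σ y) - P y (c (j, j') a' (σ y))) -
      c (j', j'') a (P y (q.ρ j j' a' (σ y)))) := fun _ _ => rfl
  have hreg : RegV X.fn ν := by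
    refine RegM.regV fun c => ?_
    simp only [hν]
    exact (RegM.of_regV hΛ).apply ((((hσ.map _).smul hf).sub
      ((((hσ.map _).smul hf).sub (hP.apply (hσ.map _))).map _)).sub ((hP.apply (hσ.map _)).map _))
  have h3 := (Submodule.mem_dualCoannihilator c).1 hc (ν x) ⟨ν, hreg, rfl, fun y => ⟨?_, ?_⟩⟩
  · have h4 := hΛm x _ (hs j' j'' a _ (h1 x (c (j, j') a' (σ x))))
    rw [hν, h2 x _ (hs j j' a' _ (hσm x))] at h3
    simp only [map_sub, map_smul, h4, smul_eq_mul] at h3 ⊢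
    refine mul_left_cancel₀ f0 ?_
    linear_combination h3
  · rw [hν]
    change Λ y (f y • q.ρ j j'' a'' (σ y) -
      q.ρ j' j'' a (f y • q.ρ j j' a' (σ y) - P y (q.ρ j j' a' (σ y))) -
      q.ρ j' j'' a (P y (q.ρ j j' a' (σ y)))) = 0
    rw [q.rel j j' j'' a a' a'' hr, map_sub (q.ρ j' j'' a), map_smul, LinearMap.comp_apply]
    simp
  · refine (Submodule.mem_dualAnnihilator _).2 fun c hc => ?_
    rw [hν, h2 y _ (hc j j' a' _ (hσm y)), sub_self, map_zero, sub_zero]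
    exact hΛm y _ (sub_mem (Submodule.smul_mem _ _ (hc j j'' a'' _ (hσm y)))
      (hc j' j'' a _ (h1 y _)))
/-- With `Φ j` onto `U j`, `Ψ j` with kernel `U j` (`IsAB.exists_range/ker`) put
`J c (j,j') a = Ψ j' ∘ c (j,j') a ∘ Φ j`, `s = J ρ`, `E = J (Zc)`.  Cone: a covector `a` killing `E x₀`
has `J^* a = ∑` relation covectors `r(c) = λ (c a'' u - ρ a c a' u - c a ρ a' u)`; extend `λ`, `u` to
sections, let `P` be the local projector onto `U j'` with denominator `f`, and use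
`ν(c) = f λ c a'' u - λ ρ a (f - P) c a' u - λ c a P ρ a' u`, which kills `ρ` and `den = ker J` at every
point; lift `ν` through `J^*` (constant rank, `Alg.lift`) and correct by a section of `(range J)^⊥`.
Derivative: `ds = Ψ (ρ φ - φ ρ) Φ` (`IsVar.kill`, `IsVar.into`). -/
theorem exists_cone (hU : ∀ j, IsAB X (G j) (U j)) (hQ : Q.Sub X)
    (hm : ∀ x ∈ X.pts, x ∈ Q.pts ↔ q.IsSub fun j => U j x)
    (hZ : IsAB Q q.C fun x => q.Zc fun j => U j x) :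
    ∃ (V : GV) (E : Pt → Submodule ℂ V.V) (s : Pt → V.V), ACone X Q V E s ∧
      kc Q V E = kc Q q.C (fun x => q.Zc fun j => U j x) - kc Q q.C (fun x => q.den fun j => U j x) ∧
      ∀ x (hx : x ∈ Q.pts), ∀ ξ ∈ X.Tan x, ∀ φ : (En G).V,
        (∀ j, IsVar X.fn ⟨x, hQ.2 hx⟩ (X.pd x ξ) (fun y => U j y.1) (φ j)) →
        (dV (X.pd x ξ) (fun y : X.pts => s y.1) = 0 ↔ q.δ φ ∈ q.den fun j => U j x) := by
  obtain ⟨V, Jm, hV, hJ, hk, hd⟩ := q.exists_J hU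
  have hsub : ∀ x ∈ Q.pts, q.IsSub fun j => U j x := fun x hx => (hm x (hQ.2 hx)).1 hx
  have hinf : ∀ x ∈ Q.pts, (q.den fun j => U j x) =
      (q.Zc fun j => U j x) ⊓ LinearMap.ker (Jm x) := fun x hx => by
    rw [hk x (hQ.2 hx), inf_eq_right.2 (q.den_le_Zc (hsub x hx))]
  have hE : IsAB Q V fun x => (q.Zc fun j => U j x).map (Jm x) :=
    hZ.map_of_ker (hQ.1 ▸ hV) (hJ.mono hQ) (((q.isAB_den hU).mono hQ).congr hinf)
  refine ⟨V, _, fun x => Jm x q.rho, ⟨hQ, hE, hJ.app (IsRV.const q.g_rho), fun x hx => ?_,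
    fun x hx a ha => ?_⟩, ?_, fun x hx ξ hξ φ hφ => ?_⟩
  · rw [hm x hx, ← rho_mem_den, ← hk x hx, LinearMap.mem_ker]
  · obtain ⟨ν, h1, h2, h3⟩ := q.ann_Zc_le hU ⟨x, hQ.2 hx⟩ (hsub x hx)
      (show (Jm x).dualMap a ∈ _ from (Submodule.mem_dualAnnihilator _).2 fun c hc =>
        (Submodule.mem_dualAnnihilator _).1 ha _ ⟨c, hc, rfl⟩)
    obtain ⟨g, hg, g0, σ, hσ, -, h4⟩ := (Alg.const (⊤ : Submodule ℂ (Dual ℂ V.V))).lift
      (q.isAB_den hU).alg.perp hJ.reg.dualMap (fun y => by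
        rw [Submodule.map_top, LinearMap.range_dualMap_eq_dualAnnihilator_ker, hk y.1 y.2])
      ⟨x, hQ.2 hx⟩
    have hrg : Alg X.fn fun y : X.pts => (⊤ : Submodule ℂ q.C.V).map (Jm y.1) :=
      (Alg.const ⊤).map_of_ker (q.isAB_den hU).alg hJ.reg fun y => by rw [hk y.1 y.2, top_inf_eq]
    obtain ⟨τ, t1, t2, t3⟩ := hrg.perp.exists_section (x₀ := ⟨x, hQ.2 hx⟩)
      (v := a - (g ⟨x, hQ.2 hx⟩)⁻¹ • σ ⟨x, hQ.2 hx⟩ (ν ⟨x, hQ.2 hx⟩)) (by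
        refine (Submodule.mem_dualAnnihilator _).2 ?_
        rintro _ ⟨c, -, rfl⟩
        have h5 := LinearMap.congr_fun (h4 _ _ (h3 ⟨x, hQ.2 hx⟩).2) c
        rw [LinearMap.dualMap_apply, LinearMap.smul_apply] at h5
        rw [LinearMap.sub_apply, LinearMap.smul_apply, h5, smul_smul, inv_mul_cancel₀ g0, one_smul,
          h2, LinearMap.dualMap_apply, sub_self])
    obtain ⟨μ, hμ⟩ := Spc.exists_ext fun y : X.pts => (g ⟨x, hQ.2 hx⟩)⁻¹ • σ y (ν y) + τ y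
    refine ⟨μ, hμ ▸ ((hσ.apply h1).csmul _).add t1, ?_, fun y hy => ?_⟩
    · rw [← congrFun hμ ⟨x, hQ.2 hx⟩, t3, add_sub_cancel]
    · have h5 := LinearMap.congr_fun (h4 _ _ (h3 ⟨y, hy⟩).2) q.rho
      rw [LinearMap.dualMap_apply, LinearMap.smul_apply, (h3 ⟨y, hy⟩).1, smul_zero] at h5
      rw [← congrFun hμ ⟨y, hy⟩, LinearMap.add_apply, LinearMap.smul_apply, h5, smul_zero, zero_add]
      exact (Submodule.mem_dualAnnihilator _).1 (t2 ⟨y, hy⟩) _ ⟨_, trivial, rfl⟩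
  · rw [kc_map hZ (hJ.mono hQ) hE, kc_congr hinf, add_sub_cancel_left]
  · rw [hd x (hQ.2 hx) (hsub x hx) ξ hξ φ hφ, ← hk x (hQ.2 hx), LinearMap.mem_ker]
/-- tangent vectors of a space of subrepresentations (no hypothesis on `Zc`) -/
theorem δ_mem_den {Z : Spc} (hU : ∀ j, IsAB X (G j) (U j)) (hZ : Z.Sub X)
    (hm : ∀ x ∈ Z.pts, q.IsSub fun j => U j x) {x ξ : Pt} (hx : x ∈ Z.pts) (hξ : ξ ∈ Z.Tan x)
    {φ : (En G).V} (hφ : ∀ j, IsVar X.fn ⟨x, hZ.2 hx⟩ (X.pd x ξ) (fun y => U j y.1) (φ j)) :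
    q.δ φ ∈ q.den fun j => U j x := by
  obtain ⟨V, Jm, -, hJ, hk, hd⟩ := q.exists_J hU
  rw [← hk x (hZ.2 hx), LinearMap.mem_ker, ← hd x (hZ.2 hx) (hm x hx) ξ (hZ.tan_le x hξ) φ hφ]
  exact dV_pd_eq_zero hZ hξ (σ := fun y => Jm y q.rho) (hJ.reg _) fun z hz => by
    rw [← LinearMap.mem_ker, hk z (hZ.2 hz)]
    exact hm z hz
end Quiv

end Crest.Agent.N265
end
end

-- ▼ part N265/Q/Defs
section

/-! # Row 265, the Quot scheme as a space of subrepresentations (definitions, helper68) -/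

set_option autoImplicit false
set_option linter.dupNamespace false
noncomputable section
open MvPolynomial Module TensorProduct

namespace Crest.Agent.N265.M
open Crest.Agent.R274
open Defs_781 Lat_781 SnapA_99 SnapB_99 SnapE_99 Gen7_750 Xs1_781 SkDefs_474
open Alg GV Br N Fib _root_.Crest.Agent.N265.Pow
variable {Sg : Surf}

/-- the degrees `p, p + 3, p + 4, …, q` -/
abbrev JJ (p q : ℕ) : Type := {j : ℕ // j ∈ insert p (Finset.Icc (p + 3) q)}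
/-- the lowest degree -/
def JJ.bot (p q : ℕ) : JJ p q := ⟨p, Finset.mem_insert_self _ _⟩
lemma JJ.le {p q : ℕ} (j : JJ p q) : p ≤ j.1 := by
  rcases Finset.mem_insert.1 j.2 with h | h
  · exact h.ge
  · have := (Finset.mem_Icc.1 h).1; omega
lemma JJ.cases {p q : ℕ} (j : JJ p q) : j = JJ.bot p q ∨ (p + 3 ≤ j.1 ∧ j.1 ≤ q) :=
  (Finset.mem_insert.1 j.2).imp Subtype.ext Finset.mem_Icc.1
/-- the degree `k + p` -/
def JJ.mk' {p q : ℕ} (k : ℕ) (h3 : 3 ≤ k) (hq : k + p ≤ q) : JJ p q :=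
  ⟨k + p, Finset.mem_insert_of_mem (Finset.mem_Icc.2 ⟨by omega, hq⟩)⟩

/-- arrows from degree `j` to degree `j'` -/
def Arw (Sg : Surf) (j j' : ℕ) : Submodule ℂ Sg.F := if j < j' then SA Sg (j' - j) else ⊥
instance (j j' : ℕ) : FiniteDimensional ℂ (Arw Sg j j') := by
  by_cases h : j < j'
  · rw [Arw, if_pos h]; infer_instance
  · rw [Arw, if_neg h]; infer_instance
lemma Arw_add (j : ℕ) {k : ℕ} (hk : 0 < k) : Arw Sg j (k + j) = SA Sg k := by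
  rw [Arw, if_pos (by omega), Nat.add_sub_cancel]
lemma Arw_of_le {j j' : ℕ} (h : j' ≤ j) : Arw Sg j j' = ⊥ := if_neg (by omega)
lemma Arw_of_lt {j j' : ℕ} (h : j < j') : Arw Sg j j' = SA Sg (j' - j) := if_pos h
lemma Arw_mul {j j' : ℕ} {a f : Sg.F} (ha : a ∈ Arw Sg j j') (hf : f ∈ SA Sg j) :
    a * f ∈ SA Sg j' := by
  unfold Arw at ha
  split_ifs at ha with h
  · have := SA_mul Sg ha hf
    rwa [Nat.sub_add_cancel h.le] at this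
  · rw [(Submodule.mem_bot ℂ).1 ha, zero_mul]; exact zero_mem _

namespace Amb
variable (𝔞 : Amb Sg)
/-- multiplication by an arrow -/
def act (j j' : ℕ) : Arw Sg j j' →ₗ[ℂ] (𝔞.G j).V →ₗ[ℂ] (𝔞.G j').V :=
  LinearMap.mk₂ ℂ (fun a w i => ⟨a.1 * (w i).1, Arw_mul a.2 (w i).2⟩)
    (fun _ _ _ => funext fun _ => Subtype.ext (add_mul _ _ _))
    (fun _ _ _ => funext fun _ => Subtype.ext (smul_mul_assoc _ _ _))
    (fun _ _ _ => funext fun _ => Subtype.ext (mul_add _ _ _))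
    (fun _ _ _ => funext fun _ => Subtype.ext (mul_smul_comm _ _ _))
@[simp] lemma act_val {j j' : ℕ} (a : Arw Sg j j') (w : (𝔞.G j).V) (i : 𝔞.ι) :
    (𝔞.act j j' a w i).1 = a.1 * (w i).1 := rfl
lemma inc_act {j j' : ℕ} (a : Arw Sg j j') (w : (𝔞.G j).V) :
    𝔞.inc j' (𝔞.act j j' a w) = a.1 • 𝔞.inc j w := by
  rw [inc_apply, inc_apply, ← map_smul]; rfl
/-- the pieces in the degrees `JJ p q` -/
abbrev GJ (p q : ℕ) : JJ p q → GV := fun j => 𝔞.G j.1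
/-- the quiver of multiplications -/
def qv (p q : ℕ) : Quiv (𝔞.GJ p q) where
  Ar j j' := Arw Sg j.1 j'.1
  ρ j j' := 𝔞.act j.1 j'.1
  deg j j' a w := funext fun i => Subtype.ext (by
    rw [g_apply, act_val, g_apply, Submodule.coe_smul, Submodule.coe_smul, act_val,
      mul_smul_comm])
  Rl _ _ _ a a' a'' := a''.1 = a.1 * a'.1
  rel _ _ _ a a' a'' h := LinearMap.ext fun w => funext fun i => Subtype.ext (by
    rw [LinearMap.comp_apply, act_val, act_val, act_val, h, mul_assoc])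
/-- the pieces of a lattice -/
abbrev pcs (p q : ℕ) (L : XL Sg 𝔞.M) : ∀ j : JJ p q, Submodule ℂ (𝔞.GJ p q j).V :=
  fun j => 𝔞.pc L j.1
lemma isSub_pcs (p q : ℕ) (L : XL Sg 𝔞.M) : (𝔞.qv p q).IsSub (𝔞.pcs p q L) := by
  intro j j' a u hu
  change 𝔞.inc _ (𝔞.act j.1 j'.1 a u) ∈ Gm L.toLat (j'.1 : ℕ)
  rw [inc_act]
  rcases lt_or_ge j.1 j'.1 with h | h
  · have ha : (a : Arw Sg j.1 j'.1).1 ∈ SA Sg (j'.1 - j.1) := (Arw_of_lt h).le a.2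
    have := AA_smul_mem (SA_mem_AA ⟨_, ha⟩) hu
    rwa [← Nat.cast_add, Nat.sub_add_cancel h.le] at this
  · rw [(Submodule.mem_bot ℂ).1 ((Arw_of_le h).le a.2), zero_smul]; exact zero_mem _
end Amb

/-- numerical data of a Quot scheme of `𝔞.O`: the quotients have Hilbert polynomial `d e + c` -/
structure Par (𝔞 : Amb Sg) where
  p : ℕ
  q : ℕ
  d : ℕ
  c : ℤ
  b : ℕ
  b0 : b ≠ 0
  two : 2 ≤ p
  five : 5 + p ≤ q
  reg : ∀ K : XL Sg 𝔞.M, LeL K 𝔞.O → cL K.toLat = HP Sg (Fintype.card 𝔞.ι) d c → RegL K.toLat p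
  pts : ∀ U : ∀ j : JJ p q, Submodule ℂ (𝔞.GJ p q j).V,
    (∀ j, finrank ℂ (U j) = (HP Sg (Fintype.card 𝔞.ι) d c j.1).toNat) → (𝔞.qv p q).IsSub U →
    ∃ K : XL Sg 𝔞.M, LeL K 𝔞.O ∧ cL K.toLat = HP Sg (Fintype.card 𝔞.ι) d c ∧ 𝔞.pcs p q K = U

namespace Par
variable {𝔞 : Amb Sg} (P : Par 𝔞)
/-- the Hilbert polynomial of the kernels -/
abbrev hp : ℤ → ℤ := HP Sg (Fintype.card 𝔞.ι) P.d P.c
/-- the graded Grassmannian -/
abbrev Γ : GrD :=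
  { J := JJ P.p P.q, G := 𝔞.GJ P.p P.q, hG := fun j => 𝔞.in_G j.1 ∅
    k := fun j => (P.hp j.1).toNat, b := P.b }
/-- the quiver -/
abbrev qv : Quiv P.Γ.G := 𝔞.qv P.p P.q
/-- the Quot scheme -/
def Qa : Spc := (P.qv.exists_subSpc (X := P.Γ.Y) GrD.isAB_U).choose
lemma Qa_sub : P.Qa.Sub P.Γ.Y := (P.qv.exists_subSpc (X := P.Γ.Y) GrD.isAB_U).choose_spec.1
lemma mem_Qa {y : Pt} (hy : y ∈ P.Γ.Y.pts) : y ∈ P.Qa.pts ↔ P.qv.IsSub fun j => P.Γ.U j y :=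
  (P.qv.exists_subSpc (X := P.Γ.Y) GrD.isAB_U).choose_spec.2 y hy
lemma Qa_B : P.Qa.B = {P.b} := P.Qa_sub.1
lemma nb {Z : Spc} (h : Z.Sub P.Qa) : 0 ∉ Z.B := by
  rw [h.1, P.Qa_B, Finset.mem_singleton]; exact P.b0.symm
/-- the universal lattice -/
def Lq (y : Pt) : XL Sg 𝔞.M :=
  genS Sg.V.X ((P.Γ.U (JJ.bot P.p P.q) y).map (𝔞.inc P.p)) P.p
end Par

/-- the summands of a lattice in `F²` -/
def smd (L : XL Sg (Fin 2 → Sg.F)) (i : Fin 2) : XL Sg Sg.F :=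
  comapX L (LinearMap.single Sg.F (fun _ : Fin 2 => Sg.F) i) 
    (Pi.single_injective (M := fun _ : Fin 2 => Sg.F) i)

end Crest.Agent.N265.M
end
end

-- ▼ part N265/Q/Coc0
section

/-! # Row 265, task Q-COC, tools: first and second syzygies in coordinates -/

set_option autoImplicit false
set_option linter.dupNamespace false
noncomputable section
open MvPolynomial Module TensorProduct

namespace Crest.Agent.N265.M.Cc
open Crest.Agent.R274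
open Defs_781 Lat_781 SnapA_99 SnapB_99 SnapE_99 Gen7_750 Xs1_781 SkDefs_474
open Alg Br N Fib Fib.Hz Hm Hx _root_.Crest.Agent.N265.Pow

section LA
variable {E F : Type} [AddCommGroup E] [Module ℂ E] [AddCommGroup F] [Module ℂ F]
/-- a linear section on a subspace -/
lemma exists_sec (f : E →ₗ[ℂ] F) (P : Submodule ℂ E) :
    ∃ s : F →ₗ[ℂ] E, (∀ y, s y ∈ P) ∧ ∀ x ∈ P, f (s (f x)) = f x := by
  obtain ⟨s, hs⟩ := (f.domRestrict P).rangeRestrict.exists_rightInverse_of_surjective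
    (LinearMap.range_rangeRestrict _)
  obtain ⟨g, hg⟩ := s.exists_extend
  refine ⟨P.subtype ∘ₗ g, fun y => (g y).2, fun x hx => ?_⟩
  have h1 := LinearMap.congr_fun hg ⟨f x, ⟨x, hx⟩, rfl⟩
  have h2 := congrArg Subtype.val (LinearMap.congr_fun hs ⟨f x, ⟨x, hx⟩, rfl⟩)
  exact (congrArg (fun z : P => f z) h1).trans h2
lemma exists_ret (P : Submodule ℂ E) : ∃ r : E →ₗ[ℂ] P, ∀ x : P, r x = x :=
  (P.subtype.exists_leftInverse_of_injective P.ker_subtype).imp fun _ h => LinearMap.congr_fun h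
lemma map_proj_pi {ι : Type} [DecidableEq ι] {M : ι → Type} [∀ i, AddCommGroup (M i)]
    [∀ i, Module ℂ (M i)] (P : ∀ i, Submodule ℂ (M i)) (i : ι) :
    (Submodule.pi Set.univ P).map (LinearMap.proj i) = P i := by
  refine le_antisymm (Submodule.map_le_iff_le_comap.2 fun x hx => hx i trivial) fun v hv =>
    ⟨Pi.single i v, fun j _ => ?_, Pi.single_eq_same i v⟩
  by_cases h : j = i
  · subst h; rwa [Pi.single_eq_same]
  · rw [Pi.single_eq_of_ne h]; exact zero_mem _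
end LA

/-- the middle term of a short exact sequence of subquotients -/
theorem isAB_mid {X : Spc} {U V W : GV} {L L' : Pt → Submodule ℂ V.V} {M M' : Pt → Submodule ℂ W.V}
    {N N' : Pt → Submodule ℂ U.V} {φ : Pt → V.V →ₗ[ℂ] W.V} {ψ : Pt → W.V →ₗ[ℂ] U.V}
    (h : IsAB X V L) (h' : IsAB X V L') (hc : CogA X M) (he : Eqv X W M) (hM' : IsAB X W M')
    (hN : IsAB X U N) (hN' : IsAB X U N')
    (e : ∀ x ∈ X.pts, SqInj (L x) (L' x) (M' x) (φ x) ∧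
      SqEx (L x) (M x) (M' x) (N' x) (φ x) (ψ x) ∧ SqSurj (M x) (N x) (N' x) (ψ x)) :
    IsAB X W M := by
  have key : ∀ x ∈ X.pts, finrank ℂ (M x) + finrank ℂ (L' x) + finrank ℂ (N' x) =
      finrank ℂ (L x) + finrank ℂ (M' x) + finrank ℂ (N x) := fun x hx => by
    have h1 := finrank_inf_comap_add (L x) (M' x) (φ x)
    have h2 := finrank_inf_comap_add (M x) (N' x) (ψ x)
    rw [(e x hx).1, (e x hx).2.1] at h1
    rw [(e x hx).2.2] at h2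
    omega
  refine ⟨hM'.hin, hc.alg_of_usc fun x hx => ?_, he⟩
  obtain ⟨r, h0, hr⟩ := ((h.lc.prod h'.lc).prod (hM'.lc.prod (hN.lc.prod hN'.lc))) x hx
  refine ⟨r, h0, fun y hy hy' => ?_⟩
  have h1 := hr y hy hy'
  have h2 := key x hx
  have h3 := key y hy
  simp only [Prod.mk.injEq] at h1 ⊢
  omega

section chase
variable {F V V' : Type} [Field F] [AddCommGroup V] [Module F V] [AddCommGroup V'] [Module F V']
  (t : Fin 3 → F) (π : V' →ₗ[F] V)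
lemma map_kos2 (y : Fin 3 → V') (i : Fin 3) :
    π (kos2 V' t y i) = kos2 V t (fun i => π (y i)) i := by
  rw [kos2_apply, kos2_apply, map_sub, map_smul, map_smul]
lemma map_kos3 (z : Fin 3 → V') : π (kos3 V' t z) = kos3 V t fun i => π (z i) := by
  simp only [kos3_apply, map_sum, map_smul]
end chase

variable {Sg : Surf} {𝔞 𝔟 : Amb Sg} {K : XL Sg 𝔞.M} {K' : XL Sg 𝔟.M} {p k : ℕ}

lemma arw_cases {j j' : ℕ} {a : Sg.F} (ha : a ∈ Arw Sg j j') :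
    a = 0 ∨ ∃ k, 0 < k ∧ j' = k + j ∧ a ∈ SA Sg k := by
  rcases lt_or_ge j j' with h | h
  · exact Or.inr ⟨j' - j, by omega, by omega, (Arw_of_lt h).le ha⟩
  · exact Or.inl ((Arw_of_le h).le ha)
lemma mem_arw {j j' k : ℕ} (h : j' = k + j) (hk : 0 < k) {a : Sg.F} (ha : a ∈ SA Sg k) :
    a ∈ Arw Sg j j' := h ▸ (Arw_add j hk).ge ha
lemma arw_arw {j j' j'' : ℕ} {a a' : Sg.F} (ha : a ∈ Arw Sg j' j'') (ha' : a' ∈ Arw Sg j j') :
    a * a' ∈ Arw Sg j j'' := by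
  obtain rfl | ⟨k, hk, rfl, h⟩ := arw_cases ha
  · rw [zero_mul]; exact zero_mem _
  obtain rfl | ⟨k', -, rfl, h'⟩ := arw_cases ha'
  · rw [mul_zero]; exact zero_mem _
  exact mem_arw (add_assoc _ _ _).symm (by omega) (SA_mul Sg h h')
lemma SA_smul {M : Type} [AddCommGroup M] [Module ℂ M] [Module Sg.F M] [IsScalarTower ℂ Sg.F M]
    {L : XL Sg M} {j j' k : ℕ} (e : j' = k + j) {a : Sg.F} (ha : a ∈ SA Sg k) {m : M}
    (hm : m ∈ Gm L.toLat j) : a • m ∈ Gm L.toLat j' := by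
  rw [e, Nat.cast_add]; exact AA_smul_mem (mem_SA.1 ha) hm
lemma arw_smul {M : Type} [AddCommGroup M] [Module ℂ M] [Module Sg.F M] [IsScalarTower ℂ Sg.F M]
    {L : XL Sg M} {j j' : ℕ} {a : Sg.F} (ha : a ∈ Arw Sg j j') {m : M} (hm : m ∈ Gm L.toLat j) :
    a • m ∈ Gm L.toLat j' := by
  obtain rfl | ⟨k, -, e, h⟩ := arw_cases ha
  · rw [zero_smul]; exact zero_mem _
  · exact SA_smul e h hm
lemma act_mem {j j' : ℕ} (a : Arw Sg j j') {u : (𝔞.G j).V} (hu : u ∈ 𝔞.pc K j) :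
    𝔞.act j j' a u ∈ 𝔞.pc K j' := by
  rw [Amb.mem_pc, Amb.inc_act]; exact arw_smul a.2 hu
lemma one_mem_SA : (1 : Sg.F) ∈ SA Sg 0 := mem_SA.2 one_mem_AA
lemma const_of_mem {a : Sg.F} (h : a ∈ SA Sg 0) : ∃ c : ℂ, a = c • (1 : Sg.F) := by
  have := mem_SA.1 h
  rw [Nat.cast_zero, AA_zero, Submodule.mem_one] at this
  exact this.imp fun c e => by rw [← e, Algebra.algebraMap_eq_smul_one]

variable (Sg) in
/-- vectors of forms of degree `k` -/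
def PP (ι : Type) (k : ℕ) : Submodule ℂ (ι → Sg.F) := Submodule.pi Set.univ fun _ => SA Sg k
lemma mem_PP {ι : Type} {c : ι → Sg.F} : c ∈ PP Sg ι k ↔ ∀ a, c a ∈ SA Sg k :=
  ⟨fun h a => h a trivial, fun h a _ => h a⟩
lemma smul_PP {ι : Type} {c : ι → Sg.F} {j k' : ℕ} (e : j = k' + k) {a : Sg.F} (ha : a ∈ SA Sg k')
    (h : c ∈ PP Sg ι k) : a • c ∈ PP Sg ι j :=
  mem_PP.2 fun l => e ▸ SA_mul Sg ha (mem_PP.1 h l)
lemma mem_PP' {ι : Type} [Finite ι] {c : ι → Sg.F} :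
    c ∈ PP Sg ι k ↔ c ∈ Gm (OP Sg.V.X ι).toLat k :=
  mem_PP.trans ((forall_congr' fun _ => mem_SA).trans mem_Gm_OP.symm)
lemma lc_mem {ι M : Type} [Fintype ι] [AddCommGroup M] [Module ℂ M] [Module Sg.F M]
    [IsScalarTower ℂ Sg.F M] {L : XL Sg M} {j j' : ℕ} (e : j' = k + j) {φ : ι → M}
    (hφ : ∀ a, φ a ∈ Gm L.toLat j) {c : ι → Sg.F} (h : c ∈ PP Sg ι k) :
    Fintype.linearCombination Sg.F φ c ∈ Gm L.toLat j' :=
  Submodule.sum_mem _ fun a _ => SA_smul e (mem_PP.1 h a) (hφ a)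

variable (𝔞 K p)
/-- `c ↦ ∑ c l • u l` -/
abbrev πU : (Ix (𝔞.pc K p) → Sg.F) →ₗ[Sg.F] 𝔞.M := Fintype.linearCombination Sg.F (gu 𝔞 K p)
/-- the generators of the syzygies -/
abbrev gk : Ix (𝔞.KK K p 3) → Ix (𝔞.pc K p) → Sg.F := fun a =>
  co (Sg := Sg) (𝔞.pc K p) 3 (fu (V := (WA Sg (𝔞.G p) 3).V) (𝔞.KK K p 3) a)
/-- `b ↦ ∑ b a • κ a` -/
abbrev πK : (Ix (𝔞.KK K p 3) → Sg.F) →ₗ[Sg.F] (Ix (𝔞.pc K p) → Sg.F) :=
  Fintype.linearCombination Sg.F (gk 𝔞 K p)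
/-- the same with values in `sW` -/
abbrev πB : (Ix (𝔞.KK K p 3) → Sg.F) →ₗ[Sg.F] sW 𝔞 K p :=
  Fintype.linearCombination Sg.F fun a => cB 𝔞 K p 3 (fu (𝔞.KK K p 3) a)
variable (𝔟) in
/-- `b ↦ ∑ b a • θ (κ a)` -/
abbrev ψθ (θ : (𝔞.HG 𝔟 p).V) : (Ix (𝔞.KK K p 3) → Sg.F) →ₗ[Sg.F] 𝔟.M :=
  Fintype.linearCombination Sg.F fun a => 𝔟.inc (3 + p) (θ (fu (𝔞.KK K p 3) a))
variable {𝔞 K p}

lemma πB_coe (b : Ix (𝔞.KK K p 3) → Sg.F) : (πB 𝔞 K p b).1 = πK 𝔞 K p b := by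
  simp only [Fintype.linearCombination_apply, AddSubmonoidClass.coe_finsetSum, Submodule.coe_smul,
    cB_coe (fu_mem (𝔞.KK K p 3) _)]
lemma co_mm' {t : (WA Sg (𝔞.G p) 3).V ⊗[ℂ] SA Sg k} (ht : t ∈ tens (𝔞.KK K p 3) ⊤) :
    co (𝔞.pc K p) (k + 3) (mm _ 3 k t) = πK 𝔞 K p (co (𝔞.KK K p 3) k t) :=
  (mF_mm _ t).trans (mF_co (V := (WA Sg (𝔞.G p) 3).V) (mF (fΛ Sg (𝔞.pc K p)) 3) ht)
lemma inc_mul_rT (θ : (𝔞.HG 𝔟 p).V) {t : (WA Sg (𝔞.G p) 3).V ⊗[ℂ] SA Sg k}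
    (ht : t ∈ tens (𝔞.KK K p 3) ⊤) : 𝔟.inc _ (𝔟.mul (3 + p) k (LinearMap.rTensor _ θ t)) =
      ψθ 𝔞 𝔟 K p θ (co (𝔞.KK K p 3) k t) := by
  rw [Amb.inc_mul, mF_rT, mF_co _ ht]; rfl
/-- the condition `Hb` in degree `k`, in coordinates -/
lemma hb_iff {θ : (𝔞.HG 𝔟 p).V} :
    (∀ t : (WA Sg (𝔞.G p) 3).V ⊗[ℂ] SA Sg k, t ∈ tens (𝔞.KK K p 3) ⊤ → mm _ 3 k t = 0 →
      𝔟.mul (3 + p) k (LinearMap.rTensor _ θ t) ∈ 𝔟.pc K' (k + (3 + p))) ↔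
    ∀ b ∈ PP Sg (Ix (𝔞.KK K p 3)) k, πK 𝔞 K p b = 0 →
      ψθ 𝔞 𝔟 K p θ b ∈ Gm K'.toLat (k + (3 + p) : ℕ) := by
  refine ⟨fun h b hb h0 => ?_, fun h t ht h0 => ?_⟩
  · obtain ⟨t, ht, rfl⟩ := exists_co (mem_PP.1 hb)
    rw [← inc_mul_rT θ ht]
    exact h t ht (co_inj (mm_mem inf_le_left ht) ((co_mm' ht).trans h0))
  · rw [Amb.mem_pc, inc_mul_rT θ ht]
    exact h _ (mem_PP.2 (co_mem _ t)) (by rw [← co_mm' ht, h0, map_zero])
lemma fΛ_mem (u : (𝔞.G p).V) : fΛ Sg (𝔞.pc K p) u ∈ PP Sg _ 0 := mem_PP.2 fun l => by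
  have := co_mem (𝔞.pc K p) (u ⊗ₜ (⟨1, one_mem_SA⟩ : SA Sg 0)) l
  rwa [co, mF_tmul, one_smul] at this
lemma πU_co {t : (𝔞.G p).V ⊗[ℂ] SA Sg k} (ht : t ∈ tens (𝔞.pc K p) ⊤) :
    πU 𝔞 K p (co (𝔞.pc K p) k t) = mF (𝔞.inc p) k t := (mF_co _ ht).symm
lemma πU_fΛ {u : (𝔞.G p).V} (hu : u ∈ 𝔞.pc K p) : πU 𝔞 K p (fΛ Sg (𝔞.pc K p) u) = 𝔞.inc p u := by
  have := πU_co (K := K) (tmul_mem hu (Submodule.mem_top (x := (⟨1, one_mem_SA⟩ : SA Sg 0))))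
  rwa [co, mF_tmul, mF_tmul, one_smul, one_smul] at this
lemma exists_lam (𝔞 : Amb Sg) (j : ℕ) : ∃ r : 𝔞.M →ₗ[ℂ] (𝔞.G j).V, (∀ w, r (𝔞.inc j w) = w) ∧
    ∀ m ∈ Gm 𝔞.O.toLat j, 𝔞.inc j (r m) = m := by
  obtain ⟨r, hr⟩ := (𝔞.inc j).exists_leftInverse_of_injective
    (LinearMap.ker_eq_bot.2 (𝔞.inc_inj j))
  refine ⟨r, LinearMap.congr_fun hr, fun m hm => ?_⟩
  obtain ⟨w, rfl⟩ := (𝔞.range_inc j).ge hm
  exact congrArg _ (LinearMap.congr_fun hr w)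
lemma inc_mem_O (j : ℕ) (w : (𝔞.G j).V) : 𝔞.inc j w ∈ Gm 𝔞.O.toLat j :=
  (𝔞.range_inc j).le ⟨w, rfl⟩

variable (le : LeL K 𝔞.O) (hr : RegL K.toLat p)
include le hr
lemma exists_πU {j : ℕ} (e : j = k + p) {m : 𝔞.M} (hm : m ∈ Gm K.toLat j) :
    ∃ c ∈ PP Sg _ k, πU 𝔞 K p c = m := by
  subst e
  obtain ⟨t, ht, rfl⟩ := (Amb.map_mF_pc le hr le_rfl k).ge hm
  exact ⟨_, mem_PP.2 (co_mem _ t), πU_co ht⟩
/-- the pieces are generated in degree `p` -/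
lemma exists_sum {j : ℕ} (hj : p < j) {u : (𝔞.G j).V} (hu : u ∈ 𝔞.pc K j) :
    ∃ b : Ix (𝔞.pc K p) → Arw Sg p j, u = ∑ l, 𝔞.act p j (b l) (fu _ l) := by
  obtain ⟨c, hc, e⟩ := exists_πU le hr (Nat.sub_add_cancel hj.le).symm hu
  refine ⟨fun l => ⟨c l, (Arw_of_lt hj).ge (mem_PP.1 hc l)⟩, 𝔞.inc_inj j ?_⟩
  rw [map_sum, ← e, Fintype.linearCombination_apply]
  exact Finset.sum_congr rfl fun l _ => (𝔞.inc_act ⟨c l, _⟩ _).symm
/-- linear sections of the multiplication -/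
lemma exists_σ : ∃ σ : ℕ → 𝔞.M →ₗ[ℂ] (Ix (𝔞.pc K p) → Sg.F),
    (∀ j k, j = k + p → ∀ m ∈ Gm K.toLat j, σ j m ∈ PP Sg _ k ∧ πU 𝔞 K p (σ j m) = m) ∧
      ∀ u, σ p (𝔞.inc p u) = fΛ Sg (𝔞.pc K p) u := by
  choose s h1 h2 using fun k => exists_sec ((πU 𝔞 K p).restrictScalars ℂ) (PP Sg _ k)
  obtain ⟨r, r1, -⟩ := exists_lam 𝔞 p
  refine ⟨fun j => if j = p then fΛ Sg _ ∘ₗ r else s (j - p), fun j k e m hm => ?_, fun u => ?_⟩
  · by_cases h : j = p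
    · obtain rfl : k = 0 := by omega
      subst h
      obtain ⟨u, hu, rfl⟩ := (Amb.map_pc le j).ge hm
      simp only [if_true, LinearMap.comp_apply, r1]
      exact ⟨fΛ_mem u, πU_fΛ hu⟩
    · obtain ⟨c, hc, rfl⟩ := exists_πU le hr e hm
      simp only [if_neg h, show j - p = k by omega]
      exact ⟨h1 k _, h2 k c hc⟩
  · simp only [if_true, LinearMap.comp_apply, r1]
lemma exists_πB {y : sW 𝔞 K p} (hy : y ∈ Gm (B0 𝔞 K p).toLat (k + 3 : ℕ)) :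
    ∃ t ∈ tens (𝔞.KK K p 3) (⊤ : Submodule ℂ (SA Sg k)), πB 𝔞 K p (co (𝔞.KK K p 3) k t) = y := by
  have h1 := gen_AA (M := B0 𝔞 K p) (fun e he => (reg_B0 le hr).gen he) (e := (3 : ℕ))
    (by norm_num) k
  rw [Nat.cast_add, h1, ← map_cB, ← map_mF] at hy
  obtain ⟨t, ht, rfl⟩ := hy
  exact ⟨t, ht, (mF_co _ ht).symm⟩
/-- the syzygies are generated in degree three -/
lemma exists_πK {κ : Ix (𝔞.pc K p) → Sg.F} (h : κ ∈ PP Sg _ (k + 3)) (h0 : πU 𝔞 K p κ = 0) :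
    ∃ b ∈ PP Sg _ k, πK 𝔞 K p b = κ := by
  obtain ⟨t, -, e⟩ := exists_πB le hr (y := ⟨κ, h0⟩)
    (mem_Gm_capX.2 fun a => mem_SA.1 (mem_PP.1 h a))
  exact ⟨_, mem_PP.2 (co_mem _ t), (πB_coe _).symm.trans (congrArg Subtype.val e)⟩
/-- the second syzygies are generated in degree two -/
lemma rel_gen (hk : 2 ≤ k) {b : Ix (𝔞.KK K p 3) → Sg.F} (hb : b ∈ PP Sg _ (k + 1))
    (h0 : πK 𝔞 K p b = 0) : ∃ z : Fin 3 → Ix (𝔞.KK K p 3) → Sg.F,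
      (∀ i, z i ∈ PP Sg _ k ∧ πK 𝔞 K p (z i) = 0) ∧ kos3 _ Sg.V.X.t z = b := by
  obtain ⟨k, rfl⟩ : ∃ k', k = k' + 1 := ⟨k - 1, by omega⟩
  obtain ⟨z, hz, rfl⟩ := kos_surj3 ((reg_OP Sg _).gen (e := (k + 1 : ℕ)) (by omega))
    (x := b) (by exact_mod_cast mem_PP'.1 hb)
  have h1 : ∀ i, πB 𝔞 K p (z i) ∈ Gm (B0 𝔞 K p).toLat ((k + 2 : ℕ) + 2) := fun i => by
    have := lc_mem (L := B0 𝔞 K p) (j := 3) (j' := k + 4) (by omega)
      (fun a => (map_cB 3).le ⟨_, fu_mem (𝔞.KK K p 3) a, rfl⟩) (mem_PP'.2 (hz i))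
    exact_mod_cast this
  obtain ⟨y, hy, e⟩ := kos_ex2 ((reg_B0 le hr).van one_pos (by omega)) h1
    (Subtype.ext (by rw [← map_kos3, πB_coe]; exact h0))
  choose s _ hs using fun i => exists_πB le hr (k := k) (y := y i) (by exact_mod_cast hy i)
  refine ⟨z - kos2 _ Sg.V.X.t fun i => co _ k (s i), fun i => ⟨sub_mem (mem_PP'.2 (hz i))
    (mem_PP'.2 ?_), ?_⟩, by rw [map_sub, kos3_kos2, sub_zero]⟩
  · exact_mod_cast kos2_mem (fun i => mem_PP'.1 (mem_PP.2 (co_mem _ (s i)))) i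
  · rw [← πB_coe, Pi.sub_apply, map_sub, map_kos2, funext hs, e, sub_self]; rfl
/-- relations of degree two suffice -/
lemma hb_of_two {ψ : (Ix (𝔞.KK K p 3) → Sg.F) →ₗ[Sg.F] 𝔟.M} {m : ℕ}
    (h : ∀ b ∈ PP Sg _ 2, πK 𝔞 K p b = 0 → ψ b ∈ Gm K'.toLat (2 + m : ℕ)) (k : ℕ) :
    ∀ b ∈ PP Sg _ k, πK 𝔞 K p b = 0 → ψ b ∈ Gm K'.toLat (k + m : ℕ) := by
  rcases le_total 2 k with hk | hk
  · induction k, hk using Nat.le_induction with
    | base => exact h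
    | succ k hk ih =>
      intro b hb h0
      obtain ⟨z, hz, rfl⟩ := rel_gen le hr hk hb h0
      rw [map_kos3, show ((k + 1 + m : ℕ) : ℤ) = (k + m : ℕ) + 1 by omega]
      exact kos3_mem fun i => ih _ (hz i).1 (hz i).2
  · induction hk using Nat.decreasingInduction with
    | self => exact h
    | of_succ k _ ih =>
      refine fun b hb h0 => mem_Gm_of_smul fun i => ?_
      rw [← map_smul, show ((k + m : ℕ) : ℤ) + 1 = (k + 1 + m : ℕ) by omega]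
      exact ih _ (smul_PP (add_comm _ _) (pow_one (Sg.V.X.t i) ▸ t_pow_mem_SA i 1) hb)
        (by rw [map_smul, h0, smul_zero])

end Crest.Agent.N265.M.Cc
end
end

-- ▼ part N265/Q/Coc
section

/-! # Row 265, task Q-COC: cocycles of the quiver and `Hom(B, O/K)` -/

set_option autoImplicit false
set_option linter.dupNamespace false
noncomputable section
open MvPolynomial Module TensorProduct

namespace Crest.Agent.N265.M
open Crest.Agent.R274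
open Defs_781 Lat_781 SnapA_99 SnapB_99 SnapE_99 Gen7_750 Xs1_781 SkDefs_474
open Alg GV Br N Fib _root_.Crest.Agent.N265.Pow
open Cc
open Hm (Ix fu fc fΛ fu_mem sum_fc tens_ind mem_homMap_fu co_mem)
variable {Sg : Surf} {𝔞 𝔟 : Amb Sg} {p q : ℕ}

namespace Amb
variable {K : XL Sg 𝔞.M} {K' : XL Sg 𝔟.M}

variable (𝔞 p q) in
/-- zero-cochains that vanish in the lowest degree -/
def En1 : Submodule ℂ (Quiv.En (𝔞.GJ p q)).V :=
  LinearMap.ker (LinearMap.proj (R := ℂ) (φ := fun j => ((𝔞.GJ p q j).hom (𝔞.GJ p q j)).V)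
    (JJ.bot p q))
variable (𝔞 p q) in
/-- zero-cochains preserving all pieces -/
def stabs (K : XL Sg 𝔞.M) : Submodule ℂ (Quiv.En (𝔞.GJ p q)).V :=
  Submodule.pi Set.univ fun j => homMap (𝔞.pcs p q K j) (𝔞.pcs p q K j)
/-- `c ↦ (w ⊗ a ↦ c (p, 3 + p) a w)` -/
theorem exists_toH (hq : 3 + p ≤ q) : ∃ ψ : (𝔞.qv p q).C.V →ₗ[ℂ] (𝔞.HG 𝔞 p).V,
    Deg0 (𝔞.qv p q).C (𝔞.HG 𝔞 p) ψ ∧ ∀ c w (a : SA Sg 3),
      ψ c (w ⊗ₜ a) = c (JJ.bot p q, JJ.mk' 3 le_rfl hq) ⟨a.1, (Arw_add p three_pos).ge a.2⟩ w := by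
  let ψ : (𝔞.qv p q).C.V →ₗ[ℂ] (𝔞.HG 𝔞 p).V :=
    { toFun := fun c => TensorProduct.lift ((c (JJ.bot p q, JJ.mk' 3 le_rfl hq) ∘ₗ
        Submodule.inclusion (Arw_add p three_pos).ge).flip)
      map_add' := fun _ _ => TensorProduct.ext' fun _ _ => rfl
      map_smul' := fun _ _ => TensorProduct.ext' fun _ _ => rfl }
  exact ⟨ψ, fun c => TensorProduct.ext' fun _ _ => rfl, fun _ _ _ => rfl⟩

/-! ### tools -/
section tools
/-- a component of a one-cochain -/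
def cv (c : (𝔞.qv p q).C.V) (j j' : JJ p q) :
    Arw Sg j.1 j'.1 →ₗ[ℂ] (𝔞.G j.1).V →ₗ[ℂ] (𝔞.G j'.1).V := c (j, j')
/-- a component from the lowest degree -/
def cb (c : (𝔞.qv p q).C.V) (j : JJ p q) :
    Arw Sg p j.1 →ₗ[ℂ] (𝔞.G p).V →ₗ[ℂ] (𝔞.G j.1).V := c (JJ.bot p q, j)
/-- a component of a zero-cochain -/
def ez (φ : (Quiv.En (𝔞.GJ p q)).V) (j : JJ p q) : (𝔞.G j.1).V →ₗ[ℂ] (𝔞.G j.1).V := φ j
/-- the lowest component of a zero-cochain -/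
def eb (φ : (Quiv.En (𝔞.GJ p q)).V) : (𝔞.G p).V →ₗ[ℂ] (𝔞.G p).V := φ (JJ.bot p q)
variable {c : (𝔞.qv p q).C.V} {φ : (Quiv.En (𝔞.GJ p q)).V}
lemma mem_den : c ∈ (𝔞.qv p q).den (𝔞.pcs p q K) ↔ ∀ (j j' : JJ p q) (a : Arw Sg j.1 j'.1),
    ∀ u ∈ 𝔞.pc K j.1, cv c j j' a u ∈ 𝔞.pc K j'.1 := Iff.rfl
lemma mem_Zc : c ∈ (𝔞.qv p q).Zc (𝔞.pcs p q K) ↔ ∀ (j j' j'' : JJ p q) (a : Arw Sg j'.1 j''.1)
    (a' : Arw Sg j.1 j'.1) (a'' : Arw Sg j.1 j''.1), a''.1 = a.1 * a'.1 → ∀ u ∈ 𝔞.pc K j.1,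
    cv c j j'' a'' u - 𝔞.act j'.1 j''.1 a (cv c j j' a' u) - cv c j' j'' a (𝔞.act j.1 j'.1 a' u) ∈
      𝔞.pc K j''.1 := Iff.rfl
lemma Zc_bot (hc : c ∈ (𝔞.qv p q).Zc (𝔞.pcs p q K)) (j j' : JJ p q) (a : Arw Sg j.1 j'.1)
    (a' : Arw Sg p j.1) {u : (𝔞.G p).V} (hu : u ∈ 𝔞.pc K p) :
    cb c j' ⟨_, arw_arw a.2 a'.2⟩ u - 𝔞.act j.1 j'.1 a (cb c j a' u) -
      cv c j j' a (𝔞.act p j.1 a' u) ∈ 𝔞.pc K j'.1 :=
  mem_Zc.1 hc (JJ.bot p q) j j' a a' ⟨_, arw_arw a.2 a'.2⟩ rfl u hu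
lemma cb_δ (j : JJ p q) (a : Arw Sg p j.1) (u : (𝔞.G p).V) :
    cb ((𝔞.qv p q).δ φ) j a u = 𝔞.act p j.1 a (eb φ u) - ez φ j (𝔞.act p j.1 a u) := rfl
lemma cb_sub (c c' : (𝔞.qv p q).C.V) (j : JJ p q) (a : Arw Sg p j.1) (u : (𝔞.G p).V) :
    cb (c - c') j a u = cb c j a u - cb c' j a u := rfl
lemma mem_stabs : φ ∈ 𝔞.stabs p q K ↔ ∀ j : JJ p q, ∀ u ∈ 𝔞.pc K j.1, ez φ j u ∈ 𝔞.pc K j.1 :=
  ⟨fun h j => h j trivial, fun h j _ => h j⟩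
lemma mem_En1 : φ ∈ 𝔞.En1 p q ↔ eb φ = 0 := Iff.rfl
lemma act_eq_mul {j k : ℕ} (hk : 0 < k) (a : SA Sg k) (w : (𝔞.G j).V) :
    𝔞.act j (k + j) ⟨a.1, (Arw_add j hk).ge a.2⟩ w = 𝔞.mul j k (w ⊗ₜ a) :=
  funext fun i => Subtype.ext (by rw [act_val, mul_tmul, mulA_val, mul_comm])
lemma JJ_big {j : JJ p q} (h : p < j.1) : 3 + p ≤ j.1 := by
  rcases j.cases with e | e
  · exact absurd (congrArg Subtype.val e) h.ne'
  · omega
/-- a cocycle is trivial if it is trivial on the arrows from the lowest degree -/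
lemma den_of_base (le : LeL K 𝔞.O) (hr : RegL K.toLat p) (hc : c ∈ (𝔞.qv p q).Zc (𝔞.pcs p q K))
    (h : ∀ (j : JJ p q) (a : Arw Sg p j.1), ∀ u ∈ 𝔞.pc K p, cb c j a u ∈ 𝔞.pc K j.1) :
    c ∈ (𝔞.qv p q).den (𝔞.pcs p q K) := mem_den.2 fun j j' a u hu => by
  obtain rfl | hj := j.cases
  · exact h j' a u hu
  obtain ⟨b, rfl⟩ := exists_sum le hr (show p < j.1 by omega) hu
  rw [map_sum]
  refine Submodule.sum_mem _ fun l _ => ?_
  have h2 := sub_mem (sub_mem (h j' ⟨_, arw_arw a.2 (b l).2⟩ _ (fu_mem _ l))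
    (act_mem a (h j (b l) _ (fu_mem _ l)))) (Zc_bot hc j j' a (b l) (fu_mem _ l))
  rwa [sub_sub_cancel] at h2

/-- `b ↦ ∑ c (b l) (u l)` -/
lemma exists_γ (K : XL Sg 𝔞.M) {j : ℕ} (c' : Arw Sg p j →ₗ[ℂ] (𝔞.G p).V →ₗ[ℂ] (𝔞.G j).V) :
    ∃ γ : (Ix (𝔞.pc K p) → Sg.F) →ₗ[ℂ] (𝔞.G j).V, (j = p → γ = 0) ∧
      ∀ a : Arw Sg p j, ∀ u ∈ 𝔞.pc K p, γ (a.1 • fΛ Sg (𝔞.pc K p) u) = c' a u := by
  obtain ⟨r, hr⟩ := exists_ret (Arw Sg p j)
  refine ⟨∑ l, c'.flip (fu _ l) ∘ₗ r ∘ₗ LinearMap.proj l, fun h => ?_, fun a u hu => ?_⟩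
  · refine Finset.sum_eq_zero fun l _ => LinearMap.ext fun b => ?_
    have : r (b l) = 0 := Subtype.ext ((Arw_of_le h.le).le (r (b l)).2)
    change c' (r (b l)) _ = 0
    rw [this, map_zero, LinearMap.zero_apply]
  · conv_rhs => rw [← sum_fc hu, map_sum]
    rw [LinearMap.sum_apply]
    refine Finset.sum_congr rfl fun l _ => ?_
    have : (a.1 • fΛ Sg (𝔞.pc K p) u) l = (fc (𝔞.pc K p) u l • a : Arw Sg p j) := by
      simp [fΛ, Algebra.smul_def, mul_comm]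
    change c' (r ((a.1 • fΛ Sg (𝔞.pc K p) u) l)) _ = _
    rw [this, hr, map_smul, map_smul, LinearMap.smul_apply]
lemma mul_KK {s : (𝔞.G p).V ⊗[ℂ] SA Sg 3} (hs : s ∈ 𝔞.KK K p 3) : 𝔞.mul p 3 s = 0 :=
  (𝔞.ker_mul p 3).ge hs.2

section three
variable (hq : 3 + p ≤ q)
/-- the degree `3 + p` -/
def j3 : JJ p q := JJ.mk' 3 le_rfl hq
/-- the component `p → 3 + p` -/
def cb3 (c : (𝔞.qv p q).C.V) : Arw Sg p (3 + p) →ₗ[ℂ] (𝔞.G p).V →ₗ[ℂ] (𝔞.G (3 + p)).V :=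
  c (JJ.bot p q, j3 hq)
/-- the components from `3 + p` -/
def c3 (c : (𝔞.qv p q).C.V) (j : JJ p q) :
    Arw Sg (3 + p) j.1 →ₗ[ℂ] (𝔞.G (3 + p)).V →ₗ[ℂ] (𝔞.G j.1).V := c (j3 hq, j)
/-- the component in degree `3 + p` -/
def e3 (φ : (Quiv.En (𝔞.GJ p q)).V) : (𝔞.G (3 + p)).V →ₗ[ℂ] (𝔞.G (3 + p)).V := φ (j3 hq)
/-- the map of `exists_toH` -/
def IsH (ψ : (𝔞.qv p q).C.V →ₗ[ℂ] (𝔞.HG 𝔞 p).V) : Prop := ∀ c w (a : SA Sg 3),
  ψ c (w ⊗ₜ a) = cb3 hq c ⟨a.1, (Arw_add p three_pos).ge a.2⟩ w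
lemma cb3_δ (a : Arw Sg p (3 + p)) (u : (𝔞.G p).V) : cb3 hq ((𝔞.qv p q).δ φ) a u =
    𝔞.act p (3 + p) a (eb φ u) - e3 hq φ (𝔞.act p (3 + p) a u) := rfl
lemma Zc_three (hc : c ∈ (𝔞.qv p q).Zc (𝔞.pcs p q K)) (j : JJ p q) (a : Arw Sg (3 + p) j.1)
    (a' : Arw Sg p (3 + p)) {u : (𝔞.G p).V} (hu : u ∈ 𝔞.pc K p) :
    cb c j ⟨_, arw_arw a.2 a'.2⟩ u - 𝔞.act (3 + p) j.1 a (cb3 hq c a' u) -
      c3 hq c j a (𝔞.act p (3 + p) a' u) ∈ 𝔞.pc K j.1 := Zc_bot hc (j3 hq) j a a' hu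
end three

variable {hq : 3 + p ≤ q} {ψ : (𝔞.qv p q).C.V →ₗ[ℂ] (𝔞.HG 𝔞 p).V} (hψ : IsH hq ψ)
include hψ
lemma toH_δ (s : (𝔞.G p).V ⊗[ℂ] SA Sg 3) : ψ ((𝔞.qv p q).δ φ) s =
    𝔞.res 𝔞 p (eb φ) s - e3 hq φ (𝔞.mul p 3 s) := by
  induction s using TensorProduct.induction_on with
  | zero => simp only [map_zero, sub_zero]
  | add s s' h h' => simp only [map_add, h, h', add_sub_add_comm]
  | tmul w a =>
    rw [hψ, cb3_δ, act_eq_mul three_pos, act_eq_mul three_pos]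
    rfl
lemma toH_den (hc : c ∈ (𝔞.qv p q).den (𝔞.pcs p q K)) {s : (𝔞.G p).V ⊗[ℂ] SA Sg 3}
    (hs : s ∈ tens (𝔞.pc K p) ⊤) : ψ c s ∈ 𝔞.pc K (3 + p) := by
  refine tens_ind hs (by rw [map_zero]; exact zero_mem _) (fun u hu a _ => ?_) fun _ _ h h' => by
    rw [map_add]; exact add_mem h h'
  rw [hψ]
  exact mem_den.1 hc (JJ.bot p q) (j3 hq) _ u hu
lemma γ_three {γ : (Ix (𝔞.pc K p) → Sg.F) →ₗ[ℂ] (𝔞.G (3 + p)).V}
    (hγ : ∀ a : Arw Sg p (3 + p), ∀ u ∈ 𝔞.pc K p, γ (a.1 • fΛ Sg (𝔞.pc K p) u) = cb3 hq c a u)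
    {s : (𝔞.G p).V ⊗[ℂ] SA Sg 3} (hs : s ∈ tens (𝔞.pc K p) ⊤) :
    γ (Hm.co (𝔞.pc K p) 3 s) = ψ c s := by
  refine tens_eqOn (f := γ ∘ₗ Hm.co (𝔞.pc K p) 3) (fun u hu a _ => ?_) hs
  rw [hψ]
  exact hγ ⟨a.1, _⟩ u hu
/-- the cocycle relation on the syzygies of degree three -/
lemma γ_smul {j : JJ p q} {γ : (Ix (𝔞.pc K p) → Sg.F) →ₗ[ℂ] (𝔞.G j.1).V}
    (hc : c ∈ (𝔞.qv p q).Zc (𝔞.pcs p q K)) (hγ : ∀ a : Arw Sg p j.1, ∀ u ∈ 𝔞.pc K p,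
      γ (a.1 • fΛ Sg (𝔞.pc K p) u) = cb c j a u) (b : Arw Sg (3 + p) j.1)
    {s : (𝔞.G p).V ⊗[ℂ] SA Sg 3} (hs : s ∈ 𝔞.KK K p 3) :
    γ (b.1 • Hm.co (𝔞.pc K p) 3 s) - 𝔞.act (3 + p) j.1 b (ψ c s) ∈ 𝔞.pc K j.1 := by
  have key : γ (b.1 • Hm.co (𝔞.pc K p) 3 s) - 𝔞.act (3 + p) j.1 b (ψ c s) -
      c3 hq c j b (𝔞.mul p 3 s) ∈ 𝔞.pc K j.1 := by
    refine tens_ind hs.1 (by simp only [map_zero, smul_zero, sub_zero, zero_mem])
      (fun u hu a _ => ?_) fun _ _ h h' => by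
        simpa only [map_add, smul_add, add_sub_add_comm] using add_mem h h'
    have ha : a.1 ∈ Arw Sg p (3 + p) := (Arw_add p three_pos).ge a.2
    rw [hψ, ← act_eq_mul three_pos, Hm.co, mF_tmul, smul_smul, hγ ⟨_, arw_arw b.2 ha⟩ u hu]
    exact Zc_three hq hc j b ⟨_, ha⟩ hu
  rwa [mul_KK hs, map_zero, sub_zero] at key
lemma toH_mem_Hb (le : LeL K 𝔞.O) (hr : RegL K.toLat p) (h5 : 5 + p ≤ q)
    (hc : c ∈ (𝔞.qv p q).Zc (𝔞.pcs p q K)) : ψ c ∈ 𝔞.Hb 𝔞 K K p := fun k => by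
  refine hb_iff.2 (hb_of_two le hr (fun b hb h0 => ?_) k)
  let j : JJ p q := ⟨2 + (3 + p), Finset.mem_insert_of_mem (Finset.mem_Icc.2 ⟨by omega, by omega⟩)⟩
  obtain ⟨γ, -, hγ⟩ := exists_γ K (cb c j)
  have h1 := Submodule.sum_mem (𝔞.pc K j.1) (t := Finset.univ) fun a _ => γ_smul hψ hc hγ
    ⟨b a, mem_arw rfl two_pos (mem_PP.1 hb a)⟩ (fu_mem (𝔞.KK K p 3) a)
  rw [Finset.sum_sub_distrib, ← map_sum, ← Fintype.linearCombination_apply Sg.F (gk 𝔞 K p), h0,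
    map_zero, zero_sub, neg_mem_iff, mem_pc, map_sum] at h1
  rw [Fintype.linearCombination_apply]
  exact (Finset.sum_congr rfl fun a _ => 𝔞.inc_act _ _).subst (motive := (· ∈ _)) h1
/-- a cocycle that is trivial on the syzygies of degree three is a coboundary -/
lemma exists_δ (le : LeL K 𝔞.O) (hr : RegL K.toLat p) (hc : c ∈ (𝔞.qv p q).Zc (𝔞.pcs p q K))
    (h : ψ c ∈ 𝔞.den 𝔞 K K p) :
    ∃ φ ∈ 𝔞.En1 p q, c - (𝔞.qv p q).δ φ ∈ (𝔞.qv p q).den (𝔞.pcs p q K) := by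
  choose γ h0 hγ using fun j => exists_γ K (cb c j)
  obtain ⟨σ, hσ, -⟩ := exists_σ le hr
  have key : ∀ (j : JJ p q) k, j.1 = k + (3 + p) → ∀ b ∈ PP Sg _ k,
      γ j (πK 𝔞 K p b) ∈ 𝔞.pc K j.1 := fun j k e b hb => by
    rw [Fintype.linearCombination_apply, map_sum]
    refine Submodule.sum_mem _ fun a _ => ?_
    have h3 := fu_mem (𝔞.KK K p 3) a
    rcases k.eq_zero_or_pos with rfl | hk
    · obtain rfl : j = j3 hq := Subtype.ext (e.trans (zero_add _))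
      obtain ⟨r, hr⟩ := const_of_mem (mem_PP.1 hb a)
      rw [hr, smul_assoc, one_smul, map_smul]
      exact Submodule.smul_mem _ _ ((γ_three hψ (hγ (j3 hq)) h3.1).symm.subst
        (motive := (· ∈ 𝔞.pc K (3 + p))) (h _ h3))
    · have h1 := γ_smul hψ hc (hγ j) ⟨b a, mem_arw e hk (mem_PP.1 hb a)⟩ h3
      exact (Submodule.sub_mem_iff_left _ (act_mem _ (h _ h3))).1 h1
  obtain ⟨φ, hφ⟩ : ∃ φ : (Quiv.En (𝔞.GJ p q)).V, ∀ j, ez φ j = -(γ j ∘ₗ σ j.1 ∘ₗ 𝔞.inc j.1) :=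
    ⟨fun j => -(γ j ∘ₗ σ j.1 ∘ₗ 𝔞.inc j.1), fun _ => rfl⟩
  have hb : eb φ = 0 := (fun (j : JJ p q) (e : j.1 = p) => show ez φ j = 0 by
    rw [hφ, h0 _ e, LinearMap.zero_comp]
    exact LinearMap.ext fun _ => neg_zero) (JJ.bot p q) rfl
  refine ⟨φ, hb, den_of_base le hr (sub_mem hc (Quiv.δ_mem_Zc _ _ _)) fun j a u hu => ?_⟩
  have e : cb (c - (𝔞.qv p q).δ φ) j a u =
      γ j (a.1 • fΛ Sg (𝔞.pc K p) u - σ j.1 (a.1 • 𝔞.inc p u)) := by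
    rw [map_sub, hγ j a u hu, ← inc_act, cb_sub, cb_δ, hb, hφ, LinearMap.zero_apply, map_zero,
      zero_sub, LinearMap.neg_apply, neg_neg]
    rfl
  rw [e]
  obtain h1 | ⟨k, hk, e1, ha⟩ := arw_cases a.2
  · rw [h1, zero_smul, zero_smul, map_zero, sub_zero, map_zero]; exact zero_mem _
  have := JJ_big (j := j) (by omega)
  obtain ⟨k, rfl⟩ : ∃ k', k = k' + 3 := ⟨k - 3, by omega⟩
  have h2 := hσ _ _ e1 _ (arw_smul a.2 (mem_pc.1 hu))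
  obtain ⟨b, hb, e2⟩ := exists_πK le hr (k := k)
    (sub_mem (smul_PP (add_zero _).symm ha (fΛ_mem u)) h2.1)
    (by rw [map_sub, h2.2, map_smul, πU_fΛ hu, sub_self])
  rw [← e2]
  exact key j k (by omega) b hb
omit hψ in
lemma exists_Θ {θ : (𝔞.HG 𝔞 p).V} (h : θ ∈ 𝔞.Hb 𝔞 K K p) :
    ∃ Θ : ℕ → (Ix (𝔞.pc K p) → Sg.F) →ₗ[ℂ] 𝔞.M, Θ p = 0 ∧
      (∀ (j : ℕ) x, Θ j x ∈ Gm 𝔞.O.toLat j) ∧ ∀ j k : ℕ, j = k + (3 + p) → ∀ b ∈ PP Sg _ k,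
        Θ j (πK 𝔞 K p b) - ψθ 𝔞 𝔞 K p θ b ∈ Gm K.toLat j := by
  choose s s1 s2 using fun k => exists_sec ((πK 𝔞 K p).restrictScalars ℂ) (PP Sg _ k)
  refine ⟨fun j => if 3 + p ≤ j then (ψθ 𝔞 𝔞 K p θ).restrictScalars ℂ ∘ₗ s (j - (3 + p)) else 0,
    if_neg (by omega), fun j x => ?_, ?_⟩
  · by_cases hj : 3 + p ≤ j
    · simp only [if_pos hj]
      exact lc_mem (Nat.sub_add_cancel hj).symm (fun _ => inc_mem_O _ _) (s1 _ x)
    · simp only [if_neg hj]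
      exact zero_mem _
  · rintro _ k rfl b hb
    simp only [if_pos (Nat.le_add_left _ _), Nat.add_sub_cancel]
    have := hb_iff.1 (h k) _ (sub_mem (s1 k (πK 𝔞 K p b)) hb)
      ((map_sub _ _ _).trans (sub_eq_zero.2 (s2 k b hb)))
    rwa [map_sub] at this
omit hψ in
lemma exists_c (σ : ℕ → 𝔞.M →ₗ[ℂ] (Ix (𝔞.pc K p) → Sg.F))
    {Θ : ℕ → (Ix (𝔞.pc K p) → Sg.F) →ₗ[ℂ] 𝔞.M} (Θ1 : ∀ (j : ℕ) x, Θ j x ∈ Gm 𝔞.O.toLat j)
    (j j' : ℕ) : ∃ c : Arw Sg j j' →ₗ[ℂ] (𝔞.G j).V →ₗ[ℂ] (𝔞.G j').V, ∀ a u, 𝔞.inc j' (c a u) =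
      Θ j' (a.1 • σ j (𝔞.inc j u)) - a.1 • Θ j (σ j (𝔞.inc j u)) := by
  obtain ⟨r, -, hr⟩ := exists_lam 𝔞 j'
  exact ⟨LinearMap.mk₂ ℂ (fun (a : Arw Sg j j') u =>
      r (Θ j' (a.1 • σ j (𝔞.inc j u)) - a.1 • Θ j (σ j (𝔞.inc j u))))
    (fun a a' u => by simp only [Submodule.coe_add, add_smul, map_add, map_sub]; abel)
    (fun t a u => by simp only [Submodule.coe_smul, smul_assoc, map_smul, ← smul_sub])
    (fun a u u' => by simp only [smul_add, map_add, map_sub]; abel)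
    fun t a u => by simp only [map_smul, smul_comm a.1 t, ← smul_sub],
    fun a u => hr _ (sub_mem (Θ1 _ _) (arw_smul a.2 (Θ1 _ _)))⟩
/-- every element of `Hb` comes from a cocycle -/
lemma exists_coc (le : LeL K 𝔞.O) (hr : RegL K.toLat p) {θ : (𝔞.HG 𝔞 p).V}
    (h : θ ∈ 𝔞.Hb 𝔞 K K p) : ∃ c ∈ (𝔞.qv p q).Zc (𝔞.pcs p q K), θ - ψ c ∈ 𝔞.den 𝔞 K K p := by
  obtain ⟨σ, hσ, σ0⟩ := exists_σ le hr
  obtain ⟨Θ, Θ0, Θ1, Θ2⟩ := exists_Θ h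
  choose c' hc' using exists_c σ Θ1
  obtain ⟨c, hc⟩ : ∃ c : (𝔞.qv p q).C.V, ∀ j j', cv c j j' = c' j.1 j'.1 :=
    ⟨fun e => c' e.1.1 e.2.1, fun _ _ => rfl⟩
  refine ⟨c, mem_Zc.2 fun j j' j'' a a' a'' e u hu => ?_, mem_homMap_fu.2 fun a => ?_⟩
  · have e1 : 𝔞.inc j''.1 (cv c j j'' a'' u - 𝔞.act j'.1 j''.1 a (cv c j j' a' u) -
        cv c j' j'' a (𝔞.act j.1 j'.1 a' u)) =
        Θ j''.1 (a.1 • (a'.1 • σ j.1 (𝔞.inc j.1 u) - σ j'.1 (a'.1 • 𝔞.inc j.1 u))) -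
        a.1 • Θ j'.1 (a'.1 • σ j.1 (𝔞.inc j.1 u) - σ j'.1 (a'.1 • 𝔞.inc j.1 u)) := by
      rw [map_sub, map_sub, inc_act, hc, hc, hc, hc', hc', hc', inc_act, e]
      simp only [mul_smul, smul_sub, map_sub]
      abel
    rw [mem_pc, e1]
    obtain h1 | ⟨k', hk', e', ha'⟩ := arw_cases a'.2
    · simp only [h1, zero_smul, map_zero, sub_zero, smul_zero, zero_mem]
    obtain h1 | ⟨k'', -, e'', ha⟩ := arw_cases a.2
    · simp only [h1, zero_smul, map_zero, sub_zero, zero_mem]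
    have hj := j.le
    have := JJ_big (j := j') (by omega)
    obtain ⟨k, ek⟩ : ∃ k, j'.1 = k + (3 + p) := ⟨j'.1 - (3 + p), by omega⟩
    have h2 := hσ _ _ (Nat.sub_add_cancel hj).symm _ (mem_pc.1 hu)
    have h3 := hσ j'.1 (k + 3) (by omega) _ (arw_smul a'.2 (mem_pc.1 hu))
    obtain ⟨b, hb, e2⟩ := exists_πK le hr (k := k)
      (sub_mem (smul_PP (by omega) ha' h2.1) h3.1)
      (by rw [map_sub, h3.2, map_smul, h2.2, sub_self])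
    have h4 := sub_mem (Θ2 j''.1 (k'' + k) (by omega) _ (smul_PP rfl ha hb))
      (arw_smul a.2 (Θ2 j'.1 k ek b hb))
    rwa [map_smul (πK 𝔞 K p), map_smul (ψθ 𝔞 𝔞 K p θ), smul_sub, sub_sub_sub_cancel_right,
      e2] at h4
  · have e0 : cb3 hq c = c' p (3 + p) := hc (JJ.bot p q) (j3 hq)
    have e1 : ∀ t : (𝔞.G p).V ⊗[ℂ] SA Sg 3,
        𝔞.inc (3 + p) (ψ c t) = Θ (3 + p) (Hm.co (𝔞.pc K p) 3 t) := fun t => by
      induction t using TensorProduct.induction_on with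
      | zero => simp only [map_zero]
      | add s s' h h' => simp only [map_add, h, h']
      | tmul w a =>
        rw [hψ, e0, hc', Θ0, LinearMap.zero_apply, smul_zero, sub_zero, σ0]
        rfl
    have h1 := Θ2 (3 + p) 0 (zero_add _).symm (Pi.single a 1) (mem_PP.2 fun l => by
      rw [Pi.single_apply]
      split_ifs
      exacts [one_mem_SA, zero_mem _])
    rw [Fintype.linearCombination_apply_single, Fintype.linearCombination_apply_single, one_smul,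
      one_smul, ← e1, ← map_sub, ← neg_mem_iff, ← map_neg, neg_sub] at h1
    exact h1
end tools

variable (le : LeL K 𝔞.O) (hr : RegL K.toLat p) (hp : 2 ≤ p) (hq : 5 + p ≤ q)
include le hr hp hq
/-- a module homomorphism `K → O/K` in the degrees `JJ` is multiplicative in degree `p` -/
theorem mem_Tv_of_δ {φ : (Quiv.En (𝔞.GJ p q)).V}
    (h : (𝔞.qv p q).δ φ ∈ (𝔞.qv p q).den (𝔞.pcs p q K)) : φ (JJ.bot p q) ∈ 𝔞.Tv 𝔞 K K p := by
  have _ := le; have _ := hr; have _ := hp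
  obtain ⟨ψ, -, hψ⟩ := exists_toH (𝔞 := 𝔞) (p := p) (q := q) (by omega)
  replace hψ : IsH (by omega) ψ := hψ
  intro s hs
  have := toH_den hψ h hs.1
  rwa [toH_δ hψ, mul_KK hs, map_zero, sub_zero] at this
/-- and it is determined by its degree `p` part (`map_mul_pc`) -/
theorem mem_stabs_of_δ {φ : (Quiv.En (𝔞.GJ p q)).V}
    (h : (𝔞.qv p q).δ φ ∈ (𝔞.qv p q).den (𝔞.pcs p q K))
    (h0 : φ (JJ.bot p q) ∈ 𝔞.stab 𝔞 K K p) : φ ∈ 𝔞.stabs p q K := by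
  have _ := hp; have _ := hq
  refine mem_stabs.2 fun j u hu => ?_
  obtain rfl | hj := j.cases
  · exact h0 u hu
  obtain ⟨b, rfl⟩ := exists_sum le hr (show p < j.1 by omega) hu
  rw [map_sum]
  refine Submodule.sum_mem _ fun l _ => ?_
  have h1 : cb _ j (b l) _ ∈ _ := mem_den.1 h (JJ.bot p q) j (b l) _ (fu_mem _ l)
  have h2 : eb φ _ ∈ 𝔞.pc K p := h0 _ (fu_mem _ l)
  have h3 := sub_mem (act_mem (b l) h2) h1
  rwa [cb_δ, sub_sub_cancel] at h3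
omit le hr hp hq in
theorem δ_mem_den_of_stabs {φ : (Quiv.En (𝔞.GJ p q)).V} (h : φ ∈ 𝔞.stabs p q K) :
    (𝔞.qv p q).δ φ ∈ (𝔞.qv p q).den (𝔞.pcs p q K) := mem_den.2 fun j j' a u hu =>
  sub_mem (act_mem a (mem_stabs.1 h j u hu)) (mem_stabs.1 h j' _ (act_mem a hu))
/-- `0 → ⊕_{j > p} Hom(U_j, F_j) → Zc / den → Hb / den → 0`.
Kernel: if `c (p, 3+p)` is zero on `KK 3` then `c (p, k+p)` is zero on `KK k = A KK 3` (cocycle
relation), so it factors as `-φ_(k+p) ∘ mul` on `U_p ⊗ A_k` modulo `U`; `c - δ φ` vanishes on the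
arrows from `p`, hence everywhere (`U_j = A U_p`).  Image: cocycles give the relations of degree two
(`mem_Hb_of_two`); conversely `θ ∈ Hb` defines `θ_k` on `KK k`, `k ≥ 3`, modulo `U` (`map_mm_KK`);
extend `θ_k` linearly to `c (p, k+p)` and put `c (j, j') a (a' u) = c (a a') u - a c (a') u`
(through a linear section of `U_p ⊗ A_(j-p) → U_j`). -/
theorem ses_coc {ψ : (𝔞.qv p q).C.V →ₗ[ℂ] (𝔞.HG 𝔞 p).V} (hψ : ∀ c w (a : SA Sg 3),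
      ψ c (w ⊗ₜ a) = c (JJ.bot p q, JJ.mk' 3 le_rfl (by omega))
        ⟨a.1, (Arw_add p three_pos).ge a.2⟩ w) :
    SqInj (V := Quiv.En (𝔞.GJ p q)) (W := (𝔞.qv p q).C) (𝔞.En1 p q) (𝔞.En1 p q ⊓ 𝔞.stabs p q K)
      ((𝔞.qv p q).den (𝔞.pcs p q K)) (𝔞.qv p q).δ ∧
    SqEx (V := Quiv.En (𝔞.GJ p q)) (W := (𝔞.qv p q).C) (U := 𝔞.HG 𝔞 p) (𝔞.En1 p q)
      ((𝔞.qv p q).Zc (𝔞.pcs p q K)) ((𝔞.qv p q).den (𝔞.pcs p q K)) (𝔞.den 𝔞 K K p)
      (𝔞.qv p q).δ ψ ∧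
    SqSurj (V := (𝔞.qv p q).C) (W := 𝔞.HG 𝔞 p) ((𝔞.qv p q).Zc (𝔞.pcs p q K)) (𝔞.Hb 𝔞 K K p)
      (𝔞.den 𝔞 K K p) ψ := by
  replace hψ : IsH (by omega) ψ := hψ
  refine ⟨le_antisymm (fun φ h => ⟨h.1, mem_stabs_of_δ le hr hp hq h.2
      ((mem_En1.1 h.1).symm.subst (motive := (· ∈ 𝔞.stab 𝔞 K K p)) (zero_mem _))⟩)
    fun φ h => ⟨h.1, δ_mem_den_of_stabs h.2⟩, le_antisymm (sup_le ?_ ?_) ?_,
    le_antisymm (sup_le ?_ den_le_Hb) ?_⟩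
  · rintro _ ⟨φ, hφ, rfl⟩
    refine ⟨Quiv.δ_mem_Zc _ _ _, fun s hs => ?_⟩
    rw [toH_δ hψ, mul_KK hs, mem_En1.1 hφ, map_zero, map_zero, LinearMap.zero_apply, sub_zero]
    exact zero_mem _
  · exact fun c hc => ⟨Quiv.den_le_Zc _ (𝔞.isSub_pcs p q K) hc, fun s hs => toH_den hψ hc hs.1⟩
  · intro c hc
    obtain ⟨φ, hφ, h⟩ := exists_δ hψ le hr hc.1 hc.2
    exact Submodule.mem_sup.2 ⟨_, ⟨φ, hφ, rfl⟩, _, h, add_sub_cancel _ _⟩
  · rintro _ ⟨c, hc, rfl⟩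
    exact toH_mem_Hb hψ le hr hq hc
  · intro θ h
    obtain ⟨c, hc, h⟩ := exists_coc hψ le hr h
    exact Submodule.mem_sup.2 ⟨_, ⟨c, hc, rfl⟩, _, h, add_sub_cancel _ _⟩
end Amb

namespace LFam
variable {X : Spc} {L : Pt → XL Sg 𝔞.M}
lemma isAB_pcs (h : LFam 𝔞 X p L) (j : JJ p q) :
    IsAB X (𝔞.GJ p q j) fun x => 𝔞.pcs p q (L x) j := h.ab _ j.le
/-- kernel and image of a coordinate projection -/
lemma proj_aux {J : Type} [Fintype J] [DecidableEq J] {V : J → GV} {P : ∀ j, Pt → Submodule ℂ (V j).V}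
    (h : ∀ j, IsAB X (V j) (P j)) (o : J) :
    (IsAB X (GV.pi V) fun x => LinearMap.ker (LinearMap.proj (R := ℂ) (φ := fun j => (V j).V) o) ⊓
      Submodule.pi Set.univ fun j => P j x) ∧ ∑ j, kc X (V j) (P j) =
      kc X (GV.pi V) (fun x => LinearMap.ker (LinearMap.proj (R := ℂ) (φ := fun j => (V j).V) o) ⊓
        Submodule.pi Set.univ fun j => P j x) + kc X (V o) (P o) := by
  have hφ : IsRM X (GV.pi V) (V o) fun _ => LinearMap.proj o := IsRM.const fun _ => rfl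
  have hm := (h o).congr (L' := fun x => (Submodule.pi Set.univ fun j => P j x).map
    (LinearMap.proj (R := ℂ) (φ := fun j => (V j).V) o)) fun x _ => (map_proj_pi (fun j => P j x) o).symm
  refine ⟨((IsAB.pi h).ker_of_map hφ hm).congr fun _ _ => inf_comm _ _, ?_⟩
  rw [← kc_pi h, kc_map (IsAB.pi h) hφ hm]
  exact congrArg₂ _ (kc_congr fun _ _ => inf_comm _ _)
    (kc_congr fun x _ => map_proj_pi (fun j => P j x) o)
lemma in_En (X : Spc) (j : JJ p q) : ((𝔞.GJ p q j).hom (𝔞.GJ p q j)).In X.B :=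
  (𝔞.in_G _ _).hom (𝔞.in_G _ _)
lemma isAB_En1 (X : Spc) : IsAB X (Quiv.En (𝔞.GJ p q)) fun _ => 𝔞.En1 p q :=
  (proj_aux (fun j => IsAB.top (in_En X j)) (JJ.bot p q)).1.congr fun _ _ => by
    rw [Submodule.pi_top, inf_top_eq]; rfl
lemma isAB_En1_inf (h : LFam 𝔞 X p L) :
    IsAB X (Quiv.En (𝔞.GJ p q)) fun x => 𝔞.En1 p q ⊓ 𝔞.stabs p q (L x) :=
  (proj_aux (fun j => (h.isAB_pcs j).homMap (h.isAB_pcs j)) (JJ.bot p q)).1
/-- cogenerated (`cog_Zc`) of locally constant rank (`ses_coc`, `isAB_Hb`) -/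
theorem isAB_Zc (h : LFam 𝔞 X p L) (hq : 5 + p ≤ q) :
    IsAB X (𝔞.qv p q).C fun x => (𝔞.qv p q).Zc (𝔞.pcs p q (L x)) := by
  obtain ⟨ψ, -, hψ⟩ := Amb.exists_toH (𝔞 := 𝔞) (p := p) (q := q) (by omega)
  exact isAB_mid (φ := fun _ => (𝔞.qv p q).δ) (ψ := fun _ => ψ) (isAB_En1 X) h.isAB_En1_inf
    ((𝔞.qv p q).cog_Zc h.isAB_pcs) ((𝔞.qv p q).eqv_Zc h.isAB_pcs) ((𝔞.qv p q).isAB_den h.isAB_pcs)
    (h.isAB_Hb h) (h.isAB_den h) fun x hx => Amb.ses_coc (h.le x hx) (h.reg x hx) h.two hq hψ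
/-- `kq3`, `kc_pi`, `kq_hom_top` -/
theorem kc_Zc (h : LFam 𝔞 X p L) (hq : 5 + p ≤ q) :
    kc X (𝔞.qv p q).C (fun x => (𝔞.qv p q).Zc (𝔞.pcs p q (L x))) -
      kc X (𝔞.qv p q).C (fun x => (𝔞.qv p q).den (𝔞.pcs p q (L x))) + hmc 𝔞 𝔞 X p L L =
    ∑ j : JJ p q, K.dual X (ucl 𝔞 X L j.1) * (kc X (𝔞.G j.1) (fun _ => ⊤) - ucl 𝔞 X L j.1) +
      hbc 𝔞 𝔞 X p L L := by
  obtain ⟨ψ, d0, hψ⟩ := Amb.exists_toH (𝔞 := 𝔞) (p := p) (q := q) (by omega)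
  have h1 := kq3 (isAB_En1 X) h.isAB_En1_inf (h.isAB_Zc hq) ((𝔞.qv p q).isAB_den h.isAB_pcs)
    (h.isAB_Hb h) (h.isAB_den h) (IsRM.const (𝔞.qv p q).deg0_δ) (IsRM.const d0)
    fun x hx => Amb.ses_coc (h.le x hx) (h.reg x hx) h.two hq hψ
  have h2 := (proj_aux (fun j => IsAB.top (in_En (𝔞 := 𝔞) X j)) (JJ.bot p q)).2
  have h3 := (proj_aux (fun j => (h.isAB_pcs j).homMap (h.isAB_pcs j)) (JJ.bot p q)).2
  have h4 : ∑ j : JJ p q, K.dual X (ucl 𝔞 X L j.1) * (kc X (𝔞.G j.1) (fun _ => ⊤) - ucl 𝔞 X L j.1) =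
      _ := (Finset.sum_congr rfl fun j _ =>
        (kq_hom_top (h.isAB_pcs j) (h.isAB_pcs j)).symm).trans (Finset.sum_sub_distrib _ _)
  rw [h2, h3, kc_congr (L' := fun _ => 𝔞.En1 p q) fun _ _ => by
    rw [Submodule.pi_top, inf_top_eq]; rfl, add_sub_add_comm] at h4
  rw [h1, h4, add_right_comm]
  rfl
end LFam

end Crest.Agent.N265.M
end
end

-- ▼ part N265/Q/Pts
section

/-! # Row 265, task Q-PTS: points, universal family and tangent vectors of the Quot scheme -/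

set_option autoImplicit false
set_option linter.dupNamespace false
noncomputable section
open MvPolynomial Module TensorProduct

namespace Crest.Agent.N265.M
open Crest.Agent.R274
open Defs_781 Lat_781 SnapA_99 SnapB_99 SnapE_99 Gen7_750 Xs1_781 SkDefs_474
open Alg GV Br N Fib _root_.Crest.Agent.N265.Pow
variable {Sg : Surf}

lemma ev_HP (Sg : Surf) (d : ℕ) (c : ℤ) : ∃ m₁ : ℕ, ∀ m : ℕ, m₁ ≤ m → 0 ≤ HP Sg 2 d c m := by
  refine ⟨(2 * (|Sg.V.chi 0| + |Sg.V.chi Sg.V.h - Sg.V.chi 0| + d + |c|) + 2).toNat,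
    fun m hm => ?_⟩
  have h2 := Int.toNat_le.1 hm
  have h5 := Ch.chi_nsmul Sg.V Sg.V.h m
  have h6 : 0 < Ch.ip Sg.V Sg.V.h Sg.V.h := Ch.dg_h_pos Sg.V
  rw [HP, natCast_zsmul]
  have := abs_nonneg c
  have := abs_nonneg (Sg.V.chi 0)
  have := abs_nonneg (Sg.V.chi Sg.V.h - Sg.V.chi 0)
  have := le_abs_self c
  have := neg_abs_le (Sg.V.chi 0)
  have := neg_abs_le (Sg.V.chi Sg.V.h - Sg.V.chi 0)
  have h7 : (m : ℤ) * (m - 1) ≤ m * (m - 1) * Ch.ip Sg.V Sg.V.h Sg.V.h :=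
    le_mul_of_one_le_right (mul_nonneg (by omega) (by omega)) h6
  push_cast
  nlinarith

/-- a subrepresentation contains what its lowest piece generates -/
lemma Amb.smul_le_of_isSub (𝔞 : Amb Sg) {p q : ℕ} {U : ∀ j : JJ p q, Submodule ℂ (𝔞.GJ p q j).V}
    (h : (𝔞.qv p q).IsSub U) (j : JJ p q) {k : ℕ} (hk : j.1 = k + p) :
    AA Sg.V.X k • (U (JJ.bot p q)).map (𝔞.inc p) ≤ (U j).map (𝔞.inc j.1) := by
  rcases j.cases with rfl | hj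
  · obtain rfl : k = 0 := by
      have : p = k + p := hk
      omega
    rw [Nat.cast_zero, AA_zero, Submodule.one_smul]
    exact le_rfl
  · refine Submodule.smul_le.2 ?_
    rintro a ha _ ⟨u, hu, rfl⟩
    have ha' : a ∈ Arw Sg p j.1 := by rwa [hk, Arw_add p (by omega), SA_eq]
    exact ⟨_, h (JJ.bot p q) j ⟨a, ha'⟩ u hu, 𝔞.inc_act (j := p) ⟨a, ha'⟩ u⟩

/-- `reg_quot` and `persist` (bounds `B j = HP (j + p)` for `j ≥ 3`, `B j = dim G (j + p)` below;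
`A_j • U_p ≤ U_(j+p)` for `3 ≤ j ≤ q - p`) -/
theorem exists_par (Sg : Surf) (d : ℕ) (c : ℤ) : ∃ m₀ : ℕ,
    (∀ K : XL Sg (Fin 2 → Sg.F), LeL K (r2 Sg).O → cL K.toLat = HP Sg 2 d c → RegL K.toLat m₀) ∧
    ∀ p ≥ m₀, ∀ b ≠ 0, ∃ P : Par (r2 Sg), P.p = p ∧ P.d = d ∧ P.c = c ∧ P.b = b := by
  obtain ⟨m0, hm0, H1, H2⟩ := reg_quot Sg (Fin 2) d c
  obtain ⟨m₁, hm₁⟩ := ev_HP Sg d c
  rw [Fintype.card_fin] at H1 H2
  have R : ∀ m : ℕ, m0.toNat ≤ m → ∀ K : XL Sg (Fin 2 → Sg.F), LeL K (r2 Sg).O →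
      cL K.toLat = HP Sg 2 d c → RegL K.toLat m := fun m hm K le h =>
    (H1 K (le.trans r2_O.le) (.of_forall fun e => congrFun h e)).1.mono (by omega)
  refine ⟨max m0.toNat m₁, R _ (le_max_left _ _), fun p hp b hb => ?_⟩
  have hp0 := le_of_max_le_left hp
  have hp1 := le_of_max_le_right hp
  obtain ⟨q0, hq0⟩ := persist (fun j => AA Sg.V.X j) (Gm (r2 Sg).O.toLat p) fun j =>
    if j < 3 then (finrank ℂ (Gm (r2 Sg).O.toLat (j + p)) : ℤ) else HP Sg 2 d c (j + p)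
  refine ⟨⟨p, q0 + 5 + p, d, c, b, hb, by omega, by omega, R p hp0, fun U hU hs => ?_⟩,
    rfl, rfl, rfl, rfl⟩
  have hU' : ∀ j, (finrank ℂ ((U j).map ((r2 Sg).inc j.1)) : ℤ) = HP Sg 2 d c j.1 := fun j => by
    rw [← (Submodule.equivMapOfInjective _ ((r2 Sg).inc_inj _) _).finrank_eq, hU]
    exact Int.toNat_of_nonneg (hm₁ _ (hp1.trans j.le))
  have hle : (U (JJ.bot _ _)).map ((r2 Sg).inc p) ≤ Gm (r2 Sg).O.toLat p := by
    rw [← Amb.range_inc]; exact LinearMap.map_le_range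
  have h3 := hq0 _ hle fun j hj => by
    split_ifs with h
    · exact Nat.cast_le.2 (Submodule.finrank_mono ((smul_mono_right _ hle).trans (AA_smul_le _ _ _)))
    · rw [← Nat.cast_add]
      exact (Nat.cast_le.2 (Submodule.finrank_mono ((r2 Sg).smul_le_of_isSub hs
        (JJ.mk' j (by omega) (by omega)) rfl))).trans (hU' _).le
  obtain ⟨h4, h5, h6⟩ := H2 p (by omega) _ (hle.trans (Gm_mono r2_O.le _)) (hU' (JJ.bot _ _)).ge
    ((Filter.eventually_ge_atTop 3).mono fun j hj => by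
      obtain ⟨j, rfl⟩ := Int.eq_ofNat_of_zero_le (show 0 ≤ j by omega)
      have := h3 j
      rwa [if_neg (by omega)] at this)
  refine ⟨_, genS_le hle, h5, funext fun j => Submodule.eq_of_le_of_finrank_eq ?_ ?_⟩
  · obtain ⟨k, hk⟩ : ∃ k, j.1 = k + p := ⟨j.1 - p, (Nat.sub_add_cancel j.le).symm⟩
    intro w hw
    have h7 : (r2 Sg).inc j.1 w ∈ Gm _ ((j.1 : ℕ) : ℤ) := hw
    rw [show ((j.1 : ℕ) : ℤ) = k + p by omega, h6] at h7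
    obtain ⟨w', hw', e⟩ := (r2 Sg).smul_le_of_isSub hs j hk h7
    exact (r2 Sg).inc_inj _ e ▸ hw'
  · refine Nat.cast_injective (R := ℤ) ?_
    rw [Amb.finrank_pc (genS_le hle) (h4.mono (m' := (p : ℕ)) (by omega)) (j.le.trans (Nat.le_succ _)),
      h5, ← hU', (Submodule.equivMapOfInjective _ ((r2 Sg).inc_inj _) _).finrank_eq]

namespace Par
variable {𝔞 : Amb Sg} (P : Par 𝔞) {y y' : Pt}
lemma Lq_congr (h : P.Γ.U (JJ.bot P.p P.q) y = P.Γ.U (JJ.bot P.p P.q) y') : P.Lq y = P.Lq y' :=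
  congrArg (fun U : Submodule ℂ (𝔞.G P.p).V => genS Sg.V.X (U.map (𝔞.inc P.p)) P.p) h
lemma Lq_restr {B : Finset ℕ} (hb : P.b ∈ B) (y : Pt) : P.Lq (restr B y) = P.Lq y :=
  P.Lq_congr (GrD.U_restr (Γ := P.Γ) hb _ y)
lemma Lq_smul {c : ℂ} (hc : c ≠ 0) (y : Pt) : P.Lq (c • y) = P.Lq y :=
  P.Lq_congr (GrD.U_smul hc _ y)
variable {P}
lemma Lq_le (y : Pt) : LeL (P.Lq y) 𝔞.O :=
  genS_le (by rw [← Amb.range_inc]; exact LinearMap.map_le_range)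
lemma eqv_of_U {K : XL Sg 𝔞.M} (le : LeL K 𝔞.O) (h : cL K.toLat = P.hp)
    (e : P.Γ.U (JJ.bot P.p P.q) y = 𝔞.pc K P.p) : EqL (P.Lq y) K :=
  eqv_of_le (genS_le (Submodule.map_le_iff_le_comap.2 e.le)) (Amb.le_of_pc le (P.reg K le h) le_rfl
    (e.ge.trans (Submodule.map_le_iff_le_comap.1 le_Gm_genS)))
lemma finrank_pcs {K : XL Sg 𝔞.M} (le : LeL K 𝔞.O) (h : cL K.toLat = P.hp) (j : JJ P.p P.q) :
    finrank ℂ (𝔞.pc K j.1) = P.Γ.k j := by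
  have := Amb.finrank_pc le (P.reg K le h) (j.le.trans (Nat.le_succ _))
  rw [h] at this
  change _ = (P.hp j.1).toNat
  rw [← this, Int.toNat_natCast]
/-- `P.pts`, `P.reg`, `eqv_genS` -/
theorem Lq_spec (hy : y ∈ P.Qa.pts) : cL (P.Lq y).toLat = P.hp ∧ RegL (P.Lq y).toLat P.p ∧
    ∀ j, 𝔞.pc (P.Lq y) j.1 = P.Γ.U j y := by
  obtain ⟨K, le, h, e⟩ := P.pts (fun j => P.Γ.U j y) (GrD.finrank_U (P.Qa_sub.2 hy))
    ((P.mem_Qa (P.Qa_sub.2 hy)).1 hy)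
  have e' := eqv_of_U le h (congrFun e _).symm
  exact ⟨(cL_congr e').trans h, regL_congr e'.symm (P.reg K le h),
    fun j => (Amb.pc_congr e' _).trans (congrFun e j)⟩
lemma pcs_Lq (hy : y ∈ P.Qa.pts) : 𝔞.pcs P.p P.q (P.Lq y) = fun j => P.Γ.U j y :=
  funext (Lq_spec hy).2.2
theorem lfam : LFam 𝔞 P.Qa P.p P.Lq :=
  LFam.of_one P.two (fun x _ => Lq_le x) (fun _ hx => (Lq_spec hx).2.1)
    ⟨P.d, P.c, fun _ hx => (Lq_spec hx).1⟩ le_rfl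
    (((GrD.isAB_U (Γ := P.Γ) (JJ.bot P.p P.q)).mono P.Qa_sub).congr
      fun _ hx => ((Lq_spec hx).2.2 _).symm)
theorem mem_iff {K : XL Sg 𝔞.M} (le : LeL K 𝔞.O) (h : cL K.toLat = P.hp) (hy : y ∈ P.Γ.Y.pts) :
    (∀ j, P.Γ.U j y = 𝔞.pc K j.1) ↔ y ∈ P.Qa.pts ∧ EqL (P.Lq y) K :=
  ⟨fun e => ⟨(P.mem_Qa hy).2 (by rw [funext e]; exact 𝔞.isSub_pcs _ _ K), eqv_of_U le h (e _)⟩,
    fun e j => ((Lq_spec e.1).2.2 j).symm.trans (Amb.pc_congr e.2 _)⟩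
theorem exists_pt {K : XL Sg 𝔞.M} (le : LeL K 𝔞.O) (h : cL K.toLat = P.hp) :
    ∃ y ∈ P.Qa.pts, EqL (P.Lq y) K := by
  obtain ⟨y, hy, e⟩ := GrD.exists_pt (Γ := P.Γ) (𝔞.pcs P.p P.q K) (finrank_pcs le h)
  exact ⟨y, (mem_iff le h hy).1 e⟩
theorem uniq (hy : y ∈ P.Qa.pts) (hy' : y' ∈ P.Qa.pts) (h : EqL (P.Lq y) (P.Lq y')) :
    ∃ c : ℂ, c ≠ 0 ∧ y' = c • y :=
  GrD.uniq (P.Qa_sub.2 hy) (P.Qa_sub.2 hy') fun j =>
    ((Lq_spec hy).2.2 j).symm.trans ((Amb.pc_congr h _).trans ((Lq_spec hy').2.2 j))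
/-- the universal property (`GrD.exists_graph`) -/
theorem graph {Z : Spc} {L : Pt → XL Sg 𝔞.M} (hb : P.b ∉ Z.B) (h : LFam 𝔞 Z P.p L)
    (hh : ∀ x ∈ Z.pts, cL (L x).toLat = P.hp) :
    ∃ (W : Spc) (A : Bun Z) (y : A.ι → Var), IsPSub W A 0 P.b y ∧ A.Rk 1 ∧
      ∀ z, z ∈ W.pts ↔ z ∈ (Z.fib P.Qa).pts ∧ EqL (P.Lq z) (L (restr Z.B z)) := by
  obtain ⟨W, A, y, h1, h2, -, -, h3⟩ := GrD.exists_graph (Γ := P.Γ) hb
    (fun j x => 𝔞.pc (L x) j.1) (fun j => h.ab _ j.le)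
    fun j x hx => finrank_pcs (h.le x hx) (hh x hx) j
  refine ⟨W, A, y, h1, h2, fun z => (h3 z).trans ?_⟩
  have hbb : P.Γ.b ∈ P.Γ.Y.B := GrD.b_mem
  rw [Spc.mem_fib, Spc.mem_fib, P.Qa_sub.1, ← P.Lq_restr hbb z]
  constructor
  · rintro ⟨⟨a1, a2, a3⟩, a4⟩
    have := (mem_iff (h.le _ a1) (hh _ a1) a2).1 fun j => (GrD.U_restr hbb j z).trans (a4 j)
    exact ⟨⟨a1, this.1, a3⟩, this.2⟩
  · rintro ⟨⟨a1, a2, a3⟩, a4⟩
    exact ⟨⟨a1, P.Qa_sub.2 a2, a3⟩, fun j => (GrD.U_restr hbb j z).symm.trans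
      ((mem_iff (h.le _ a1) (hh _ a1) (P.Qa_sub.2 a2)).2 ⟨a2, a4⟩ j)⟩
/-- variations on the Grassmannian restrict to Kodaira-Spencer maps (`IsVar.sub`) -/
theorem ks_of_isVar {Z : Spc} (hZ : Z.Sub P.Qa) {x ξ : Pt} (hx : x ∈ Z.pts) (hξ : ξ ∈ Z.Tan x)
    {φ : P.Γ.En.V} (h : ∀ j, IsVar P.Γ.Y.fn ⟨x, P.Qa_sub.2 (hZ.2 hx)⟩ (P.Γ.Y.pd x ξ)
      (fun y => P.Γ.U j y.1) (φ j)) (j : JJ P.p P.q) :
    KS Z (V := 𝔞.G j.1) (fun y => 𝔞.pc (P.Lq y) j.1) hx ξ (φ j) := by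
  have e : (fun y : Z.pts => 𝔞.pc (P.Lq y.1) j.1) = fun y => P.Γ.U j y.1 :=
    funext fun y => (Lq_spec (hZ.2 y.2)).2.2 j
  change IsVar _ _ _ (fun y : Z.pts => 𝔞.pc (P.Lq y.1) j.1) _
  rw [e]
  exact IsVar.sub (hZ.trans P.Qa_sub) hx hξ (GrD.isAB_U (Γ := P.Γ) j).alg (h j)
/-- Kodaira-Spencer is injective (`exists_isVar`, `δ_mem_den`, `mem_stabs_of_δ`, `isVar_iff`,
`ks_mem_span`, `Blk.vec_inj`) -/
theorem tan0 {Z : Spc} (hZ : Z.Sub P.Qa) {x ξ : Pt} (hx : x ∈ Z.pts) (hξ : ξ ∈ Z.Tan x)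
    (h : KS Z (V := 𝔞.G P.p) (fun y => 𝔞.pc (P.Lq y) P.p) hx ξ 0) :
    ξ ∈ Submodule.span ℂ {x} := by
  have hY := hZ.trans P.Qa_sub
  have hq := hZ.2 hx
  have hξ' := hY.tan_le x hξ
  obtain ⟨φ, hφ⟩ := GrD.exists_isVar (hY.2 hx) hξ'
  have h1 := P.qv.δ_mem_den GrD.isAB_U hY
    (fun z hz => (P.mem_Qa (hY.2 hz)).1 (hZ.2 hz)) hx hξ hφ
  rw [← pcs_Lq hq] at h1
  have h2 := Amb.mem_stabs_of_δ (Lq_le x) (Lq_spec hq).2.1 P.two P.five h1 fun v hv => by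
    simpa using IsVar.unique ((lfam.mono hZ).ab _ le_rfl).alg
      (ks_of_isVar hZ hx hξ hφ (JJ.bot _ _)) h v hv
  rw [Amb.stabs, pcs_Lq hq] at h2
  have h3 := add_mem ((GrD.isVar_iff (hY.2 hx) hξ').1 hφ) ((GrD.ks_mem_span (hY.2 hx)).2 h2)
  rw [sub_add_cancel] at h3
  obtain ⟨c, hc⟩ := Submodule.mem_span_singleton.1 h3
  refine Submodule.mem_span_singleton.2 ⟨c, P.Γ.β.vec_inj ((GrD.supp (hY.2 hx)).smul c)
    (GrD.supp_tan hξ') ?_⟩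
  rw [map_smul]; exact hc
/-- fixed points have stable pieces in every degree -/
theorem stab_of_fix (hy : y ∈ P.Qa.pts) {w : ℕ → ℤ} (hw : ∀ v : Var, y v ≠ 0 → v.2.2 = w v.1)
    {j : ℕ} (hj : P.p ≤ j) : (𝔞.G j).Stab (𝔞.pc (P.Lq y) j) := by
  have hs := GrD.supp (P.Qa_sub.2 hy)
  have hw' : ∀ v : Var, y v ≠ 0 → v.2.2 = w P.Γ.b := fun v hv => by
    obtain ⟨i, rfl⟩ := hs.exists hv
    exact hw _ hv
  have := (lfam.ab j hj).eqv y hy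
  rwa [GrD.gpt_eq hs hw', Lq_smul _ (chi_ne _)] at this
end Par

end Crest.Agent.N265.M
end
end

-- ▼ part N265/Q/Bnd0
section

/-!
# Row 265, blocks QA, QB: one regularity bound for all levels, and the points of the Quot scheme
-/

set_option autoImplicit false
set_option linter.dupNamespace false
noncomputable section
open MvPolynomial Module TensorProduct Filter

namespace Crest.Agent.N265.M
open Crest.Agent.R274
open Defs_781 Lat_781 SnapA_99 SnapB_99 SnapE_99 Gen7_750 Xs1_781 SkDefs_474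
open Alg GV Br N Fib _root_.Crest.Agent.N265.Pow

section gen
variable {k F : Type} [Field k] [Field F] [Algebra k F] {n : ℕ} {c : Coord k F n}
  {V : Type} [AddCommGroup V] [Module k V] [Module F V] [IsScalarTower k F V]
end gen

variable {Sg : Surf}
namespace Amb
variable (𝔞 : Amb Sg)
/-- coordinates of a lattice -/
def crd (K : XL Sg 𝔞.M) : XL Sg (𝔞.ι → Sg.F) := comapX K 𝔞.e.symm.toLinearMap 𝔞.e.symm.injective
/-- a lattice from its coordinates -/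
def ofc (K : XL Sg (𝔞.ι → Sg.F)) : XL Sg 𝔞.M := comapX K 𝔞.e.toLinearMap 𝔞.e.injective
variable {𝔞}
lemma crd_le {K : XL Sg 𝔞.M} (h : LeL K 𝔞.O) : LeL (𝔞.crd K) (OP Sg.V.X 𝔞.ι) := fun I hI x hx => by
  have h1 : 𝔞.e (𝔞.e.symm x) ∈ (OP Sg.V.X 𝔞.ι).M I := h I hI hx
  rwa [LinearEquiv.apply_symm_apply] at h1
lemma ofc_le {K : XL Sg (𝔞.ι → Sg.F)} (h : LeL K (OP Sg.V.X 𝔞.ι)) : LeL (𝔞.ofc K) 𝔞.O :=
  fun I hI _ hx => h I hI hx
lemma ofc_crd (K : XL Sg 𝔞.M) : EqL (𝔞.ofc (𝔞.crd K)) K := fun I _ => Submodule.ext fun x => by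
  change 𝔞.e.symm (𝔞.e x) ∈ K.M I ↔ _
  rw [LinearEquiv.symm_apply_apply]
variable (𝔞)
/-- sections as coordinate vectors -/
def inc' (j : ℕ) : (𝔞.G j).V →ₗ[ℂ] (𝔞.ι → Sg.F) := kl ℂ 𝔞.e.toLinearMap ∘ₗ 𝔞.inc j
lemma inc'_apply (j : ℕ) (w : (𝔞.G j).V) : 𝔞.inc' j w = 𝔞.e (𝔞.inc j w) := rfl
lemma inc'_inj (j : ℕ) : Function.Injective (𝔞.inc' j) := 𝔞.e.injective.comp (𝔞.inc_inj j)
lemma pc_ofc (K : XL Sg (𝔞.ι → Sg.F)) (j : ℕ) :
    𝔞.pc (𝔞.ofc K) j = (Gm K.toLat j).comap (𝔞.inc' j) :=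
  Submodule.ext fun _ => mem_Gm_comap (hg := 𝔞.e.injective)
lemma map_inc'_le (j : ℕ) (U : Submodule ℂ (𝔞.G j).V) :
    U.map (𝔞.inc' j) ≤ Gm (OP Sg.V.X 𝔞.ι).toLat j := by
  rintro _ ⟨w, -, rfl⟩
  refine mem_Gm_OP.2 fun a => ?_
  rw [inc'_apply, e_inc]
  exact SA_mem_AA _
lemma finrank_map_inc' (j : ℕ) (U : Submodule ℂ (𝔞.G j).V) :
    finrank ℂ (U.map (𝔞.inc' j)) = finrank ℂ U :=
  (Submodule.equivMapOfInjective _ (𝔞.inc'_inj j) _).finrank_eq.symm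

/-- the degrees `p` and `p + 3, …, q₀` determine a point -/
def Pts (p d : ℕ) (c : ℤ) (q0 : ℕ) : Prop := ∀ (J : Finset ℕ) (hp : p ∈ J), (∀ j ∈ J, p ≤ j) →
  (∀ j, p + 3 ≤ j → j ≤ q0 → j ∈ J) → ∀ U : ∀ j : J, Submodule ℂ (𝔞.G j.1).V,
    (∀ j : J, (finrank ℂ (U j) : ℤ) = HP Sg (Fintype.card 𝔞.ι) d c j.1) →
    (∀ j : J, p < j.1 → ∀ s ∈ SA Sg (j.1 - p), ∀ u ∈ U ⟨p, hp⟩,
      s • 𝔞.inc p u ∈ (U j).map (𝔞.inc j.1)) →
    ∃ K : XL Sg 𝔞.M, LeL K 𝔞.O ∧ cL K.toLat = HP Sg (Fintype.card 𝔞.ι) d c ∧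
      ∀ j : J, 𝔞.pc K j.1 = U j

theorem exists_m0 (d : ℕ) (c : ℤ) : ∃ m0 : ℕ, 2 ≤ m0 ∧ ∀ p ≥ m0,
    (∀ K : XL Sg 𝔞.M, LeL K 𝔞.O → cL K.toLat = HP Sg (Fintype.card 𝔞.ι) d c → RegL K.toLat p) ∧
    ∃ q0, 𝔞.Pts p d c q0 := by
  obtain ⟨m0, hm0, H1, H2⟩ := reg_quot Sg 𝔞.ι d c
  refine ⟨m0.toNat, by omega, fun p hp => ⟨fun K hK hc => ?_, ?_⟩⟩
  · have h1 := (H1 (𝔞.crd K) (crd_le hK) (Eventually.of_forall fun e => by
      rw [crd, cL_comapX, hc])).1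
    exact regL_congr (ofc_crd K) (regL_comapX 𝔞.e (h1.mono (by omega)))
  obtain ⟨q0, hq0⟩ := persist (fun j : ℕ => AA Sg.V.X (j + 3 : ℕ)) (Gm (OP Sg.V.X 𝔞.ι).toLat p)
    fun j => HP Sg (Fintype.card 𝔞.ι) d c ((j + 3 : ℕ) + p)
  refine ⟨q0 + 3 + p, fun J hJ h0 h3 U h1 h2 => ?_⟩
  have hle : ∀ (i : ℕ) (j : J), j.1 = i + p →
      AA Sg.V.X i • (U ⟨p, hJ⟩).map (𝔞.inc' p) ≤ (U j).map (𝔞.inc' j.1) := fun i j hj => by
    rcases Nat.eq_zero_or_pos i with rfl | hi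
    · obtain rfl : j = ⟨p, hJ⟩ := Subtype.ext (by simpa using hj)
      rw [Nat.cast_zero, AA_zero, Submodule.one_smul]
    rw [Submodule.smul_le]
    rintro s hs _ ⟨u, hu, rfl⟩
    rw [← SA_eq, show i = j.1 - p by omega] at hs
    obtain ⟨w, hw, e⟩ := h2 j (by omega) s hs u hu
    exact ⟨w, hw, by rw [inc'_apply, inc'_apply, e, map_smul]⟩
  have h4 := hq0 _ (𝔞.map_inc'_le p (U ⟨p, hJ⟩)) fun i hi => by
    have h5 := hle (i + 3) ⟨i + 3 + p, h3 _ (by omega) (by omega)⟩ rfl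
    have h6 := h1 ⟨i + 3 + p, h3 _ (by omega) (by omega)⟩
    rw [← finrank_map_inc', Nat.cast_add] at h6
    rw [← h6]
    exact Nat.cast_le.2 (Submodule.finrank_mono h5)
  obtain ⟨h5, h6, h7⟩ := H2 p (by omega) _ (𝔞.map_inc'_le p (U ⟨p, hJ⟩))
    (by rw [finrank_map_inc', h1 ⟨p, hJ⟩])
    ((eventually_ge_atTop 3).mono fun j hj => by
      obtain ⟨i, rfl⟩ : ∃ i : ℕ, j = (i + 3 : ℕ) := ⟨(j - 3).toNat, by omega⟩
      exact h4 i)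
  refine ⟨𝔞.ofc _, ofc_le (genS_le (𝔞.map_inc'_le p (U ⟨p, hJ⟩))), by rw [ofc, cL_comapX, h6],
    fun j => ?_⟩
  obtain ⟨i, hi⟩ : ∃ i : ℕ, j.1 = i + p := ⟨j.1 - p, by have := h0 j.1 j.2; omega⟩
  have h8 : Gm (genS Sg.V.X ((U ⟨p, hJ⟩).map (𝔞.inc' p)) p).toLat j.1 = (U j).map (𝔞.inc' j.1) := by
    refine Submodule.eq_of_le_of_finrank_eq ?_ (Nat.cast_injective (R := ℤ) ?_)
    · have h9 := h7 i
      rw [← Nat.cast_add, ← hi] at h9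
      exact h9.le.trans (hle i j hi)
    · rw [h5.finrank_eq (by omega), h6, finrank_map_inc', h1]
  rw [pc_ofc, h8, Submodule.comap_map_eq_of_injective (𝔞.inc'_inj _)]

end Amb

lemma HP_nonneg {r : ℕ} (hr : 0 < r) (d : ℕ) (c : ℤ) :
    ∃ m₀ : ℕ, ∀ m : ℕ, m₀ ≤ m → 0 ≤ HP Sg r d c m := by
  set a : ℤ := 2 * r * (Sg.V.chi Sg.V.h - Sg.V.chi 0) - 2 * d with ha
  set b : ℤ := 2 * r * Sg.V.chi 0 - 2 * c with hb
  refine ⟨a.natAbs + b.natAbs + 2, fun m hm => ?_⟩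
  have h1 := Ch.chi_nsmul Sg.V Sg.V.h m
  have h2 : 1 ≤ (r : ℤ) * Ch.ip Sg.V Sg.V.h Sg.V.h :=
    mul_pos (Nat.cast_pos.2 hr) (Ch.dg_h_pos Sg.V)
  have h3 : 2 * HP Sg r d c m =
      (r * Ch.ip Sg.V Sg.V.h Sg.V.h) * (m * (m - 1)) + a * m + b := by
    rw [HP, natCast_zsmul, ha, hb]
    linear_combination r * h1
  have h4 : (0 : ℤ) ≤ m * (m - 1) := mul_nonneg (by omega) (by omega)
  have h5 : (0 : ℤ) ≤ m * (m - 2 + a) := mul_nonneg (by omega) (by omega)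
  have h6 : (0 : ℤ) ≤ m + b := by omega
  nlinarith

theorem Amb.exists_par (𝔞 : Amb Sg) (hr : 0 < Fintype.card 𝔞.ι) (d : ℕ) (c : ℤ) : ∃ m₀ : ℕ,
    (∀ K : XL Sg 𝔞.M, LeL K 𝔞.O → cL K.toLat = HP Sg (Fintype.card 𝔞.ι) d c → RegL K.toLat m₀) ∧
    ∀ p ≥ m₀, ∀ b ≠ 0, ∃ P : Par 𝔞, P.p = p ∧ P.d = d ∧ P.c = c ∧ P.b = b := by
  obtain ⟨m0, h2, H⟩ := 𝔞.exists_m0 d c
  obtain ⟨m1, h1⟩ := HP_nonneg (Sg := Sg) hr d c
  refine ⟨max m0 m1, (H _ (le_max_left _ _)).1, fun p hp b hb => ?_⟩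
  obtain ⟨hreg, q0, hq⟩ := H p ((le_max_left _ _).trans hp)
  refine ⟨⟨p, max q0 (5 + p), d, c, b, hb, h2.trans ((le_max_left _ _).trans hp), le_max_right _ _,
    hreg, fun U hU hs => ?_⟩, rfl, rfl, rfl, rfl⟩
  obtain ⟨K, k1, k2, k3⟩ := hq _ (Finset.mem_insert_self _ _) (fun j hj => JJ.le ⟨j, hj⟩)
    (fun j h3 h4 => Finset.mem_insert_of_mem (Finset.mem_Icc.2 ⟨h3, h4.trans (le_max_left _ _)⟩))
    U (fun j => by
      rw [hU j, Int.toNat_of_nonneg (h1 _ (((le_max_right _ _).trans hp).trans (JJ.le j)))])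
    fun j hj s hs' u hu => ⟨_, hs (JJ.bot _ _) j ⟨s, (Arw_of_lt hj).ge hs'⟩ u hu, 𝔞.inc_act _ _⟩
  exact ⟨K, k1, k2, funext k3⟩


end Crest.Agent.N265.M
end
end

-- ▼ part N265/Q/Split
section

/-! # Row 265, task Q-CRIT b: split lattices -/

set_option autoImplicit false
set_option linter.dupNamespace false
noncomputable section
open MvPolynomial Module TensorProduct

namespace Crest.Agent.N265.M
open Crest.Agent.R274
open Defs_781 Lat_781 SnapA_99 SnapB_99 SnapE_99 Gen7_750 Xs1_781 SkDefs_474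
open Alg GV Br N Fib _root_.Crest.Agent.N265.Pow
variable {Sg : Surf} {p : ℕ} {k : ℤ} {β β' : Sg.V.G} {n n' : ℕ}

section split
variable {L : XL Sg (Fin 2 → Sg.F)} {J₁ J₂ : XL Sg Sg.F}
lemma mem_Gm_smd {i : Fin 2} {e : ℤ} {f : Sg.F} :
    f ∈ Gm (smd L i).toLat e ↔ (Pi.single i f : Fin 2 → Sg.F) ∈ Gm L.toLat e :=
  mem_Gm_comap (hg := Pi.single_injective (M := fun _ : Fin 2 => Sg.F) i)
lemma mem_smd {i : Fin 2} {I : Finset (Fin 3)} {f : Sg.F} :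
    f ∈ (smd L i).M I ↔ (Pi.single i f : Fin 2 → Sg.F) ∈ L.M I := Iff.rfl
lemma mem_pair {I : Finset (Fin 3)} {v : Fin 2 → Sg.F} :
    v ∈ (piX ![J₁, J₂]).M I ↔ v 0 ∈ J₁.M I ∧ v 1 ∈ J₂.M I := mem_piFam.trans Fin.forall_fin_two
lemma single_add_single {M : Type} [AddCommGroup M] (v : Fin 2 → M) :
    (Pi.single 0 (v 0) + Pi.single 1 (v 1) : Fin 2 → M) = v :=
  funext (Fin.forall_fin_two.2 ⟨by simp, by simp⟩)
lemma smd_congr {L' : XL Sg (Fin 2 → Sg.F)} (h : EqL L L') (i : Fin 2) :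
    EqL (smd L i) (smd L' i) := fun I hI => Submodule.ext fun _ =>
  mem_smd.trans ((SetLike.ext_iff.1 (h I hI) _).trans mem_smd.symm)
lemma smd_pair (J₁ J₂ : XL Sg Sg.F) :
    EqL (smd (piX ![J₁, J₂]) 0) J₁ ∧ EqL (smd (piX ![J₁, J₂]) 1) J₂ :=
  ⟨fun _ _ => Submodule.ext fun _ => mem_smd.trans (mem_pair.trans (and_iff_left (zero_mem _))),
    fun _ _ => Submodule.ext fun _ => mem_smd.trans (mem_pair.trans (and_iff_right (zero_mem _)))⟩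
lemma pair_congr {I₁ I₂ : XL Sg Sg.F} (h₁ : EqL I₁ J₁) (h₂ : EqL I₂ J₂) :
    EqL (piX ![I₁, I₂]) (piX ![J₁, J₂]) := fun I hI => Submodule.ext fun _ =>
  mem_pair.trans ((and_congr (SetLike.ext_iff.1 (h₁ I hI) _) (SetLike.ext_iff.1 (h₂ I hI) _)).trans
    mem_pair.symm)
lemma smd_le (h : LeL L (r2 Sg).O) (i : Fin 2) : LeL (smd L i) (OX Sg.V.X) :=
  fun I hI f hf => by
    have h1 := mem_OP.1 ((r2_O I hI).le (h I hI (mem_smd.1 hf))) i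
    rwa [Pi.single_eq_same] at h1
lemma pair_le : LeL (piX ![J₁, J₂]) (r2 Sg).O ↔ LeL J₁ (OX Sg.V.X) ∧ LeL J₂ (OX Sg.V.X) :=
  ⟨fun h => ⟨(smd_pair J₁ J₂).1.symm.le.trans (smd_le h 0),
    (smd_pair J₁ J₂).2.symm.le.trans (smd_le h 1)⟩, fun h I hI _ hv => (r2_O I hI).ge
      (mem_piFam.2 (Fin.forall_fin_two.2 ⟨h.1 I hI (mem_pair.1 hv).1, h.2 I hI (mem_pair.1 hv).2⟩))⟩
lemma cL_pair (J₁ J₂ : XL Sg Sg.F) (e : ℤ) :
    cL (piX ![J₁, J₂]).toLat e = cL J₁.toLat e + cL J₂.toLat e :=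
  (cL_pi (fun a => (![J₁, J₂] a).toLat) e).trans (Fin.sum_univ_two _)
lemma hL_pair (J₁ J₂ : XL Sg Sg.F) (e : ℤ) (l : ℕ) :
    hL (piX ![J₁, J₂]).toLat e l = hL J₁.toLat e l + hL J₂.toLat e l :=
  (hL_pi (fun a => (![J₁, J₂] a).toLat) e l).trans (Fin.sum_univ_two _)
/-- `hL_pi` -/
lemma regL_pair {m : ℤ} : RegL (piX ![J₁, J₂]).toLat m ↔ RegL J₁.toLat m ∧ RegL J₂.toLat m := by
  refine ⟨fun h => ?_, fun h => RegL.pi (Fin.forall_fin_two.2 h)⟩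
  have H := fun l => Nat.add_eq_zero_iff.1 ((hL_pair J₁ J₂ _ _).symm.trans (hL_eq_zero_iff.2 (h l)))
  exact ⟨fun l => hL_eq_zero_iff.1 (H l).1, fun l => hL_eq_zero_iff.1 (H l).2⟩
lemma chi_eT_ne : chi eT ≠ chi 0 := fun h => by
  simpa [eT] using DFunLike.congr_fun (chi_inj h) none
lemma smul_sub_cancel_aux {M : Type} [AddCommGroup M] [Module ℂ M] {a b : ℂ} (h : a ≠ b) (v : M) :
    (a - b)⁻¹ • (a • v - b • v) = v := by
  rw [← sub_smul, smul_smul, inv_mul_cancel₀ (sub_ne_zero.2 h), one_smul]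
lemma eq_zero_of_smul_aux {M : Type} [AddCommGroup M] [Module ℂ M] {a b : ℂ} (h : a ≠ b) {v : M}
    (e : a • v = b • v) : v = 0 := by
  rw [← smul_sub_cancel_aux h v, e, sub_self, smul_zero]
lemma r2_g_zero {j : ℕ} (w : ((r2 Sg).G j).V) : ((r2 Sg).G j).g w 0 = chi 0 • w 0 := by
  rw [Amb.g_apply]; simp
lemma r2_g_one {j : ℕ} (w : ((r2 Sg).G j).V) : ((r2 Sg).G j).g w 1 = chi eT • w 1 := by
  rw [Amb.g_apply]; simp
lemma r2_inc_single {j : ℕ} (i : Fin 2) (a : SA Sg j) :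
    (r2 Sg).inc j (Pi.single i a) = Pi.single i a.1 := funext fun l => by
  rw [r2_inc]
  exact Pi.apply_single (fun _ (b : SA Sg j) => b.1) (fun _ => rfl) i a l
/-- a lattice with a stable generating piece splits (`Stab.eq_part_sup`, `le_of_pc`) -/
theorem split_of_stab (le : LeL L (r2 Sg).O) (hr : RegL L.toLat p)
    (h : ((r2 Sg).G p).Stab ((r2 Sg).pc L p)) : EqL L (piX ![smd L 0, smd L 1]) := by
  refine eqv_of_le (Amb.le_of_pc (𝔞 := r2 Sg) le hr le_rfl fun w hw => ?_) fun I _ v hv => ?_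
  · have h1 : (Pi.single 1 (w 1) : ((r2 Sg).G p).V) ∈ (r2 Sg).pc L p := by
      have h2 := Submodule.smul_mem _ (chi eT - chi 0)⁻¹
        (sub_mem (h.mem_iff.2 hw) (Submodule.smul_mem _ (chi 0) hw))
      convert h2 using 1
      refine funext (Fin.forall_fin_two.2 ⟨?_, ?_⟩)
      · rw [Pi.smul_apply, Pi.sub_apply, r2_g_zero, Pi.smul_apply, sub_self, smul_zero]
        rfl
      · rw [Pi.smul_apply, Pi.sub_apply, r2_g_one, Pi.smul_apply]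
        exact (smul_sub_cancel_aux chi_eT_ne (w 1 : SA Sg p)).symm
    have h0 : (Pi.single 0 (w 0) : ((r2 Sg).G p).V) ∈ (r2 Sg).pc L p := by
      convert sub_mem hw h1 using 1
      exact eq_sub_of_add_eq (single_add_single w)
    rw [Amb.mem_pc, r2_inc_single] at h0 h1
    exact mem_pc_pair.2 ⟨mem_Gm_smd.2 h0, mem_Gm_smd.2 h1⟩
  · rw [← single_add_single v]
    exact add_mem (mem_smd.1 (mem_pair.1 hv).1) (mem_smd.1 (mem_pair.1 hv).2)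
lemma stab_pair (J₁ J₂ : XL Sg Sg.F) (j : ℕ) :
    ((r2 Sg).G j).Stab ((r2 Sg).pc (piX ![J₁, J₂]) j) := stab_of_le fun w hw => by
  rw [mem_pc_pair, r2_g_zero, r2_g_one]
  exact ⟨Submodule.smul_mem _ _ (mem_pc_pair.1 hw).1, Submodule.smul_mem _ _ (mem_pc_pair.1 hw).2⟩
lemma mem_part_zero {j : ℕ} {w : ((r2 Sg).G j).V} :
    w ∈ ((r2 Sg).G j).part (· = 0) ↔ w 1 = 0 := by
  refine ⟨fun h => ?_, fun h => mem_part (P := (· = 0)) (d := 0) rfl ?_⟩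
  · have key : ((r2 Sg).G j).part (· = 0) ≤
        LinearMap.ker (LinearMap.proj (R := ℂ) (φ := fun _ : Fin 2 => SA Sg j) 1) := by
      refine part_le ?_
      rintro _ rfl v hv
      exact eq_zero_of_smul_aux (M := SA Sg j) chi_eT_ne ((r2_g_one v).symm.trans (congrFun hv 1))
    exact key h
  · refine funext (Fin.forall_fin_two.2 ⟨r2_g_zero w, ?_⟩)
    rw [r2_g_one, Pi.smul_apply, h, smul_zero, smul_zero]
lemma mem_part_eT {j : ℕ} {w : ((r2 Sg).G j).V} :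
    w ∈ ((r2 Sg).G j).part (· = eT) ↔ w 0 = 0 := by
  refine ⟨fun h => ?_, fun h => mem_part (P := (· = eT)) (d := eT) rfl ?_⟩
  · have key : ((r2 Sg).G j).part (· = eT) ≤
        LinearMap.ker (LinearMap.proj (R := ℂ) (φ := fun _ : Fin 2 => SA Sg j) 0) := by
      refine part_le ?_
      rintro _ rfl v hv
      exact eq_zero_of_smul_aux (M := SA Sg j) chi_eT_ne.symm
        ((r2_g_zero v).symm.trans (congrFun hv 0))
    exact key h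
  · refine funext (Fin.forall_fin_two.2 ⟨?_, r2_g_one w⟩)
    rw [r2_g_zero, Pi.smul_apply, h, smul_zero, smul_zero]
lemma part_sup (j : ℕ) : ((r2 Sg).G j).part (· = 0) ⊔ ((r2 Sg).G j).part (· = eT) = ⊤ :=
  eq_top_iff.2 fun w _ => by
    rw [← single_add_single w]
    exact Submodule.add_mem_sup (mem_part_zero.2 rfl) (mem_part_eT.2 rfl)
lemma isCompl_part (j : ℕ) :
    IsCompl (((r2 Sg).G j).part (· = 0)) (((r2 Sg).G j).part (· = eT)) :=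
  ⟨Submodule.disjoint_def.2 fun _ h0 h1 =>
    funext (Fin.forall_fin_two.2 ⟨mem_part_eT.1 h1, mem_part_zero.1 h0⟩),
    codisjoint_iff.2 (part_sup j)⟩
/-- second summand -/
def in2 (Sg : Surf) (j : ℕ) : ((r1 Sg 1).G j).V →ₗ[ℂ] ((r2 Sg).G j).V :=
  LinearMap.single ℂ (fun _ : Fin 2 => SA Sg j) 1 ∘ₗ
    LinearMap.proj (R := ℂ) (φ := fun _ : Unit => SA Sg j) ()
lemma in2_zero (j : ℕ) (w : ((r1 Sg 1).G j).V) : in2 Sg j w 0 = 0 := rfl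
lemma deg0_in2 (j : ℕ) : Deg0 ((r1 Sg 1).G j) ((r2 Sg).G j) (in2 Sg j) := fun w => by
  refine funext (Fin.forall_fin_two.2 ⟨?_, rfl⟩)
  rw [r2_g_zero, in2_zero, in2_zero, smul_zero]
lemma in1_inj (j : ℕ) : Function.Injective (in1 Sg j) := fun _ _ h => funext fun _ => congrFun h 0
lemma in2_inj (j : ℕ) : Function.Injective (in2 Sg j) := fun _ _ h => funext fun _ => congrFun h 1
lemma pair_part_sup (J₁ J₂ : XL Sg Sg.F) (j : ℕ) :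
    (r2 Sg).pc (piX ![J₁, J₂]) j ⊓ ((r2 Sg).G j).part (· = 0) ⊔
      (r2 Sg).pc (piX ![J₁, J₂]) j ⊓ ((r2 Sg).G j).part (· = eT) = (r2 Sg).pc (piX ![J₁, J₂]) j :=
  le_antisymm (sup_le inf_le_left inf_le_left) fun w hw => by
    rw [← single_add_single w]
    exact Submodule.add_mem_sup
      ⟨mem_pc_pair.2 ⟨(mem_pc_pair.1 hw).1, zero_mem _⟩, mem_part_zero.2 rfl⟩
      ⟨mem_pc_pair.2 ⟨zero_mem _, (mem_pc_pair.1 hw).2⟩, mem_part_eT.2 rfl⟩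
lemma map_in2 (J₁ J₂ : XL Sg Sg.F) (j : ℕ) : ((r1 Sg 1).pc J₂ j).map (in2 Sg j) =
    (r2 Sg).pc (piX ![J₁, J₂]) j ⊓ ((r2 Sg).G j).part (· = eT) := by
  refine le_antisymm ?_ fun w hw => ⟨fun _ => w 1, (mem_pc_pair.1 hw.1).2, ?_⟩
  · rintro _ ⟨w, hw, rfl⟩
    exact ⟨mem_pc_pair.2 ⟨zero_mem _, hw⟩, mem_part_eT.2 rfl⟩
  · exact funext (Fin.forall_fin_two.2 ⟨(mem_part_eT.1 hw.2).symm, rfl⟩)
lemma finrank_part (J₁ J₂ : XL Sg Sg.F) (j : ℕ) :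
    finrank ℂ ((r2 Sg).pc (piX ![J₁, J₂]) j ⊓ ((r2 Sg).G j).part (· = eT) : Submodule ℂ _) =
      finrank ℂ ((r1 Sg 1).pc J₂ j) := by
  rw [← map_in2]
  exact (LinearEquiv.finrank_eq (Submodule.equivMapOfInjective _ (in2_inj j) _)).symm
lemma ne_bot_aux (le : LeL J₂ (OX Sg.V.X)) {d : ℕ} {c : ℤ}
    (h : ∀ e, cL J₁.toLat e + cL J₂.toLat e = HP Sg 2 d c e) : ∃ e, Gm J₁.toLat e ≠ ⊥ := by
  by_contra! h0
  obtain ⟨m₀, hm⟩ := HP_nonneg (Sg := Sg) one_pos d (c + 1)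
  obtain ⟨e, ⟨h1, h2⟩, h3⟩ := (((ev_cL J₁.toLat).and (ev_cL J₂.toLat)).and
    (Filter.eventually_ge_atTop (m₀ : ℤ))).exists
  obtain ⟨m, rfl⟩ := Int.eq_ofNat_of_zero_le ((Int.natCast_nonneg _).trans h3)
  have h4 := hm m (by exact_mod_cast h3)
  have h5 := h m
  have h6 : finrank ℂ (Gm J₂.toLat m) ≤ finrank ℂ (AA Sg.V.X m) :=
    Submodule.finrank_mono (Gm_mono le _)
  have h7 := finrank_AA Sg (Int.natCast_nonneg m)
  rw [h0, finrank_bot] at h1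
  simp only [HP] at h4 h5
  push_cast at h1 h4 h5
  omega
/-- both summands are non-zero (`χ(e h)` grows quadratically) -/
theorem ne_bot_of_pair (le : LeL (piX ![J₁, J₂]) (r2 Sg).O) {d : ℕ} {c : ℤ}
    (h : cL (piX ![J₁, J₂]).toLat = HP Sg 2 d c) :
    (∃ e, Gm J₁.toLat e ≠ ⊥) ∧ ∃ e, Gm J₂.toLat e ≠ ⊥ :=
  ⟨ne_bot_aux (pair_le.1 le).2 fun e => (cL_pair J₁ J₂ e).symm.trans (congrFun h e),
    ne_bot_aux (pair_le.1 le).1 fun e =>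
      (add_comm _ _).trans ((cL_pair J₁ J₂ e).symm.trans (congrFun h e))⟩
/-- the summands of a split family are families (`IsAB.inf_const`, `IsAB.comap_of_inj`) -/
theorem isAB_smd {X : Spc} {L : Pt → XL Sg (Fin 2 → Sg.F)} {j : ℕ}
    (h : IsAB X ((r2 Sg).G j) fun x => (r2 Sg).pc (L x) j)
    (e : ∀ x ∈ X.pts, EqL (L x) (piX ![smd (L x) 0, smd (L x) 1])) :
    (IsAB X ((r1 Sg 0).G j) fun x => (r1 Sg 0).pc (smd (L x) 0) j) ∧
      IsAB X ((r1 Sg 1).G j) fun x => (r1 Sg 1).pc (smd (L x) 1) j := by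
  have hs : ∀ x ∈ X.pts, (r2 Sg).pc (L x) j ⊓ ((r2 Sg).G j).part (· = 0) ⊔
      (r2 Sg).pc (L x) j ⊓ ((r2 Sg).G j).part (· = eT) = (r2 Sg).pc (L x) j := fun x hx => by
    rw [Amb.pc_congr (𝔞 := r2 Sg) (e x hx)]
    exact pair_part_sup _ _ j
  constructor
  · refine ((h.inf_const (stab_part _) (isCompl_part j) hs).comap_of_inj ((r1 Sg 0).in_G j _)
      (deg0_in1 j) (in1_inj j) fun x _ w hw => ⟨fun _ => w 0, ?_⟩).congr fun x _ => ?_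
    · exact funext (Fin.forall_fin_two.2 ⟨rfl, (mem_part_zero.1 hw.2).symm⟩)
    · ext w
      refine ((and_iff_left (mem_part_zero.2 rfl)).trans ?_).trans mem_Gm_smd.symm
      rw [r1_inc, ← r2_inc_single]
      rfl
  · refine ((h.inf_const (stab_part _) (isCompl_part j).symm fun x hx =>
      (sup_comm _ _).trans (hs x hx)).comap_of_inj ((r1 Sg 1).in_G j _)
      (deg0_in2 j) (in2_inj j) fun x _ w hw => ⟨fun _ => w 1, ?_⟩).congr fun x _ => ?_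
    · exact funext (Fin.forall_fin_two.2 ⟨(mem_part_eT.1 hw.2).symm, rfl⟩)
    · ext w
      refine ((and_iff_left (mem_part_eT.2 rfl)).trans ?_).trans mem_Gm_smd.symm
      rw [r1_inc, ← r2_inc_single]
      rfl
end split

end Crest.Agent.N265.M
end
end

-- ▼ part N265/M/Mul
section

/-!
# Row 265: multiplications `g I ≤ O(E)`; effective divisors of degree zero
-/

set_option autoImplicit false
set_option linter.dupNamespace false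
noncomputable section
open MvPolynomial Module TensorProduct Filter

namespace Crest.Agent.N265.M
open Crest.Agent.R274
open Defs_781 Lat_781 SnapA_99 SnapB_99 SnapE_99 Gen7_750 Xs1_781 SkDefs_474
open Alg GV Br N Fib _root_.Crest.Agent.N265.Pow

section surf
variable {F : Type} [Field F] [Algebra ℂ F] {S : SmV ℂ F 2}
lemma mem_Sec_div {D : S.G} {g : F} (hg : g ≠ 0) {x : F} :
    x ∈ Sec S.T (D + S.div g hg) ↔ g * x ∈ Sec S.T D := by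
  rw [mem_Sec, mem_Sec]
  exact forall₂_congr fun I hI => Ch.mem_O_div D hg hI x
lemma mem_Gm_OL_div {D : S.G} {g : F} (hg : g ≠ 0) {e : ℤ} {x : F} :
    x ∈ Gm (OL S.T (D + S.div g hg)).toLat e ↔ g * x ∈ Gm (OL S.T D).toLat e := by
  rw [Gm_OL, Gm_OL, add_right_comm, mem_Sec_div]
/-- a function that maps the generating piece of `I` into `O(E)` maps the hull of `I` into `O(E)` -/
lemma le_of_mul {I : XLat S.X F} {D E : S.G} (h : FC I (OL S.T D)) {p : ℤ} (hr : RegL I.toLat p)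
    {g : F} (hg : g ≠ 0) (hm : ∀ u ∈ Gm I.toLat p, g * u ∈ Gm (OL S.T E).toLat p) (v : S.P) :
    D v ≤ (E + S.div g hg) v :=
  le_of_FC h (eqv_of_Gm hr le_rfl fun u hu => (mem_Gm_OL_div hg).2 (hm u hu)) v
lemma reg2_OX : Gen10_750.Reg2 (OX S.X).toLat := by
  have h1 : FC (OX S.X) (Hul2_750.hXLat (OX S.X)) :=
    ⟨Hul2_750.le_hXLat _, Hul2_750.suppLT_hull _⟩
  have h2 := (h1.le_OL (D := 0) (OL_zero S.T).symm.le).trans (OL_zero S.T).le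
  intro I i hi y h3 h4
  exact h2 I ⟨i, hi⟩ (Hul1_750.reg2_hLat (OX S.X).toLat I i hi y (h1.le I ⟨i, hi⟩ h3)
    (h1.le I ⟨i, hi⟩ h4))
/-- `χ` is bounded on the multiples of a class of degree zero -/
lemma chi_bdd {x : S.G} (hx : Ch.dg S x = 0) : ∃ B : ℤ, ∀ m : ℕ, S.chi (m • x) ≤ B := by
  refine Hod2_750.chi_bdd (Hod1_750.gT_eq S.X) S.hyp reg2_OX ?_
  rw [Gen10_750.inter_gen2 (Hod1_750.gT_eq S.X) S.hyp reg2_OX [x] rfl,
    Snap_413.inter_perm _ (List.Perm.swap x S.h [])]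
  exact hx
lemma chi_le_add {Δ : S.G} (h : S.Eff Δ) (h0 : Ch.dg S Δ = 0) (D : S.G) :
    S.chi D ≤ S.chi (D + Δ) := by
  obtain ⟨e0, he0⟩ := Ch.chi_eq_h0 S D
  obtain ⟨e1, he1⟩ := Ch.chi_eq_h0 S (D + Δ)
  have h1 := he0 (max e0 e1) (le_max_left _ _)
  have h2 := he1 (max e0 e1) (le_max_right _ _)
  have h3 := Ch.h0_le (D + max e0 e1 • S.h) (Ch.hasSec_of_eff h)
  rw [add_right_comm] at h3
  rw [Ch.chi_twn] at h1 h2
  rw [Ch.dg_add, h0, add_zero] at h2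
  omega
/-- **an effective divisor of degree zero is zero** -/
theorem eq_zero_of_dg {Δ : S.G} (h : S.Eff Δ) (h0 : Ch.dg S Δ = 0) : Δ = 0 := by
  obtain ⟨B, hB⟩ := chi_bdd h0
  have h1 : ∀ m : ℕ, 0 ≤ S.chi Δ - S.chi 0 + m * Ch.ip S Δ Δ := fun m => by
    have := chi_le_add h h0 (m • Δ)
    rw [Ch.chi_add, Ch.ip_nsmul_left] at this
    omega
  have h2 : 0 ≤ Ch.ip S Δ Δ := by
    by_contra! hc
    have := h1 ((S.chi Δ - S.chi 0).natAbs + 1)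
    have h3 : ((S.chi Δ - S.chi 0).natAbs + 1 : ℕ) * Ch.ip S Δ Δ ≤
        ((S.chi Δ - S.chi 0).natAbs + 1 : ℕ) * (-1 : ℤ) :=
      mul_le_mul_of_nonneg_left (by omega) (Int.natCast_nonneg _)
    omega
  have h3 : S.chi Δ ≤ S.chi 0 := by
    by_contra! hc
    have h4 := hB ((B - S.chi 0).natAbs + 1)
    have h5 := Ch.chi_nsmul S Δ ((B - S.chi 0).natAbs + 1)
    generalize hm : (((B - S.chi 0).natAbs + 1 : ℕ) : ℤ) = m at h5
    have h6 : 0 ≤ m * (m - 1) * Ch.ip S Δ Δ := mul_nonneg (mul_nonneg (by omega) (by omega)) h2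
    have h7 : m * 1 ≤ m * (S.chi Δ - S.chi 0) := mul_le_mul_of_nonneg_left (by omega) (by omega)
    have h8 : B - S.chi 0 < m := by omega
    linarith
  refine (eq_of_OL_eqv (eqv_of_cL (N := OL S.T 0) (M := OL S.T Δ) (OL_le_iff.2 h)
    (Eventually.of_forall fun e => ?_))).symm
  rw [cL_OL, cL_OL, Ch.chi_tw, h0, zero_add]
  omega
end surf

variable {Sg : Surf} {I : XL Sg Sg.F} {β : Sg.V.G} {p n : ℕ} {k : ℤ}
lemma exists_pc1 (le : LeL I (OX Sg.V.X)) {f : Sg.F} (hf : f ∈ Gm I.toLat p) :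
    ∃ u ∈ (r1 Sg k).pc I p, (u ()).1 = f :=
  ⟨fun _ => ⟨f, (SA_eq p).ge (Gm_mono le p hf)⟩, hf, rfl⟩
lemma Ty.exists_ne (h : Ty I β n) (le : LeL I (OX Sg.V.X)) (hr : RegL I.toLat p) :
    ∃ u ∈ (r1 Sg k).pc I p, (u ()).1 ≠ 0 := by
  by_contra! hc
  have h1 := h.rkU_pos le hr
  have h2 : (r1 Sg k).pc I p = ⊥ := eq_bot_iff.2 fun u hu => by
    rw [Submodule.mem_bot]
    funext i
    exact Subtype.ext (hc u hu)
  rw [← h.finrank_pc (k := k) le hr, h2, finrank_bot] at h1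
  omega
/-- `s⁻¹ Γ(I(p)) ≤ Γ(O(-β)(p))` -/
lemma inv_mul_mem {s : Sg.F} {hs : s ≠ 0} (h : LeL I (OL Sg.V.T (-(β + Sg.V.div s hs)))) {e : ℤ}
    {f : Sg.F} (hf : f ∈ Gm I.toLat e) : s⁻¹ * f ∈ Gm (OL Sg.V.T (-β)).toLat e := by
  rw [← mem_Gm_OL_div (inv_ne_zero hs), div_inv' hs, ← neg_add]
  exact Gm_mono h e hf
/-- a map `θ : U → F` with `θ(u) u' = θ(u') u` is a multiplication -/
lemma exists_mul_of_comm {U : Submodule ℂ ((r1 Sg k).G p).V} {θ : ((r1 Sg k).G p).V → Sg.F}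
    (h : ∀ u ∈ U, ∀ u' ∈ U, θ u * (u' ()).1 = θ u' * (u ()).1) {u₀ : ((r1 Sg k).G p).V}
    (h0 : u₀ ∈ U) (hne : (u₀ ()).1 ≠ 0) : ∃ g : Sg.F, ∀ u ∈ U, θ u = g * (u ()).1 :=
  ⟨θ u₀ / (u₀ ()).1, fun u hu => by rw [div_mul_eq_mul_div, ← h u hu u₀ h0, mul_div_cancel_right₀ _ hne]⟩

end Crest.Agent.N265.M
end
end

-- ▼ part N265/Q/Crit0
section

/-! # Row 265, task Q-CRIT a: having a given type is a closed condition -/

set_option autoImplicit false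
set_option linter.dupNamespace false
noncomputable section
open MvPolynomial Module TensorProduct

namespace Crest.Agent.N265.M
open Crest.Agent.R274
open Defs_781 Lat_781 SnapA_99 SnapB_99 SnapE_99 Gen7_750 Xs1_781 SkDefs_474
open Alg GV Br N Fib _root_.Crest.Agent.N265.Pow
variable {Sg : Surf} {p : ℕ} {k : ℤ} {β β' : Sg.V.G} {n n' : ℕ}

/-- maps `θ : U → H⁰(p h - β)` with `θ(u) u' = θ(u') u`, i.e. `Hom(I, O(-β))` -/
def comm (Sg : Surf) (k : ℤ) (p : ℕ) (β : Sg.V.G) (U : Submodule ℂ ((r1 Sg k).G p).V) :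
    Submodule ℂ (((r1 Sg k).G p).V →ₗ[ℂ] SB Sg (-β + p • Sg.V.h)) where
  carrier := {θ | ∀ u ∈ U, ∀ u' ∈ U, (θ u).1 * (u' ()).1 = (θ u').1 * (u ()).1}
  add_mem' := fun h h' u hu u' hu' => by
    simp only [LinearMap.add_apply, Submodule.coe_add, add_mul, h u hu u' hu', h' u hu u' hu']
  zero_mem' := fun _ _ _ _ => by simp
  smul_mem' := fun c _ h u hu u' hu' => by
    simp only [LinearMap.smul_apply, Submodule.coe_smul, smul_mul_assoc, h u hu u' hu']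
lemma kill_le_comm (U : Submodule ℂ ((r1 Sg k).G p).V) : homKill U _ ≤ comm Sg k p β U :=
  fun θ h u hu u' hu' => by rw [h u hu, h u' hu', ZeroMemClass.coe_zero, zero_mul, zero_mul]
lemma SB_eq (β : Sg.V.G) (p : ℕ) : SB Sg (-β + p • Sg.V.h) = Gm (OL Sg.V.T (-β)).toLat p := by
  rw [Gm_OL, natCast_zsmul]

/-- If `θ u₀ ≠ 0` then `θ u = g u` on `U`, so `g I ≤ O(-β)` (`le_of_pc`), `I ≤ O(-(β + div g⁻¹))`,
the hull of `I` is contained in it (`FC.le_OL`) and has the same degree, hence is equal. -/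
theorem lin_iff_comm {I : XL Sg Sg.F} (h : Ty I β' n') (le : LeL I (OX Sg.V.X))
    (hr : RegL I.toLat p) (hd : Ch.dg Sg.V β' = Ch.dg Sg.V β) :
    Lin Sg β' β ↔ ¬ comm Sg k p β ((r1 Sg k).pc I p) ≤ homKill ((r1 Sg k).pc I p) _ := by
  constructor
  · intro hl hc
    obtain ⟨s, hs, fc, -⟩ := h.lin hl
    obtain ⟨u₀, h0, hne⟩ := h.exists_ne (k := k) le hr
    obtain ⟨θ, hθ⟩ := LinearMap.exists_extend (p := (r1 Sg k).pc I p)
      (((LinearMap.mulLeft ℂ s⁻¹ ∘ₗ (r1 Sg k).inc p) ∘ₗ ((r1 Sg k).pc I p).subtype).codRestrict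
        (SB Sg (-β + p • Sg.V.h)) fun u => (SB_eq β p).ge (inv_mul_mem fc.le u.2))
    have h1 : ∀ u ∈ (r1 Sg k).pc I p, (θ u).1 = s⁻¹ * (u ()).1 := fun u hu =>
      congrArg Subtype.val (LinearMap.congr_fun hθ ⟨u, hu⟩)
    have h2 := hc (fun u hu u' hu' => by rw [h1 u hu, h1 u' hu']; ring) u₀ h0
    have h3 := h1 u₀ h0
    rw [h2] at h3
    exact mul_ne_zero (inv_ne_zero hs) hne h3.symm
  · intro hc
    obtain ⟨θ, hθ, h1⟩ := SetLike.not_le_iff_exists.1 hc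
    obtain ⟨u₀, h0, hne⟩ := h.exists_ne (k := k) le hr
    obtain ⟨g, hg⟩ := exists_mul_of_comm (θ := fun u => (θ u).1) hθ h0 hne
    have hg0 : g ≠ 0 := by
      rintro rfl
      exact h1 fun u hu => Subtype.ext (by rw [hg u hu, zero_mul]; rfl)
    obtain ⟨f, hf, fc, -⟩ := h
    have h2 := le_of_mul fc hr (E := -β) hg0 fun v hv => by
      obtain ⟨u, hu, rfl⟩ := exists_pc1 (k := k) le hv
      rw [← hg u hu, ← SB_eq]
      exact (θ u).2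
    have h3 := eq_zero_of_dg (Δ := -β + Sg.V.div g hg0 + (β' + Sg.V.div f hf))
      (fun v => by
        have := h2 v
        rw [Finsupp.neg_apply] at this
        rw [Finsupp.add_apply]
        omega)
      (by rw [Ch.dg_add, Ch.dg_add, Ch.dg_add, Ch.dg_div, Ch.dg_div, Ch.dg_neg, hd]; ring)
    refine ⟨f * g, mul_ne_zero hf hg0, ?_⟩
    rw [div_mul' hf hg0, ← sub_eq_zero, ← neg_eq_zero, ← h3]
    abel
/-- the type is determined by the class and two values of the Hilbert polynomial -/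
theorem Ty.num {I : XL Sg Sg.F} (h : Ty I β' n') {e₁ e₂ : ℤ} (he : e₁ ≠ e₂)
    (h₁ : Fib.cL I.toLat e₁ = Sg.V.chi (-β + e₁ • Sg.V.h) - n)
    (h₂ : Fib.cL I.toLat e₂ = Sg.V.chi (-β + e₂ • Sg.V.h) - n) :
    Ch.dg Sg.V β' = Ch.dg Sg.V β ∧ (Lin Sg β' β → Ty I β n) := by
  rw [h.cL, Ch.chi_tw Sg.V (-β), Ch.chi_tw Sg.V (-β'), Ch.dg_neg, Ch.dg_neg] at h₁ h₂
  have h3 : (e₁ - e₂) * (Ch.dg Sg.V β' - Ch.dg Sg.V β) = 0 := by linarith
  have h4 := sub_eq_zero.1 ((mul_eq_zero.1 h3).resolve_left (sub_ne_zero.2 he))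
  refine ⟨h4, fun hl => ?_⟩
  rw [h4, hl.neg.chi] at h₁
  obtain rfl : n' = n := by omega
  exact h.lin hl
lemma sc_r1 (k : ℤ) (j : ℕ) : ((r1 Sg k).G j).Sc (k • eT) := sc_pi fun _ => sc_shift _ _
/-- `θ, u ⊗ u' ↦ θ(u) u' - θ(u') u` -/
def commF {W Q : Type} [AddCommGroup W] [Module ℂ W] [AddCommGroup Q] [Module ℂ Q]
    (i : W →ₗ[ℂ] Sg.F) (j : Q →ₗ[ℂ] Sg.F) : (W →ₗ[ℂ] Q) →ₗ[ℂ] W ⊗[ℂ] W →ₗ[ℂ] Sg.F :=
  (LinearMap.llcomp ℂ _ _ _ (LinearMap.mul' ℂ Sg.F ∘ₗ TensorProduct.map j i) ∘ₗ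
      LinearMap.rTensorHom W) -
    (LinearMap.lcomp ℂ Sg.F (TensorProduct.comm ℂ W W).toLinearMap ∘ₗ
      LinearMap.llcomp ℂ _ _ _ (LinearMap.mul' ℂ Sg.F ∘ₗ TensorProduct.map j i) ∘ₗ
        LinearMap.rTensorHom W)
lemma commF_tmul {W Q : Type} [AddCommGroup W] [Module ℂ W] [AddCommGroup Q] [Module ℂ Q]
    (i : W →ₗ[ℂ] Sg.F) (j : Q →ₗ[ℂ] Sg.F) (θ : W →ₗ[ℂ] Q) (u u' : W) :
    commF i j θ (u ⊗ₜ u') = j (θ u) * i u' - j (θ u') * i u := rfl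
lemma mem_killer_commF {W Q : Type} [AddCommGroup W] [Module ℂ W] [AddCommGroup Q] [Module ℂ Q]
    {i : W →ₗ[ℂ] Sg.F} {j : Q →ₗ[ℂ] Sg.F} {θ : W →ₗ[ℂ] Q} {U : Submodule ℂ W} :
    θ ∈ killer (commF i j) (tens U U) ↔ ∀ u ∈ U, ∀ u' ∈ U, j (θ u) * i u' = j (θ u') * i u := by
  rw [mem_killer]
  constructor
  · intro h u hu u' hu'
    have := h _ (tmul_mem hu hu')
    rwa [commF_tmul, sub_eq_zero] at this
  · intro h
    refine (tens_le (N := LinearMap.ker (commF i j θ))).2 fun u hu u' hu' => ?_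
    rw [LinearMap.mem_ker, commF_tmul, h u hu u' hu', sub_self]
lemma comm_eq (U : Submodule ℂ ((r1 Sg k).G p).V) :
    killer (commF ((r1 Sg k).inc p) (SB Sg (-β + p • Sg.V.h)).subtype) (tens U U) =
      comm Sg k p β U := Submodule.ext fun _ => mem_killer_commF
lemma one_le_sub_iff {M : Type} [AddCommGroup M] [Module ℂ M] [FiniteDimensional ℂ M]
    {A B : Submodule ℂ M} (h : A ≤ B) : 1 ≤ (finrank ℂ B : ℤ) - finrank ℂ A ↔ ¬ B ≤ A := by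
  constructor
  · intro h hc
    have := Submodule.finrank_mono hc
    omega
  · intro h'
    have := Submodule.finrank_lt_finrank_of_lt (lt_of_le_of_ne h fun e => h' e.ge)
    omega
lemma usc_comm {X : Spc} {U : Pt → Submodule ℂ ((r1 Sg k).G p).V} (a0 : IsAB X ((r1 Sg k).G p) U) :
    X.USC fun x => (finrank ℂ (comm Sg k p β (U x)) : ℤ) -
      finrank ℂ (homKill (U x) (SB Sg (-β + p • Sg.V.h))) := by
  have c0 := (a0.gen.tens a0.gen).killer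
    (commF ((r1 Sg k).inc p) (SB Sg (-β + p • Sg.V.h)).subtype)
  have c1 : CogA X fun x => comm Sg k p β (U x) := c0.congr fun x _ => comm_eq _
  have k1 : X.LC fun x => finrank ℂ (homKill (U x) (SB Sg (-β + p • Sg.V.h))) :=
    (a0.homKill (W := triv (SB Sg (-β + p • Sg.V.h))) (in_triv _)).lc
  intro x hx
  obtain ⟨r, h1, h2⟩ := c1.usc.add (k1.comp (Nat.cast : ℕ → ℤ)).neg_usc x hx
  exact ⟨r, h1, h2⟩
lemma exists_level_super {X : Spc} {α : Type} {f : Pt → α} (hf : X.LC f)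
    (hi : ∀ x ∈ X.pts, f (gpt x) = f x) (a : α) {g : Pt → ℤ} (hg : X.USC g)
    (hj : ∀ x ∈ X.pts, g (gpt x) = g x) (c : ℤ) :
    ∃ Z : Spc, Z.Sub X ∧ ∀ x ∈ X.pts, x ∈ Z.pts ↔ f x = a ∧ c ≤ g x := by
  have hY := Spc.level_sub X f hf hi a
  refine ⟨(X.level f hf hi a).superlevel g (hg.mono hY.2) (fun x hx => hj x (hY.2 hx)) c,
    (Spc.superlevel_sub _ _ _ _ _).trans hY, fun x hx => ?_⟩
  rw [Spc.mem_superlevel, Spc.mem_level, and_iff_right hx]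
/-- **closedness**: level set of the ranks in the degrees `p, p + 1`, then the locus where the rank
of the cogenerated family `comm` jumps above the rank of `homKill` (`Spc.superlevel`) -/
theorem exists_tySpc {X : Spc} {I : Pt → XL Sg Sg.F}
    (le : ∀ x ∈ X.pts, LeL (I x) (OX Sg.V.X)) (reg : ∀ x ∈ X.pts, RegL (I x).toLat p)
    (ne : ∀ x ∈ X.pts, ∃ e, Gm (I x).toLat e ≠ ⊥)
    (ab : ∀ j ≥ p, IsAB X ((r1 Sg k).G j) fun x => (r1 Sg k).pc (I x) j) (β : Sg.V.G) (n : ℕ) :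
    ∃ Z : Spc, Z.Sub X ∧ ∀ x ∈ X.pts, x ∈ Z.pts ↔ Ty (I x) β n := by
  have a0 := ab p le_rfl
  have a1 := ab (p + 1) (Nat.le_succ p)
  have i0 := (sc_r1 k p).eqv_iff.1 a0.eqv'
  have i1 := (sc_r1 k (p + 1)).eqv_iff.1 a1.eqv'
  have l1 : X.LC fun x => ((finrank ℂ ((r1 Sg k).pc (I x) p) : ℤ),
      (finrank ℂ ((r1 Sg k).pc (I x) (p + 1)) : ℤ)) :=
    (a0.lc.comp (Nat.cast : ℕ → ℤ)).prod (a1.lc.comp (Nat.cast : ℕ → ℤ))
  have u1 := usc_comm (β := β) a0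
  obtain ⟨Z, hZ, hm⟩ := exists_level_super l1 (fun x hx => by rw [i0 x hx, i1 x hx])
    (Sg.V.chi (-β + (p : ℤ) • Sg.V.h) - n, Sg.V.chi (-β + ((p + 1 : ℕ) : ℤ) • Sg.V.h) - n)
    u1 (fun x hx => by rw [i0 x hx]) 1
  refine ⟨Z, hZ, fun x hx => ?_⟩
  have lO : LeL (I x) (r1 Sg k).O := (le x hx).trans (r1_O k).symm.le
  have e0 := Amb.finrank_pc (𝔞 := r1 Sg k) (L := I x) lO (reg x hx) (Nat.le_succ p)
  have e1 := Amb.finrank_pc (𝔞 := r1 Sg k) (L := I x) lO (reg x hx) (j := p + 1) (by omega)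
  have e2 := one_le_sub_iff (M := ((r1 Sg k).G p).V →ₗ[ℂ] SB Sg (-β + p • Sg.V.h))
    (kill_le_comm (β := β) ((r1 Sg k).pc (I x) p))
  refine (hm x hx).trans ⟨fun ⟨h0, h3⟩ => ?_, fun h => ⟨Prod.ext (e0.trans (h.cL _))
    (e1.trans (h.cL _)), e2.2 ((lin_iff_comm h (le x hx) (reg x hx) rfl).1 (Lin.refl β))⟩⟩
  obtain ⟨β', n', h⟩ := exists_ty (le x hx) (ne x hx)
  obtain ⟨h4, h5⟩ := h.num (by omega) (e0.symm.trans (congrArg Prod.fst h0))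
    (e1.symm.trans (congrArg Prod.snd h0))
  exact h5 ((lin_iff_comm h (le x hx) (reg x hx) h4).2 (e2.1 h3))

end Crest.Agent.N265.M
end
end

-- ▼ part N265/Q/Crit
section

/-! # Row 265, task Q-CRIT: having a given type is a closed condition (`Q/Crit0`); split lattices
(`Q/Split`) -/
end

-- ▼ part N265/Q/Uni
section

/-! # Row 265, task Q-UNI: the universal pairs of ideals inside the Quot scheme -/

set_option autoImplicit false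
set_option linter.dupNamespace false
noncomputable section
open MvPolynomial Module TensorProduct

namespace Crest.Agent.N265.M
open Crest.Agent.R274
open Defs_781 Lat_781 SnapA_99 SnapB_99 SnapE_99 Gen7_750 Xs1_781 SkDefs_474
open Alg GV Br N Fib _root_.Crest.Agent.N265.Pow
variable {Sg : Surf} {β₁ β₂ : Sg.V.G} {n₁ n₂ : ℕ}

namespace Par
variable (P : Par (r2 Sg))
/-- the Hilbert polynomial of a pair of ideals of these types is the right one -/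
def Fit (β₁ β₂ : Sg.V.G) (n₁ n₂ : ℕ) : Prop := ∀ e : ℤ,
  Sg.V.chi (-β₁ + e • Sg.V.h) - n₁ + (Sg.V.chi (-β₂ + e • Sg.V.h) - n₂) = P.hp e
/-- the weight of the fixed points -/
def wt (β₂ : Sg.V.G) (n₂ : ℕ) : ℤ :=
  ∑ j : JJ P.p P.q, (Sg.V.chi (-β₂ + (j.1 : ℤ) • Sg.V.h) - n₂)
/-- `u` is the space of the points of `Qa` of the given types -/
structure IsU (u : Uni Sg P.p β₁ β₂ n₁ n₂ 0 1 P.b) : Prop where
  sub : u.F.Sub P.Qa
  eqv : ∀ x ∈ u.F.pts, EqL (P.Lq x) (piX ![u.I₁ x, u.I₂ x])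
  mem : ∀ x ∈ P.Qa.pts, ∀ J₁ J₂ : XL Sg Sg.F, Ty J₁ β₁ n₁ → Ty J₂ β₂ n₂ →
    EqL (P.Lq x) (piX ![J₁, J₂]) → x ∈ u.F.pts
variable {P}
/-- `stab_of_fix`, `split_of_stab` -/
theorem split_of_fix {x : Pt} (hx : x ∈ P.Qa.pts) {w : ℕ → ℤ}
    (hw : ∀ v : Var, x v ≠ 0 → v.2.2 = w v.1) :
    EqL (P.Lq x) (piX ![smd (P.Lq x) 0, smd (P.Lq x) 1]) :=
  split_of_stab (Lq_le x) (Lq_spec hx).2.1 (stab_of_fix hx hw le_rfl)
/-- what the summands of a point inherit -/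
lemma pair_spec {x : Pt} (hx : x ∈ P.Qa.pts) {J₁ J₂ : XL Sg Sg.F}
    (e : EqL (P.Lq x) (piX ![J₁, J₂])) :
    (LeL J₁ (OX Sg.V.X) ∧ LeL J₂ (OX Sg.V.X)) ∧ (RegL J₁.toLat P.p ∧ RegL J₂.toLat P.p) ∧
      ((∃ e, Gm J₁.toLat e ≠ ⊥) ∧ ∃ e, Gm J₂.toLat e ≠ ⊥) ∧
      cL (piX ![J₁, J₂]).toLat = P.hp := by
  have le : LeL (piX ![J₁, J₂]) (r2 Sg).O := e.symm.le.trans (Lq_le x)
  have hc : cL (piX ![J₁, J₂]).toLat = P.hp := (cL_congr e.symm).trans (Lq_spec hx).1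
  refine ⟨pair_le.1 le, regL_pair.1 (regL_congr e (Lq_spec hx).2.1), ne_bot_of_pair le
    (d := P.d) (c := P.c) (hc.trans ?_), hc⟩
  rw [Par.hp, Fintype.card_fin]
/-- `GrD.wt_eq`, `finrank_part`, `Amb.finrank_pc`, `Ty.cL` -/
theorem wt_of_pair {x : Pt} (hx : x ∈ P.Qa.pts) {J₁ J₂ : XL Sg Sg.F} (h₂ : Ty J₂ β₂ n₂)
    (e : EqL (P.Lq x) (piX ![J₁, J₂])) {v : Var} (hv : x v ≠ 0) : v.2.2 = P.wt β₂ n₂ := by
  have hU : ∀ j : JJ P.p P.q, P.Γ.U j x = (r2 Sg).pc (piX ![J₁, J₂]) j.1 := fun j =>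
    ((Lq_spec hx).2.2 j).symm.trans (Amb.pc_congr (𝔞 := r2 Sg) e _)
  obtain ⟨⟨-, l₂⟩, ⟨-, g₂⟩, -⟩ := pair_spec hx e
  refine (GrD.wt_eq (Γ := P.Γ) (P.Qa_sub.2 hx) (fun j => ?_) (fun j => part_sup j.1) hv).trans
    (Finset.sum_congr rfl fun j _ => ?_)
  · rw [hU]; exact stab_pair J₁ J₂ j.1
  · rw [hU, ← h₂.cL]
    exact (congrArg Nat.cast (finrank_part J₁ J₂ j.1)).trans (Amb.finrank_pc (𝔞 := r1 Sg 1)
      (L := J₂) (l₂.trans (r1_O 1).symm.le) g₂ (j.le.trans (Nat.le_succ _)))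
lemma Fit.cL (h : P.Fit β₁ β₂ n₁ n₂) {J₁ J₂ : XL Sg Sg.F} (h₁ : Ty J₁ β₁ n₁) (h₂ : Ty J₂ β₂ n₂) :
    cL (piX ![J₁, J₂]).toLat = P.hp := funext fun e => by
  rw [cL_pair, h₁.cL, h₂.cL, h e]
/-- the space of the points of the given types -/
lemma exists_spc (P : Par (r2 Sg)) (β₁ β₂ : Sg.V.G) (n₁ n₂ : ℕ) : ∃ F : Spc,
    F.Sub (P.Qa.fix fun _ => P.wt β₂ n₂) ∧ ∀ x ∈ (P.Qa.fix fun _ => P.wt β₂ n₂).pts,
      x ∈ F.pts ↔ Ty (smd (P.Lq x) 0) β₁ n₁ ∧ Ty (smd (P.Lq x) 1) β₂ n₂ := by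
  have hs := P.Qa.fix_sub fun _ => P.wt β₂ n₂
  have sp := fun x (hx : x ∈ (P.Qa.fix fun _ => P.wt β₂ n₂).pts) =>
    split_of_fix (w := fun _ => P.wt β₂ n₂) (Spc.mem_fix.1 hx).1 (Spc.mem_fix.1 hx).2
  have ab := fun j hj => isAB_smd (((lfam (P := P)).mono hs).ab j hj) sp
  have pr := fun x hx => pair_spec (hs.2 hx) (sp x hx)
  obtain ⟨Z₁, s₁, m₁⟩ := exists_tySpc (k := 0) (fun x hx => (pr x hx).1.1)
    (fun x hx => (pr x hx).2.1.1) (fun x hx => (pr x hx).2.2.1.1) (fun j hj => (ab j hj).1) β₁ n₁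
  obtain ⟨Z₂, s₂, m₂⟩ := exists_tySpc (k := 1) (X := Z₁) (fun x hx => (pr x (s₁.2 hx)).1.2)
    (fun x hx => (pr x (s₁.2 hx)).2.1.2) (fun x hx => (pr x (s₁.2 hx)).2.2.1.2)
    (fun j hj => (ab j hj).2.mono s₁) β₂ n₂
  exact ⟨Z₂, s₂.trans s₁, fun x hx => ⟨fun h => ⟨(m₁ x hx).1 (s₂.2 h), (m₂ x (s₂.2 h)).1 h⟩,
    fun h => (m₂ x ((m₁ x hx).2 h.1)).2 h.2⟩⟩
end Par

/-- the projections to the summands -/
def prj (Sg : Surf) (k : ℤ) (i : Fin 2) (j : ℕ) : ((r2 Sg).G j).V →ₗ[ℂ] ((r1 Sg k).G j).V :=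
  LinearMap.pi fun _ => LinearMap.proj (R := ℂ) (φ := fun _ : Fin 2 => SA Sg j) i
lemma mem_pc_prj {J₁ J₂ : XL Sg Sg.F} {j : ℕ} {w : ((r2 Sg).G j).V} :
    w ∈ (r2 Sg).pc (piX ![J₁, J₂]) j ↔
      prj Sg 0 0 j w ∈ (r1 Sg 0).pc J₁ j ∧ prj Sg 1 1 j w ∈ (r1 Sg 1).pc J₂ j :=
  mem_pc_pair.trans (and_congr (mem_pc_r1 (k := 0) (w := prj Sg 0 0 j w)).symm
    (mem_pc_r1 (k := 1) (w := prj Sg 1 1 j w)).symm)
/-- a pair does not vary if the summands do not -/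
lemma ks_pair {X : Spc} {L : Pt → XL Sg (Fin 2 → Sg.F)} {I₁ I₂ : Pt → XL Sg Sg.F} {j : ℕ}
    (e : ∀ x ∈ X.pts, EqL (L x) (piX ![I₁ x, I₂ x])) {x ξ : Pt} (hx : x ∈ X.pts)
    (h₁ : KS X (V := (r1 Sg 0).G j) (fun y => (r1 Sg 0).pc (I₁ y) j) hx ξ 0)
    (h₂ : KS X (V := (r1 Sg 1).G j) (fun y => (r1 Sg 1).pc (I₂ y) j) hx ξ 0) :
    KS X (V := (r2 Sg).G j) (fun y => (r2 Sg).pc (L y) j) hx ξ 0 := fun σ hσ hm => by
  have hm' : ∀ y : X.pts, σ y ∈ (r2 Sg).pc (piX ![I₁ y.1, I₂ y.1]) j := fun y =>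
    Amb.pc_congr (𝔞 := r2 Sg) (e _ y.2) j ▸ hm y
  have a₁ := h₁ _ (RegV.lin' (prj Sg 0 0 j) hσ) fun y => (mem_pc_prj.1 (hm' y)).1
  have a₂ := h₂ _ (RegV.lin' (prj Sg 1 1 j) hσ) fun y => (mem_pc_prj.1 (hm' y)).2
  rw [LinearMap.zero_apply, sub_zero, dV_lin] at a₁ a₂
  rw [LinearMap.zero_apply, sub_zero]
  exact (Amb.pc_congr (𝔞 := r2 Sg) (e x hx) j).ge (mem_pc_prj.2 ⟨a₁, a₂⟩)

namespace Par
variable {P : Par (r2 Sg)}
/-- `F` is cut out of `Qa.fix (fun _ => wt)` by `exists_tySpc` twice, `I_i = smd (Lq x) i`;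
`graph` from `Par.graph` and `LFam.pair`; `tan` from `Par.tan0` -/
theorem exists_uni (h : P.Fit β₁ β₂ n₁ n₂) :
    ∃ u : Uni Sg P.p β₁ β₂ n₁ n₂ 0 1 P.b, P.IsU u := by
  obtain ⟨F, hF, hm⟩ := P.exists_spc β₁ β₂ n₁ n₂
  have hs : F.Sub P.Qa := hF.trans (P.Qa.fix_sub _)
  have sp := fun x (hx : x ∈ F.pts) =>
    split_of_fix (w := fun _ => P.wt β₂ n₂) (hs.2 hx) (Spc.mem_fix.1 (hF.2 hx)).2
  have ab := fun j hj => isAB_smd (((lfam (P := P)).mono hs).ab j hj) sp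
  have pr := fun x hx => pair_spec (hs.2 hx) (sp x hx)
  have ty := fun x hx => (hm x (hF.2 hx)).1 hx
  have sm : ∀ x {J₁ J₂ : XL Sg Sg.F}, EqL (P.Lq x) (piX ![J₁, J₂]) →
      EqL (smd (P.Lq x) 0) J₁ ∧ EqL (smd (P.Lq x) 1) J₂ := fun x J₁ J₂ e =>
    ⟨(smd_congr e 0).trans (smd_pair J₁ J₂).1, (smd_congr e 1).trans (smd_pair J₁ J₂).2⟩
  have mem : ∀ x ∈ P.Qa.pts, ∀ J₁ J₂ : XL Sg Sg.F, Ty J₁ β₁ n₁ → Ty J₂ β₂ n₂ →
      EqL (P.Lq x) (piX ![J₁, J₂]) → x ∈ F.pts := fun x hx J₁ J₂ t₁ t₂ e =>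
    (hm x (Spc.mem_fix.2 ⟨hx, fun v hv => wt_of_pair hx t₂ e hv⟩)).2
      ⟨t₁.congr (sm x e).1.symm, t₂.congr (sm x e).2.symm⟩
  have f₁ : IFam F P.p β₁ n₁ 0 fun x => smd (P.Lq x) 0 :=
    ⟨⟨P.two, fun x hx => (pr x hx).1.1.trans (r1_O 0).symm.le, fun x hx => (pr x hx).2.1.1,
      ⟨_, _, fun x hx => (ty x hx).1.hp (pr x hx).1.1⟩, fun j hj => (ab j hj).1⟩,
      fun x hx => (ty x hx).1⟩
  have f₂ : IFam F P.p β₂ n₂ 1 fun x => smd (P.Lq x) 1 :=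
    ⟨⟨P.two, fun x hx => (pr x hx).1.2.trans (r1_O 1).symm.le, fun x hx => (pr x hx).2.1.2,
      ⟨_, _, fun x hx => (ty x hx).2.hp (pr x hx).1.2⟩, fun j hj => (ab j hj).2⟩,
      fun x hx => (ty x hx).2⟩
  have hB : F.B = {P.b} := hs.1.trans P.Qa_B
  refine ⟨⟨F, hB, P.b0, P.wt β₂ n₂, fun x hx => (Spc.mem_fix.1 (hF.2 hx)).2, _, _, f₁, f₂,
    fun J₁ J₂ l₁ l₂ t₁ t₂ => ?_, fun x hx x' hx' e₁ e₂ => ?_, fun Z J₁ J₂ hb g₁ g₂ => ?_,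
    fun x hx ξ hξ k₁ k₂ => tan0 hs hx hξ (ks_pair sp hx k₁ k₂)⟩, hs, sp, mem⟩
  · obtain ⟨y, hy, e⟩ := exists_pt (P := P) (pair_le.2 ⟨l₁, l₂⟩) (h.cL t₁ t₂)
    exact ⟨y, mem y hy _ _ t₁ t₂ e, sm y e⟩
  · exact uniq (hs.2 hx) (hs.2 hx') ((sp x hx).trans ((pair_congr e₁ e₂).trans (sp x' hx').symm))
  · obtain ⟨W, A, y, a1, a2, a3⟩ := graph (P := P) hb (g₁.fam.pair g₂.fam)
      fun x hx => h.cL (g₁.ty x hx) (g₂.ty x hx)
    refine ⟨W, A, y, a1, a2, fun z => (a3 z).trans ?_⟩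
    have hbb : P.b ∈ F.B := hB ▸ Finset.mem_singleton_self _
    rw [Spc.mem_fib, Spc.mem_fib, ← hs.1, ← P.Lq_restr hbb z]
    constructor
    · rintro ⟨⟨b1, b2, b3⟩, e⟩
      exact ⟨⟨b1, mem _ b2 _ _ (g₁.ty _ b1) (g₂.ty _ b1) e, b3⟩, sm _ e⟩
    · rintro ⟨⟨b1, b2, b3⟩, e₁, e₂⟩
      exact ⟨⟨b1, hs.2 b2, b3⟩, (sp _ b2).trans (pair_congr e₁ e₂)⟩
/-- fixed points have types -/
theorem cover {x : Pt} (hx : x ∈ P.Qa.pts) {w : ℕ → ℤ} (hw : ∀ v : Var, x v ≠ 0 → v.2.2 = w v.1) :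
    ∃ (J₁ J₂ : XL Sg Sg.F) (β₁ β₂ : Sg.V.G) (n₁ n₂ : ℕ), P.Fit β₁ β₂ n₁ n₂ ∧
      Ch.HasSec Sg.V β₁ ∧ Ch.HasSec Sg.V β₂ ∧ Ty J₁ β₁ n₁ ∧ Ty J₂ β₂ n₂ ∧
      EqL (P.Lq x) (piX ![J₁, J₂]) := by
  have e := split_of_fix hx hw
  obtain ⟨⟨l₁, l₂⟩, -, ⟨z₁, z₂⟩, hc⟩ := pair_spec hx e
  obtain ⟨β₁, n₁, t₁⟩ := exists_ty l₁ z₁
  obtain ⟨β₂, n₂, t₂⟩ := exists_ty l₂ z₂
  refine ⟨_, _, β₁, β₂, n₁, n₂, fun a => ?_, t₁.hasSec l₁, t₂.hasSec l₂, t₁, t₂, e⟩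
  rw [← t₁.cL, ← t₂.cL, ← cL_pair, hc]
end Par

end Crest.Agent.N265.M
end
end

-- ▼ part N265/Q/Cone0
section

/-! # Row 265, task Q-CONE a: the cone and the level set of the virtual dimension -/

set_option autoImplicit false
set_option linter.dupNamespace false
noncomputable section
open MvPolynomial Module TensorProduct

namespace Crest.Agent.N265.M
open Crest.Agent.R274
open Defs_781 Lat_781 SnapA_99 SnapB_99 SnapE_99 Gen7_750 Xs1_781 SkDefs_474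
open Alg GV Br N Fib _root_.Crest.Agent.N265.Pow
variable {Sg : Surf}

theorem _root_.Crest.Agent.N265.K.rk_pull' {X Y : Spc} (q : Proj Y X) {y : Pt} (hy : y ∈ Y.pts)
    (u : K X) : K.rk hy (K.pull q u) = K.rk (q.map y hy) u := by
  have h1 : (K.rk hy).toAddMonoidHom.comp (K.pull q).toAddMonoidHom =
      (K.rk (q.map y hy)).toAddMonoidHom := K.hom_ext fun A => by
    change K.rk hy (K.pull q A.kl) = K.rk (q.map y hy) A.kl
    rw [K.pull_kl, K.rk_kl, K.rk_kl]; rfl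
  exact DFunLike.congr_fun h1 u

namespace Par
variable {𝔞 : Amb Sg} (P : Par 𝔞)
lemma pcs_eq {x : Pt} (hx : x ∈ P.Qa.pts) : 𝔞.pcs P.p P.q (P.Lq x) = fun j => P.Γ.U j x :=
  funext (Lq_spec hx).2.2
theorem exists_acone' : ∃ (V : GV) (E : Pt → Submodule ℂ V.V) (s : Pt → V.V),
    ACone P.Γ.Y P.Qa V E s ∧
    K.pull P.Qa_sub.proj (Bun.tan P.Γ.Y _ GrD.vars _ GrD.sm).kl =
      kc P.Qa V E + 1 + chiK 𝔞 𝔞 P.Qa P.p P.Lq P.Lq ∧
    ∀ x (hx : x ∈ P.Qa.pts), ∀ ξ ∈ P.Γ.Y.Tan x, ∀ φ : P.Γ.En.V,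
      (∀ j, IsVar P.Γ.Y.fn ⟨x, P.Qa_sub.2 hx⟩ (P.Γ.Y.pd x ξ) (fun y => P.Γ.U j y.1) (φ j)) →
      (dV (P.Γ.Y.pd x ξ) (fun y : P.Γ.Y.pts => s y.1) = 0 ↔
        P.qv.δ φ ∈ P.qv.den (𝔞.pcs P.p P.q (P.Lq x))) := by
  have hq : 5 + P.p ≤ P.q := P.five
  have hZ : IsAB P.Qa P.qv.C fun x => P.qv.Zc fun j => P.Γ.U j x :=
    ((lfam (P := P)).isAB_Zc hq).congr fun x hx => congrArg P.qv.Zc (P.pcs_eq hx)
  obtain ⟨V, E, s, hc, hk, hd⟩ :=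
    P.qv.exists_cone (X := P.Γ.Y) GrD.isAB_U P.Qa_sub (fun x hx => P.mem_Qa hx) hZ
  refine ⟨V, E, s, hc, ?_, fun x hx ξ hξ φ hφ => by rw [P.pcs_eq hx]; exact hd x hx ξ hξ φ hφ⟩
  have h1 := (lfam (P := P)).kc_Zc hq
  have e1 : kc P.Qa P.qv.C (fun x => P.qv.Zc fun j => P.Γ.U j x) = kc P.Qa (𝔞.qv P.p P.q).C
      fun x => (𝔞.qv P.p P.q).Zc (𝔞.pcs P.p P.q (P.Lq x)) :=
    kc_congr fun x hx => congrArg P.qv.Zc (P.pcs_eq hx).symm
  have e2 : kc P.Qa P.qv.C (fun x => P.qv.den fun j => P.Γ.U j x) = kc P.Qa (𝔞.qv P.p P.q).C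
      fun x => (𝔞.qv P.p P.q).den (𝔞.pcs P.p P.q (P.Lq x)) :=
    kc_congr fun x hx => congrArg P.qv.den (P.pcs_eq hx).symm
  have e3 : ∀ j, K.pull P.Qa_sub.proj (kc P.Γ.Y (P.Γ.G j) (P.Γ.U j)) = ucl 𝔞 P.Qa P.Lq j.1 :=
    fun j => (kc_sub (GrD.isAB_U j) P.Qa_sub).trans
      (kc_congr fun x hx => ((Lq_spec hx).2.2 j).symm)
  have e4 : ∀ j, K.pull P.Qa_sub.proj (kc P.Γ.Y (P.Γ.G j) fun _ => ⊤) =
      kc P.Qa (𝔞.G j.1) fun _ => ⊤ := fun j => kc_sub (IsAB.top (GrD.isAB_U j).hin) P.Qa_sub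
  rw [GrD.kl_tan, map_add, map_one, map_sum, hk, e1, e2,
    (lfam (P := P)).chiK_eq lfam (P.nb (Spc.Sub.refl _))]
  simp only [map_mul, map_sub, K.pull_dual, e3, e4]
  linear_combination -h1
theorem exists_cone' (vd : ℤ) : ∃ (Q : Spc) (_hQ : Q.Sub P.Qa) (r : ℕ) (E : Bun Q) (s : E.ι → R)
    (c : Cone P.Γ.Y Q E s), E.Rk r ∧
    (∀ x (hx : x ∈ P.Qa.pts), x ∈ Q.pts ↔ K.rk hx (chiK 𝔞 𝔞 P.Qa P.p P.Lq P.Lq) = vd) ∧
    ((Bun.tan P.Γ.Y _ GrD.vars _ GrD.sm).pull c.sub.proj).kl =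
      E.kl + 1 + chiK 𝔞 𝔞 Q P.p P.Lq P.Lq ∧
    ∀ x ∈ Q.pts, ∀ φ ∈ P.Γ.enOf x (P.Γ.Y.Tan x ⊓ LinearMap.ker (N265.V.dS x s)),
      P.qv.δ φ ∈ P.qv.den (𝔞.pcs P.p P.q (P.Lq x)) := by
  obtain ⟨V, E, s, hc, hk, hd⟩ := P.exists_acone'
  have hrk : ∀ x (hx : x ∈ P.Qa.pts), (P.Γ.dim : ℤ) =
      finrank ℂ (E x) + 1 + K.rk hx (chiK 𝔞 𝔞 P.Qa P.p P.Lq P.Lq) := fun x hx => by
    have := congrArg (K.rk hx) hk
    rwa [K.rk_pull', K.rk_kl, Bun.rk_tan _ _ _ _ _ (P.Qa_sub.proj.map x hx), map_add, map_add,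
      map_one, rk_kc hc.ab] at this
  have hf := hc.ab.lc.comp fun n : ℕ => (n : ℤ) = P.Γ.dim - 1 - vd
  have hi : ∀ x ∈ P.Qa.pts, ((finrank ℂ (E (gpt x)) : ℤ) = P.Γ.dim - 1 - vd) =
      ((finrank ℂ (E x) : ℤ) = P.Γ.dim - 1 - vd) := fun x hx => by
    rw [← hc.ab.eqv x hx, LinearEquiv.finrank_map_eq]
  have hQ := P.Qa.level_sub _ hf hi True
  have hm : ∀ x, x ∈ (P.Qa.level _ hf hi True).pts ↔
      x ∈ P.Qa.pts ∧ (finrank ℂ (E x) : ℤ) = P.Γ.dim - 1 - vd := fun x => by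
    rw [Spc.mem_level, eq_iff_iff, iff_true]
  obtain ⟨V', g, hc', hg⟩ := hc.level hQ (P.Qa.level_sub _ hf hi False)
    (fun z hz => by by_cases e : (finrank ℂ (E z) : ℤ) = P.Γ.dim - 1 - vd <;> simp [hz, e])
    (Set.disjoint_left.2 fun z h1 h2 => h2.2.mp (h1.2.mpr trivial))
  obtain ⟨A, b, s', hA, hcone, hs'⟩ := hc'.exists_cone
  have hV' : V'.In (P.Qa.level _ hf hi True).B :=
    hc'.ab.hin.of_inj (f := LinearMap.inr ℂ _ _) (fun v => by simp) LinearMap.inr_injective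
  have hkl : A.kl = kc _ V E := by
    rw [Pres.kl ⟨b, hA⟩, kc_prod (hc.ab.mono hQ) (IsAB.bot hV'),
      kc_of_bot (L := fun _ => ⊥) fun _ _ => rfl, add_zero]
  refine ⟨_, hQ, (P.Γ.dim - 1 - vd).toNat, A, s', hcone, fun x hx => ?_, fun x hx => ?_, ?_,
    fun x hx φ hφ => ?_⟩
  · have h1 := K.rk_kl hx A
    rw [hkl, rk_kc (hc.ab.mono hQ), ((hm x).1 hx).2] at h1
    omega
  · have := hrk x hx
    rw [hm]
    exact ⟨fun h => by omega, fun h => ⟨hx, by omega⟩⟩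
  · have h1 := congrArg (K.pull hQ.proj) hk
    rw [K.pull_pull, K.pull_kl, map_add, map_add, map_one, kc_sub hc.ab hQ, ← hkl,
      (lfam (P := P)).pull_chiK lfam (P.nb (Spc.Sub.refl _)) _ (P.nb hQ)] at h1
    have hb : P.b ∈ P.Qa.B := P.Qa_B ▸ Finset.mem_singleton_self _
    simp only [P.Lq_restr hb] at h1
    exact h1
  · obtain ⟨ξ, ⟨hξ, h0⟩, e⟩ := hφ
    have hy := P.Qa_sub.2 (hQ.2 hx)
    refine (hd x (hQ.2 hx) ξ hξ φ
      ((GrD.isVar_iff hy hξ).2 (by rw [e, sub_self]; exact zero_mem _))).1 ?_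
    have h1 : dV (P.Γ.Y.pd x ξ) (fun y : P.Γ.Y.pts => ((s y.1, g y.1) : (V.prod V').V)) = 0 :=
      b.repr.map_eq_zero_iff.1 (Finsupp.ext fun i => (dV_spec _ _ (b.coord i)).trans
        ((Spc.pd_of_eq hξ fun y => (hs' y.1 y.2 i).symm).trans (N265.V.mem_ker_dS.1 h0 i)))
    have h2 := dV_lin (δ := P.Γ.Y.pd x ξ) (LinearMap.fst ℂ V.V V'.V)
      fun y : P.Γ.Y.pts => (s y.1, g y.1)
    rw [h1, map_zero] at h2
    exact h2
end Par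

end Crest.Agent.N265.M
end
end

-- ▼ part N265/Q/Cone1
section

/-! # Row 265, task Q-CONE b: virtual dimension and tangent bound at the fixed points -/

set_option autoImplicit false
set_option linter.dupNamespace false
noncomputable section
open MvPolynomial Module TensorProduct

namespace Crest.Agent.N265.M
open Crest.Agent.R274
open Defs_781 Lat_781 SnapA_99 SnapB_99 SnapE_99 Gen7_750 Xs1_781 SkDefs_474
open Alg GV Br N Fib _root_.Crest.Agent.N265.Pow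
variable {Sg : Surf}

lemma finrank_sprod {V W : Type} [AddCommGroup V] [Module ℂ V] [AddCommGroup W] [Module ℂ W]
    [FiniteDimensional ℂ V] [FiniteDimensional ℂ W] (A : Submodule ℂ V) (B : Submodule ℂ W) :
    finrank ℂ (A.prod B) = finrank ℂ A + finrank ℂ B := by
  have : A.prod B = LinearMap.range (A.subtype.prodMap B.subtype) := by
    rw [LinearMap.range_prodMap, Submodule.range_subtype, Submodule.range_subtype]
  rw [this, LinearMap.finrank_range_of_inj, finrank_prod]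
  exact A.injective_subtype.prodMap B.injective_subtype

lemma smul_canc {V : Type} [AddCommGroup V] [Module ℂ V] {a b : ℂ} {v : V} (h : a • v = b • v) :
    a = b ∨ v = 0 := by
  rwa [← sub_eq_zero, ← sub_smul, smul_eq_zero, sub_eq_zero] at h

section blk
variable (Sg) (i : Fin 2) (k : ℤ)
/-- inclusion of a summand -/
def sng (j : ℕ) : ((r1 Sg k).G j).V →ₗ[ℂ] ((r2 Sg).G j).V :=
  LinearMap.single ℂ (fun _ : Fin 2 => SA Sg j) i ∘ₗ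
    LinearMap.proj (R := ℂ) (φ := fun _ : Unit => SA Sg j) ()
/-- projection to a summand -/
def prjC (j : ℕ) : ((r2 Sg).G j).V →ₗ[ℂ] ((r1 Sg k).G j).V :=
  LinearMap.pi fun _ => LinearMap.proj (R := ℂ) (φ := fun _ : Fin 2 => SA Sg j) i
/-- diagonal block -/
def blk (j : ℕ) : ((r2 Sg).EG (r2 Sg) j).V →ₗ[ℂ] ((r1 Sg k).EG (r1 Sg k) j).V :=
  LinearMap.llcomp ℂ _ _ _ (prjC Sg i k j) ∘ₗ LinearMap.lcomp ℂ _ (sng Sg i k j)
variable {Sg i k} {J : Fin 2 → XL Sg Sg.F} {j p : ℕ}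
lemma mem_pc_pi {w : ((r2 Sg).G j).V} :
    w ∈ (r2 Sg).pc (piX J) j ↔ ∀ i, (w i).1 ∈ Gm (J i).toLat j := mem_Gm_piX
lemma sng_mem {w : ((r1 Sg k).G j).V} (h : w ∈ (r1 Sg k).pc (J i) j) :
    sng Sg i k j w ∈ (r2 Sg).pc (piX J) j := mem_pc_pi.2 fun i' => by
  change ((Pi.single i (w ()) : Fin 2 → SA Sg j) i').1 ∈ _
  by_cases e : i' = i
  · subst e; rw [Pi.single_eq_same]; exact h
  · rw [Pi.single_eq_of_ne e]; exact zero_mem _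
lemma prj_mem {w : ((r2 Sg).G j).V} (h : w ∈ (r2 Sg).pc (piX J) j) :
    prjC Sg i k j w ∈ (r1 Sg k).pc (J i) j := mem_pc_pi.1 h i
lemma mul_sng (m : ℕ) (t : ((r1 Sg k).G j).V ⊗[ℂ] SA Sg m) :
    (r2 Sg).mul j m (LinearMap.rTensor _ (sng Sg i k j) t) =
      sng Sg i k (m + j) ((r1 Sg k).mul j m t) := by
  induction t using TensorProduct.induction_on with
  | zero => simp only [map_zero]
  | add s t hs ht => simp only [map_add, hs, ht]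
  | tmul w a =>
    funext i'
    rw [LinearMap.rTensor_tmul, Amb.mul_tmul]
    change mulA Sg j m ((Pi.single i (w ()) : Fin 2 → SA Sg j) i') a =
      (Pi.single i (mulA Sg j m (w ()) a) : Fin 2 → SA Sg (m + j)) i'
    by_cases e : i' = i
    · subst e; rw [Pi.single_eq_same, Pi.single_eq_same]
    · rw [Pi.single_eq_of_ne e, Pi.single_eq_of_ne e, map_zero, LinearMap.zero_apply]
lemma mul_prj (m : ℕ) (t : ((r2 Sg).G j).V ⊗[ℂ] SA Sg m) :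
    (r1 Sg k).mul j m (LinearMap.rTensor _ (prjC Sg i k j) t) =
      prjC Sg i k (m + j) ((r2 Sg).mul j m t) := by
  induction t using TensorProduct.induction_on with
  | zero => simp only [map_zero]
  | add s t hs ht => simp only [map_add, hs, ht]
  | tmul w a => rfl
lemma blk_mem_stab {φ : ((r2 Sg).EG (r2 Sg) p).V}
    (h : φ ∈ (r2 Sg).stab (r2 Sg) (piX J) (piX J) p) :
    blk Sg i k p φ ∈ (r1 Sg k).stab (r1 Sg k) (J i) (J i) p :=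
  fun _ hw => prj_mem (h _ (sng_mem hw))
lemma blk_mem_Tv {φ : ((r2 Sg).EG (r2 Sg) p).V}
    (h : φ ∈ (r2 Sg).Tv (r2 Sg) (piX J) (piX J) p) :
    blk Sg i k p φ ∈ (r1 Sg k).Tv (r1 Sg k) (J i) (J i) p := by
  intro t ht
  rw [Amb.KK_eq_mul] at ht
  have h1 : LinearMap.rTensor _ (sng Sg i k p) t ∈ (r2 Sg).KK (piX J) p 3 := by
    rw [Amb.KK_eq_mul]
    refine ⟨?_, ?_⟩
    · have : tens ((r1 Sg k).pc (J i) p) (⊤ : Submodule ℂ (SA Sg 3)) ≤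
          (tens ((r2 Sg).pc (piX J) p) ⊤).comap (LinearMap.rTensor _ (sng Sg i k p)) :=
        tens_le.2 fun w hw a _ => tens_le.1 le_rfl _ (sng_mem hw) a Submodule.mem_top
      exact this ht.1
    · rw [SetLike.mem_coe, LinearMap.mem_ker, mul_sng, LinearMap.mem_ker.1 ht.2, map_zero]
  have h2 := prj_mem (i := i) (k := k) (h _ h1)
  rw [Amb.res_apply, ← mul_prj, ← LinearMap.rTensor_comp_apply, ← LinearMap.rTensor_comp_apply]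
    at h2
  exact h2
/-- maps of degree zero are block diagonal -/
lemma mem_stab_of_blk {φ : ((r2 Sg).EG (r2 Sg) p).V} (hφ : Deg0 _ _ φ) {κ : Fin 2 → ℤ}
    (h : ∀ i, blk Sg i (κ i) p φ ∈ (r1 Sg (κ i)).stab (r1 Sg (κ i)) (J i) (J i) p) :
    φ ∈ (r2 Sg).stab (r2 Sg) (piX J) (piX J) p := by
  intro w hw
  have e : w = ∑ i, sng Sg i (κ i) p (prjC Sg i (κ i) p w) := (Finset.univ_sum_single w).symm
  rw [e, map_sum]
  refine Submodule.sum_mem _ fun i _ => mem_pc_pi.2 fun i' => ?_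
  by_cases hi : i' = i
  · subst hi; exact h i' _ (prj_mem hw)
  · set v := sng Sg i (κ i) p (prjC Sg i (κ i) p w) with hv
    have h1 : ((r2 Sg).G p).g v = chi ((r2 Sg).wt i • eT) • v := funext fun a => by
      rw [Amb.g_apply, Pi.smul_apply]
      by_cases ha : a = i
      · rw [ha]
      · have : v a = 0 := Pi.single_eq_of_ne (M := fun _ : Fin 2 => SA Sg p) ha _
        rw [this, smul_zero, smul_zero]
    have h2 := congrFun (hφ v) i'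
    rw [h1, map_smul, Amb.g_apply, Pi.smul_apply] at h2
    rcases smul_canc (V := SA Sg p) h2 with h2 | h2
    · have := congrArg (fun d : D => d none) (chi_inj h2)
      simp only [eT, Finsupp.smul_apply, Finsupp.single_eq_same, smul_eq_mul, mul_one] at this
      exact absurd (Fin.ext (by exact_mod_cast this.symm)) hi
    · rw [h2]; exact zero_mem _
lemma mem_stab_of_blk' {φ φ' : ((r2 Sg).EG (r2 Sg) p).V} (hφ : Deg0 _ _ φ')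
    (h : φ - φ' ∈ (r2 Sg).stab (r2 Sg) (piX J) (piX J) p)
    (h0 : blk Sg 0 0 p φ ∈ (r1 Sg 0).stab (r1 Sg 0) (J 0) (J 0) p)
    (h1 : blk Sg 1 1 p φ ∈ (r1 Sg 1).stab (r1 Sg 1) (J 1) (J 1) p) :
    φ ∈ (r2 Sg).stab (r2 Sg) (piX J) (piX J) p := by
  have e : φ' = φ - (φ - φ') := (sub_sub_cancel _ _).symm
  have h4 : φ' ∈ (r2 Sg).stab (r2 Sg) (piX J) (piX J) p := by
    refine mem_stab_of_blk hφ (κ := ![0, 1]) (Fin.forall_fin_two.2 ⟨?_, ?_⟩)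
    · rw [e, map_sub]; exact sub_mem h0 (blk_mem_stab h)
    · rw [e, map_sub]; exact sub_mem h1 (blk_mem_stab h)
  have := add_mem h h4
  rwa [sub_add_cancel] at this
end blk

namespace Par
variable {P : Par (r2 Sg)} {β₁ β₂ : Sg.V.G} {n₁ n₂ : ℕ} {u : Uni Sg P.p β₁ β₂ n₁ n₂ 0 1 P.b}
theorem IsU.rk_chiK' (h : P.IsU u) {x : Pt} (hx : x ∈ u.F.pts) :
    K.rk (h.sub.2 hx) (chiK (r2 Sg) (r2 Sg) P.Qa P.p P.Lq P.Lq) =
      Ch.vdim Sg.V β₁ β₂ (n₁ + n₂ : ℕ) := by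
  have e0 : ∀ y ∈ u.F.pts, restr P.Qa.B y = y := fun y hy => P.Qa.restr_eq (h.sub.2 hy)
  have e : ∀ y ∈ u.F.pts, EqL (P.Lq (restr P.Qa.B y)) (piX ![u.I₁ y, u.I₂ y]) := fun y hy => by
    rw [e0 y hy]; exact h.eqv y hy
  have h1 := K.rk_pull' h.sub.proj hx (chiK (r2 Sg) (r2 Sg) P.Qa P.p P.Lq P.Lq)
  rw [LFam.pull_chiK lfam lfam (P.nb (Spc.Sub.refl _)) _ u.nb, chiK_congr e e,
    chiK_pair u.f₁.fam u.f₂.fam u.nb, map_add, map_add, map_add,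
    u.f₁.rk_chiK u.f₁ u.nb, u.f₂.rk_chiK u.f₂ u.nb, u.f₁.rk_chiK u.f₂ u.nb,
    u.f₂.rk_chiK u.f₁ u.nb, sub_self, sub_self, (pgq Sg).chi_zero] at h1
  have h2 : ∀ (y : Pt) (hy : y ∈ P.Qa.pts), y = x →
      K.rk hy (chiK (r2 Sg) (r2 Sg) P.Qa P.p P.Lq P.Lq) =
        K.rk (h.sub.2 hx) (chiK (r2 Sg) (r2 Sg) P.Qa P.p P.Lq P.Lq) := by
    rintro y hy rfl; rfl
  rw [← h2 _ (h.sub.proj.map x hx) (e0 x hx), ← h1, Ch.vdim]
  push_cast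
  ring

set_option maxHeartbeats 400000 in
theorem IsU.ht' (h : P.IsU u) {x : Pt} (hx : x ∈ u.F.pts) {T : Submodule ℂ Pt}
    (hT : T ≤ P.Γ.Y.Tan x ⊓ N265.V.fixS fun _ => u.w) (h0 : x ∈ T)
    (hδ : ∀ φ ∈ P.Γ.enOf x T, P.qv.δ φ ∈ P.qv.den ((r2 Sg).pcs P.p P.q (P.Lq x))) :
    finrank ℂ T ≤ u.dim := by
  have hQ := h.sub.2 hx
  have hy := P.Qa_sub.2 hQ
  obtain ⟨-, hr, hU⟩ := Lq_spec hQ
  have e := h.eqv x hx
  have hst : ∀ {φ : P.Γ.En.V}, φ ∈ P.Γ.stab x ↔ φ ∈ (r2 Sg).stabs P.p P.q (P.Lq x) := fun {φ} => by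
    refine forall₂_congr fun j _ => ?_
    change φ j ∈ homMap (P.Γ.U j x) (P.Γ.U j x) ↔ φ j ∈ homMap ((r2 Sg).pc _ _) ((r2 Sg).pc _ _)
    rw [hU j]
  let J : Fin 2 → XL Sg Sg.F := ![u.I₁ x, u.I₂ x]
  let π : P.Γ.En.V →ₗ[ℂ] ((r1 Sg 0).EG (r1 Sg 0) P.p).V × ((r1 Sg 1).EG (r1 Sg 1) P.p).V :=
    ((blk Sg 0 0 P.p).prod (blk Sg 1 1 P.p)) ∘ₗ
      LinearMap.proj (R := ℂ) (φ := fun j => ((P.Γ.G j).hom (P.Γ.G j)).V) (JJ.bot P.p P.q)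
  let A := ((r1 Sg 0).stab (r1 Sg 0) (J 0) (J 0) P.p).prod ((r1 Sg 1).stab (r1 Sg 1) (J 1) (J 1) P.p)
  let B := ((r1 Sg 0).Tv (r1 Sg 0) (J 0) (J 0) P.p).prod ((r1 Sg 1).Tv (r1 Sg 1) (J 1) (J 1) P.p)
  have h1 : (P.Γ.enOf x T).map π ⊔ A ≤ B := by
    refine sup_le ?_ (Submodule.prod_mono Amb.stab_le_Tv Amb.stab_le_Tv)
    rintro _ ⟨φ, hφ, rfl⟩
    have := Amb.mem_Tv_of_δ (Lq_le x) hr P.two P.five (hδ φ hφ)
    rw [Amb.Tv_congr e e] at this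
    exact ⟨blk_mem_Tv (J := J) this, blk_mem_Tv (J := J) this⟩
  have h2 : P.Γ.enOf x T ⊓ A.comap π ≤ P.Γ.stab x := by
    rintro φ ⟨hφ, hA⟩
    obtain ⟨φ', d0, hs⟩ := (GrD.mem_enOf_fix hy (w := fun _ => u.w) (u.tt x hx)).1
      (Submodule.comap_mono (Submodule.map_mono hT) hφ)
    have hs' := hst.1 hs
    have h3 : φ (JJ.bot _ _) - φ' (JJ.bot _ _) ∈ (r2 Sg).stab (r2 Sg) (piX J) (piX J) P.p := by
      rw [← Amb.stab_congr e e]; exact hs' (JJ.bot _ _) trivial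
    refine hst.2 (Amb.mem_stabs_of_δ (Lq_le x) hr P.two P.five (hδ φ hφ) ?_)
    rw [Amb.stab_congr e e]
    have d1 : Deg0 ((r2 Sg).G P.p) ((r2 Sg).G P.p) (φ' (JJ.bot P.p P.q)) := d0 (JJ.bot P.p P.q)
    have a0 : blk Sg 0 0 P.p (φ (JJ.bot P.p P.q)) ∈ (r1 Sg 0).stab (r1 Sg 0) (J 0) (J 0) P.p := hA.1
    have a1 : blk Sg 1 1 P.p (φ (JJ.bot P.p P.q)) ∈ (r1 Sg 1).stab (r1 Sg 1) (J 1) (J 1) P.p := hA.2
    exact mem_stab_of_blk' (J := J) d1 h3 a0 a1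
  have k1 := finrank_inf_comap_add (P.Γ.enOf x T) A π
  have k2 := Submodule.finrank_mono h1
  have k3 := Submodule.finrank_mono h2
  have k4 := GrD.finrank_enOf hy (hT.trans inf_le_left) h0
  have k5 := (u.f₁.ty x hx).finrank_Tv (k := 0) (u.f₁.le hx) P.two (u.f₁.fam.reg x hx)
  have k6 := (u.f₂.ty x hx).finrank_Tv (k := 1) (u.f₂.le hx) P.two (u.f₂.fam.reg x hx)
  have k7 : finrank ℂ A = finrank ℂ ((r1 Sg 0).stab (r1 Sg 0) (u.I₁ x) (u.I₁ x) P.p) +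
      finrank ℂ ((r1 Sg 1).stab (r1 Sg 1) (u.I₂ x) (u.I₂ x) P.p) := finrank_sprod _ _
  have k8 : finrank ℂ B = finrank ℂ ((r1 Sg 0).Tv (r1 Sg 0) (u.I₁ x) (u.I₁ x) P.p) +
      finrank ℂ ((r1 Sg 1).Tv (r1 Sg 1) (u.I₂ x) (u.I₂ x) P.p) := finrank_sprod _ _
  unfold Uni.dim
  omega
end Par

end Crest.Agent.N265.M
end
end

-- ▼ part N265/Q/Cone
section

/-! # Row 265, task Q-CONE: the cone, the level set of the virtual dimension, the tangent bound -/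

set_option autoImplicit false
set_option linter.dupNamespace false
noncomputable section
open MvPolynomial Module TensorProduct

namespace Crest.Agent.N265.M
open Crest.Agent.R274
open Defs_781 Lat_781 SnapA_99 SnapB_99 SnapE_99 Gen7_750 Xs1_781 SkDefs_474
open Alg GV Br N Fib _root_.Crest.Agent.N265.Pow
variable {Sg : Surf}

theorem _root_.Crest.Agent.N265.K.rk_pull {X Y : Spc} (q : Proj Y X) {y : Pt} (hy : y ∈ Y.pts)
    (u : K X) : K.rk hy (K.pull q u) = K.rk (q.map y hy) u := K.rk_pull' q hy u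

namespace Par
variable {𝔞 : Amb Sg} (P : Par 𝔞)
/-- the part of virtual dimension `vd`: level set of `finrank (E x)` (`IsAB.lc`, `Spc.level`),
`ACone.level`, `ACone.exists_cone`, `rk_kc` -/
theorem exists_cone (vd : ℤ) : ∃ (Q : Spc) (hQ : Q.Sub P.Qa) (r : ℕ) (E : Bun Q) (s : E.ι → R)
    (c : Cone P.Γ.Y Q E s), E.Rk r ∧
    (∀ x (hx : x ∈ P.Qa.pts), x ∈ Q.pts ↔ K.rk hx (chiK 𝔞 𝔞 P.Qa P.p P.Lq P.Lq) = vd) ∧
    ((Bun.tan P.Γ.Y _ GrD.vars _ GrD.sm).pull c.sub.proj).kl =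
      E.kl + 1 + chiK 𝔞 𝔞 Q P.p P.Lq P.Lq ∧
    ∀ x ∈ Q.pts, ∀ φ ∈ P.Γ.enOf x (P.Γ.Y.Tan x ⊓ LinearMap.ker (N265.V.dS x s)),
      P.qv.δ φ ∈ P.qv.den (𝔞.pcs P.p P.q (P.Lq x)) := P.exists_cone' vd
end Par

namespace Par
variable {P : Par (r2 Sg)} {β₁ β₂ : Sg.V.G} {n₁ n₂ : ℕ} {u : Uni Sg P.p β₁ β₂ n₁ n₂ 0 1 P.b}
/-- `pull_chiK`, `chiK_congr`, `chiK_pair`, `IFam.rk_chiK` -/
theorem IsU.rk_chiK (h : P.IsU u) {x : Pt} (hx : x ∈ u.F.pts) :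
    K.rk (h.sub.2 hx) (chiK (r2 Sg) (r2 Sg) P.Qa P.p P.Lq P.Lq) =
      Ch.vdim Sg.V β₁ β₂ (n₁ + n₂ : ℕ) := h.rk_chiK' hx
/-- **tangent bound.** `finrank_enOf`; for `φ ∈ enOf x T` write `φ = φ' + σ` with `φ'` of degree zero
and `σ ∈ stab` (`mem_enOf_fix`); the two diagonal blocks of `φ p` lie in `Tv I₁`, `Tv I₂`
(`mem_Tv_of_δ`), and if they lie in `stab I_i` then `φ ∈ stab` (`mem_stabs_of_δ`);
`Ty.finrank_Tv` -/
theorem IsU.ht (h : P.IsU u) {x : Pt} (hx : x ∈ u.F.pts) {T : Submodule ℂ Pt}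
    (hT : T ≤ P.Γ.Y.Tan x ⊓ N265.V.fixS fun _ => u.w) (h0 : x ∈ T)
    (hδ : ∀ φ ∈ P.Γ.enOf x T, P.qv.δ φ ∈ P.qv.den ((r2 Sg).pcs P.p P.q (P.Lq x))) :
    finrank ℂ T ≤ u.dim := h.ht' hx hT h0 hδ
end Par

end Crest.Agent.N265.M
end
end

-- ▼ part N265/Q/Bnd

/-! # Row 265, task Q-BND: numerics, finitely many levels -/

set_option autoImplicit false
set_option linter.dupNamespace false
noncomputable section
open MvPolynomial Module TensorProduct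

namespace Crest.Agent.N265.M
open Crest.Agent.R274
open Defs_781 Lat_781 SnapA_99 SnapB_99 SnapE_99 Gen7_750 Xs1_781 SkDefs_474
open Alg GV Br N Fib _root_.Crest.Agent.N265.Pow
variable {Sg : Surf} (C : Ch.Choice Sg.V)

/-- degree of the quotients -/
def dQ : ℕ := (2 * Ch.dg Sg.V C.b0).toNat
/-- constant term of the Hilbert polynomial of the quotients -/
def cQ (l : ℕ) : ℤ := 4 - l - 2 * Sg.V.chi (-C.b0)
/-- `chi_tw`, `dg_nonneg`, `PgQ.chi_zero` -/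
theorem hp_eq (l : ℕ) (e : ℤ) : C.hp l e = HP Sg 2 (dQ C) (cQ C l) e := by
  have h := Ch.dg_nonneg C.hasSec
  rw [Ch.Choice.hp, HP, dQ, cQ, Int.toNat_of_nonneg (by omega), Ch.chi_tw, Ch.dg_neg,
    (pgq Sg).chi_zero]
  push_cast
  ring
theorem fit_iff {l : ℕ} {P : Par (r2 Sg)} (hd : P.d = dQ C) (hc : P.c = cQ C l) {β₁ β₂ : Sg.V.G}
    {n₁ n₂ : ℕ} : P.Fit β₁ β₂ n₁ n₂ ↔ C.Hilb β₁ β₂ (n₁ + n₂ : ℕ) l := by
  refine forall_congr' fun e => ?_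
  have h : P.hp e = C.hp l e := by
    rw [hp_eq, ← hd, ← hc]
    rfl
  rw [h, Nat.cast_add]
  constructor <;> intro h <;> linarith
/-- `l ≤ nTop β₁ β₂`; a pair of ideals of types `(β₁, nTop)`, `(β₂, 0)` has the Hilbert polynomial
of level `0`, so it is `m₀`-regular (`exists_par`, `regL_pair`); `finite_classes` -/
theorem exists_lmax : ∃ m : ℕ, ∀ {l β₁ β₂ n₁ n₂}, OK C l β₁ β₂ n₁ n₂ → l ≤ m := by
  obtain ⟨m₀, hm, -⟩ := exists_par Sg (dQ C) (cQ C 0)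
  obtain ⟨T, hT⟩ := finite_classes Sg m₀
  refine ⟨(T ×ˢ T).sup fun γ => (C.nTop γ.1 γ.2).toNat, fun {l β₁ β₂ n₁ n₂} h => ?_⟩
  obtain ⟨h1, h2⟩ := C.hilb_iff.1 h.hilb
  obtain ⟨I₁, le₁, t₁⟩ := exists_of_hasSec h.s₁ (n₁ + n₂ + l)
  obtain ⟨I₂, le₂, t₂⟩ := exists_of_hasSec h.s₂ 0
  have h3 : C.Hilb β₁ β₂ (n₁ + n₂ + l : ℕ) (0 : ℕ) := C.hilb_iff.2 ⟨h1, by omega⟩
  obtain ⟨r₁, r₂⟩ := regL_pair.1 (hm _ (pair_le.2 ⟨le₁, le₂⟩) (funext fun e => by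
    rw [cL_pair, t₁.cL, t₂.cL, ← hp_eq, ← h3 e]
    push_cast
    ring))
  obtain ⟨γ₁, m₁, e₁⟩ := hT _ _ _ t₁ le₁ r₁
  obtain ⟨γ₂, m₂, e₂⟩ := hT _ _ _ t₂ le₂ r₂
  refine le_trans ?_ (Finset.le_sup (f := fun γ : Sg.V.G × Sg.V.G => (C.nTop γ.1 γ.2).toNat)
    (Finset.mk_mem_product m₁ m₂))
  have h4 : C.nTop γ₁ γ₂ = C.nTop β₁ β₂ := by
    rw [Ch.Choice.nTop, Ch.Choice.nTop, e₁.neg.chi, e₂.neg.chi]
  change l ≤ (C.nTop γ₁ γ₂).toNat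
  omega
theorem _root_.Crest.Agent.N265.K.subsingleton_empty (B : Finset ℕ) :
    Subsingleton (K (Spc.empty B)) := by
  refine subsingleton_of_forall_eq 0 fun a => ?_
  obtain ⟨A, A', rfl⟩ := K.exists_sub a
  have h : ∀ x, x ∉ (Spc.empty B).pts := fun _ => id
  rw [A.kl_eq_kc, A'.kl_eq_kc, kc_of_bot fun x hx => (h x hx).elim,
    kc_of_bot fun x hx => (h x hx).elim, sub_self]
/-- levels without fixed types: take the empty space -/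
theorem QL_of_empty {p l b : ℕ} (hp : 2 ≤ p) (h : ∀ β₁ β₂ n₁ n₂, ¬ OK C l β₁ β₂ n₁ n₂) :
    Nonempty (QL C p l b) :=
  ⟨{ Y := Spc.empty {b}, Q := Spc.empty {b}, n := 0, r := 0, V := ∅
     hY := fun _ hx => hx.elim
     hV := ⟨fun _ hx => (Finset.notMem_empty _ hx).elim, fun _ hx => hx.elim⟩
     E := Bun.zero _
     hE := fun _ hx => hx.elim
     s := fun i => i.elim
     cone := ⟨⟨rfl, subset_rfl⟩, fun i => i.elim, fun _ hx => hx.elim, fun _ hx => hx.elim⟩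
     B := rfl
     L := fun _ => (r2 Sg).O
     fam := ⟨hp, fun _ hx => hx.elim, fun _ hx => hx.elim, ⟨0, 0, fun _ hx => hx.elim⟩, fun j _ =>
       (IsAB.bot ((r2 Sg).in_G j _)).congr fun _ hx => hx.elim⟩
     tv := (K.subsingleton_empty _).elim _ _
     U := fun o => (h _ _ _ _ o).elim
     sub := fun o => (h _ _ _ _ o).elim
     eqv := fun o => (h _ _ _ _ o).elim
     mem := fun o => (h _ _ _ _ o).elim
     cover := fun _ hx => hx.elim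
     ht := fun o => (h _ _ _ _ o).elim }⟩

end Crest.Agent.N265.M
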