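import Crest.Agent.N265.K.AB4
import Crest.Agent.N265.V.Defs
import Crest.Agent.N265.Q.Plk

-- ▼ part N265/Q/Gr0
section

/-! # Task Q-GR (part 0): the graded Grassmannian, points and tautological bundles -/

set_option autoImplicit false
noncomputable section
open MvPolynomial TensorProduct Module

namespace Crest.Agent.N265
open Alg _root_.Crest.Agent.N265.Pow GV Bun

theorem exists_lamD (k : ℕ) (M : Type) [AddCommGroup M] [Module ℂ M] :
    ∃ Dr : (M →ₗ[ℂ] M) →ₗ[ℂ] Pow.Lam k M →ₗ[ℂ] Pow.Lam k M, ∀ (φ : M →ₗ[ℂ] M) (v : Fin k → M),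
      Dr φ (exteriorPower.ιMulti ℂ k v) =
        ∑ i, exteriorPower.ιMulti ℂ k (Function.update v i (φ (v i))) :=
  ⟨Plk.dE k, Plk.dE_ιMulti⟩
/-- the derivation of `Λ^k M` induced by an endomorphism -/
def lamD (k : ℕ) (M : Type) [AddCommGroup M] [Module ℂ M] :
    (M →ₗ[ℂ] M) →ₗ[ℂ] Pow.Lam k M →ₗ[ℂ] Pow.Lam k M := (exists_lamD k M).choose
lemma lamD_eq (k : ℕ) (M : Type) [AddCommGroup M] [Module ℂ M] : lamD k M = Plk.dE k :=
  LinearMap.ext fun φ => LinearMap.ext_on_range (span_ιMulti k) fun v => by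
    rw [Plk.dE_ιMulti]; exact (exists_lamD k M).choose_spec φ v

lemma finrank_sub_pi {ι : Type} [Fintype ι] {M : ι → Type} [∀ i, AddCommGroup (M i)]
    [∀ i, Module ℂ (M i)] [∀ i, FiniteDimensional ℂ (M i)] (U : ∀ i, Submodule ℂ (M i)) :
    finrank ℂ (Submodule.pi Set.univ U) = ∑ i, finrank ℂ (U i) := by
  rw [← Module.finrank_pi_fintype]
  exact LinearEquiv.finrank_eq
    { toFun := fun v i => ⟨v.1 i, v.2 i trivial⟩
      invFun := fun u => ⟨fun i => u i, fun i _ => (u i).2⟩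
      map_add' := fun _ _ => rfl
      map_smul' := fun _ _ => rfl
      left_inv := fun _ => rfl
      right_inv := fun _ => rfl }
lemma finrank_homMap {M N : Type} [AddCommGroup M] [Module ℂ M] [FiniteDimensional ℂ M]
    [AddCommGroup N] [Module ℂ N] [FiniteDimensional ℂ N] (P : Submodule ℂ M) (Q : Submodule ℂ N) :
    finrank ℂ (homMap P Q) + finrank ℂ P * (finrank ℂ N - finrank ℂ Q) =
      finrank ℂ (M →ₗ[ℂ] N) := by
  have h1 : LinearMap.ker (homM P.subtype Q.mkQ) = homMap P Q := by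
    ext f
    simp [mem_homMap, LinearMap.ext_iff]
  have h2 : LinearMap.range (homM P.subtype Q.mkQ) = ⊤ := LinearMap.range_eq_top.2 fun h => by
    obtain ⟨r, hr⟩ := P.subtype.exists_leftInverse_of_injective P.ker_subtype
    obtain ⟨s, hs⟩ := Q.mkQ.exists_rightInverse_of_surjective Q.range_mkQ
    refine ⟨s ∘ₗ h ∘ₗ r, LinearMap.ext fun v => ?_⟩
    have h3 : r v = v := LinearMap.congr_fun hr v
    have h4 : Q.mkQ (s (h v)) = h v := LinearMap.congr_fun hs (h v)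
    exact (congrArg (fun t => Q.mkQ (s (h t))) h3).trans h4
  rw [← (homM P.subtype Q.mkQ).finrank_range_add_finrank_ker, h1, h2, finrank_top,
    Module.finrank_linearMap, add_comm, ← Q.finrank_quotient_add_finrank, Nat.add_sub_cancel]
lemma Blk.vec_gpt {V : GV} (β : Blk V) (b : ℕ) (x : Pt) :
    β.vec b (gpt x) = chi (eB b) • V.g (β.vec b x) := by
  change ∑ i, gpt x (β.var b i) • β.e i = chi (eB b) • V.g (∑ i, x (β.var b i) • β.e i)
  rw [map_sum, Finset.smul_sum]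
  refine Finset.sum_congr rfl fun i _ => ?_
  rw [map_smul, β.he, smul_smul, smul_smul]
  congr 1
  simp only [gpt, vdeg, Blk.var, chi_add]
  ring
lemma Blk.Supp.exists {V : GV} {β : Blk V} {b : ℕ} {x : Pt} (h : β.Supp b x) {v : Var}
    (hv : x v ≠ 0) : ∃ i, v = β.var b i := by
  by_contra! hc
  exact hv (h v hc)
lemma Blk.exists_ne {V : GV} {β : Blk V} {b : ℕ} {x : Pt} (h : β.vec b x ≠ 0) :
    ∃ i, x (β.var b i) ≠ 0 := by
  by_contra! hc
  exact h (β.e.repr.injective (Finsupp.ext fun i => by rw [β.repr_vec, hc, map_zero]; rfl))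
lemma Blk.Supp.mem_full {V : GV} {β : Blk V} {b : ℕ} {x : Pt} (h : β.Supp b x)
    (h0 : β.vec b x ≠ 0) : x ∈ (Spc.full {b} (β.vars b)).pts := by
  refine ⟨fun c hc => ?_, fun v hv => ?_⟩
  · obtain ⟨i, hi⟩ := Blk.exists_ne h0
    exact ⟨_, (Finset.mem_singleton.1 hc).symm, hi⟩
  · obtain ⟨i, rfl⟩ := h.exists hv
    exact ⟨Finset.mem_image_of_mem _ (Finset.mem_univ i), Finset.mem_singleton_self b⟩
lemma Blk.Supp.vec_ne {V : GV} {β : Blk V} {b : ℕ} {x : Pt} (h : β.Supp b x) (hx : Rel {b} x) :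
    β.vec b x ≠ 0 := fun h0 => by
  obtain ⟨v, -, hv⟩ := hx b (Finset.mem_singleton_self b)
  obtain ⟨i, rfl⟩ := h.exists hv
  exact hv (by rw [← β.repr_vec b x i, h0, map_zero]; rfl)
lemma Blk.Supp.smul {V : GV} {β : Blk V} {b : ℕ} {x : Pt} (h : β.Supp b x) (c : ℂ) :
    β.Supp b (c • x) := fun v hv => by rw [Pi.smul_apply, h v hv, smul_zero]

/-- data of a graded Grassmannian: pieces `G j`, dimensions `k j`, block `b` -/
structure GrD where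
  J : Type
  [fin : Fintype J]
  [dec : DecidableEq J]
  G : J → GV
  hG : ∀ j, (G j).In ∅
  k : J → ℕ
  b : ℕ
attribute [instance] GrD.fin GrD.dec

namespace GrD
variable (Γ : GrD)
/-- total dimension -/
def K : ℕ := ∑ j, Γ.k j
/-- total space -/
abbrev W : GV := GV.pi Γ.G
/-- Plücker space -/
abbrev Λ : GV := lam Γ.K Γ.W
/-- an eigenbasis of the Plücker space -/
def β : Blk Γ.Λ := (((in_pi Γ.hG).lam Γ.K).exists_blk).some
/-- the Plücker vector of a point -/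
def vec : Pt →ₗ[ℂ] Γ.Λ.V := Γ.β.vec Γ.b
/-- the subspace `{w | w ∧ vec y = 0}` -/
def Ut (y : Pt) : Submodule ℂ Γ.W.V :=
  LinearMap.ker ((LinearMap.mulRight ℂ (Γ.vec y : ExteriorAlgebra ℂ Γ.W.V)) ∘ₗ ExteriorAlgebra.ι ℂ)
/-- the tautological subspaces -/
def U (j : Γ.J) (y : Pt) : Submodule ℂ (Γ.G j).V :=
  (Γ.Ut y).comap (LinearMap.single ℂ (fun j => (Γ.G j).V) j)
lemma Ut_def (y : Pt) : Γ.Ut y = Plk.ann (Γ.vec y : ExteriorAlgebra ℂ Γ.W.V) := rfl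
/-- `w ↦ w ∧ η` on the piece `j` -/
def wj (j : Γ.J) : Γ.Λ.V →ₗ[ℂ] (Γ.G j).V →ₗ[ℂ] (lam (Γ.K + 1) Γ.W).V :=
  (Plk.wg Γ.K).compl₂ (LinearMap.single ℂ (fun j => (Γ.G j).V) j)
lemma wj_apply (j : Γ.J) (η : Γ.Λ.V) (v : (Γ.G j).V) :
    Γ.wj j η v = Plk.wg Γ.K η (Pi.single j v) := rfl
lemma ker_wj (j : Γ.J) (y : Pt) : LinearMap.ker (Γ.wj j (Γ.vec y)) = Γ.U j y :=
  Submodule.ext fun _ => Plk.wg_eq_zero
lemma single_g (j : Γ.J) (v : (Γ.G j).V) : Γ.W.g (Pi.single j v) = Pi.single j ((Γ.G j).g v) := by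
  funext i
  by_cases h : i = j
  · subst h; simp
  · simp [h]
lemma isRM_wj (X : Spc) (j : Γ.J) :
    IsRM X (Γ.G j) ((lam (Γ.K + 1) Γ.W).shift (eB Γ.b)) fun y => Γ.wj j (Γ.vec y) :=
  IsRM.of_bilin (W := (lam (Γ.K + 1) Γ.W).shift (eB Γ.b)) (Γ.β.isRV_vec Γ.b) (Γ.wj j) fun u v => by
    rw [shift_g, shift_g, map_smul, LinearMap.smul_apply, wj_apply, ← single_g]
    exact congrArg _ (Plk.wg_lamM Γ.K Γ.W.g.toLinearMap u _)
lemma pi_le_Ut (y : Pt) : (Submodule.pi Set.univ fun j => Γ.U j y) ≤ Γ.Ut y := fun w hw => by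
  rw [← Finset.univ_sum_single w]
  exact Submodule.sum_mem _ fun j _ => hw j trivial
lemma U_eq_of {y : Pt} {U : ∀ j, Submodule ℂ (Γ.G j).V} (hU : ∀ j, finrank ℂ (U j) = Γ.k j)
    (h0 : Γ.vec y ≠ 0) (h : Γ.vec y ∈ lamS Γ.K (Submodule.pi Set.univ U)) :
    Γ.Ut y = Submodule.pi Set.univ U ∧ ∀ j, Γ.U j y = U j := by
  have e : Γ.Ut y = Submodule.pi Set.univ U :=
    Plk.ann_eq (by rw [finrank_sub_pi]; exact Finset.sum_congr rfl fun j _ => hU j) h h0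
  refine ⟨e, fun j => Submodule.ext fun v => ?_⟩
  rw [GrD.U, e, Submodule.mem_comap, Submodule.mem_pi]
  refine ⟨fun H => by simpa using H j trivial, fun H i _ => ?_⟩
  by_cases hi : i = j
  · subst hi; simpa using H
  · simp [hi]
lemma of_le {y : Pt} (h0 : Γ.vec y ≠ 0) (h : ∀ j, Γ.k j ≤ finrank ℂ (Γ.U j y)) :
    (∀ j, finrank ℂ (Γ.U j y) = Γ.k j) ∧
      Γ.vec y ∈ lamS Γ.K (Submodule.pi Set.univ fun j => Γ.U j y) := by
  have h1 := Plk.finrank_le_of_le_ann h0 (Γ.pi_le_Ut y)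
  rw [finrank_sub_pi] at h1
  have h2 := (Finset.sum_eq_sum_iff_of_le fun j _ => h j).1
    (le_antisymm (Finset.sum_le_sum fun j _ => h j) h1)
  refine ⟨fun j => (h2 j (Finset.mem_univ j)).symm, Plk.mem_lamS_of_le ?_ (Γ.pi_le_Ut y)⟩
  rw [finrank_sub_pi]
  exact Finset.sum_congr rfl fun j hj => (h2 j hj).symm
/-- the graded Grassmannian -/
def Y : Spc where
  B := {Γ.b}
  pts := {y | Γ.β.Supp Γ.b y ∧ Γ.vec y ≠ 0 ∧ ∃ U : ∀ j, Submodule ℂ (Γ.G j).V,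
    (∀ j, finrank ℂ (U j) = Γ.k j) ∧ Γ.vec y ∈ lamS Γ.K (Submodule.pi Set.univ U)}
  fin := ⟨Γ.β.vars Γ.b, fun v hv => by
      obtain ⟨i, -, rfl⟩ := Finset.mem_image.1 hv
      exact Finset.mem_singleton_self _,
    fun x hx v hv => hx.1 v fun i e => hv (e ▸ Finset.mem_image_of_mem _ (Finset.mem_univ i))⟩
  rel := fun x hx => (hx.1.mem_full hx.2.1).1
  closed := fun x hx h => by
    have hs : Γ.β.Supp Γ.b x := fun v hv => by
      simpa using h (X v) fun y hy => by simpa using hy.1 v hv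
    have h0 := hs.vec_ne hx
    refine ⟨hs, h0, _, Γ.of_le h0 fun j => ?_⟩
    obtain ⟨r, h1, h2⟩ := (cogA_ker (φ := fun y => Γ.wj j (Γ.vec y))
      (Γ.isRM_wj _ j).reg).usc x (hs.mem_full h0)
    by_contra! hc
    refine h1 (h r fun y hy => by_contra fun h3 => ?_)
    obtain ⟨U, hU, hy'⟩ := hy.2.2
    have h4 := h2 y (hy.1.mem_full hy.2.1) h3
    beta_reduce at h4
    rw [Γ.ker_wj j y, Γ.ker_wj j x, (Γ.U_eq_of hU hy.2.1 hy').2 j, hU j] at h4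
    omega
  inv := by
    rintro x ⟨hs, h0, U, hU, h⟩
    refine ⟨fun v hv => by simp [gpt, hs v hv], ?_, fun j => (U j).map (Γ.G j).g.toLinearMap,
      fun j => by rw [LinearEquiv.finrank_map_eq, hU], ?_⟩
    · rw [vec, Γ.β.vec_gpt]
      exact smul_ne_zero (chi_ne _) (by rwa [Ne, LinearEquiv.map_eq_zero_iff])
    · rw [vec, Γ.β.vec_gpt]
      refine Submodule.smul_mem _ _ (lamM_mem Γ.K (φ := Γ.W.g.toLinearMap) ?_ h)
      exact fun w hw j _ => Submodule.mem_map_of_mem (hw j trivial)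
/-- dimension of the cone -/
def dim : ℕ := 1 + ∑ j, Γ.k j * (finrank ℂ (Γ.G j).V - Γ.k j)
/-- graded endomorphisms -/
abbrev En : GV := GV.pi fun j => (Γ.G j).hom (Γ.G j)
/-- graded endomorphisms preserving `U` -/
def stab (y : Pt) : Submodule ℂ Γ.En.V := Submodule.pi Set.univ fun j => homMap (Γ.U j y) (Γ.U j y)
/-- graded endomorphisms as endomorphisms of the total space -/
def pm : Γ.En.V →ₗ[ℂ] Γ.W.V →ₗ[ℂ] Γ.W.V where
  toFun φ := LinearMap.pi fun j => φ j ∘ₗ LinearMap.proj j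
  map_add' _ _ := rfl
  map_smul' _ _ := rfl
@[simp] lemma pm_apply (φ : Γ.En.V) (w : Γ.W.V) (j : Γ.J) : Γ.pm φ w j = φ j (w j) := rfl
/-- the infinitesimal action -/
def ks (y : Pt) : Γ.En.V →ₗ[ℂ] Γ.Λ.V where
  toFun φ := lamD Γ.K Γ.W.V (LinearMap.pi fun j => φ j ∘ₗ LinearMap.proj j) (Γ.vec y)
  map_add' φ ψ := by
    change lamD Γ.K Γ.W.V (Γ.pm (φ + ψ)) _ = _
    rw [map_add, map_add]; rfl
  map_smul' c φ := by
    change lamD Γ.K Γ.W.V (Γ.pm (c • φ)) _ = _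
    rw [map_smul, map_smul]; rfl
lemma ks_apply (y : Pt) (φ : Γ.En.V) : Γ.ks y φ = Plk.dE Γ.K (Γ.pm φ) (Γ.vec y) := by
  rw [← lamD_eq]; rfl
/-- the endomorphisms that move `y` in a direction of `T` -/
def enOf (y : Pt) (T : Submodule ℂ Pt) : Submodule ℂ Γ.En.V := (T.map Γ.vec).comap (Γ.ks y)

variable {Γ} {y y' ξ : Pt}
lemma supp (hy : y ∈ Γ.Y.pts) : Γ.β.Supp Γ.b y := hy.1
lemma vec_ne (hy : y ∈ Γ.Y.pts) : Γ.vec y ≠ 0 := hy.2.1
lemma b_mem : Γ.b ∈ Γ.Y.B := Finset.mem_singleton_self _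
lemma vars : Γ.Y.Vars (Γ.β.vars Γ.b) := Γ.β.spc_vars (Finset.mem_singleton_self _) fun _ h => h.1
lemma finrank_U (hy : y ∈ Γ.Y.pts) (j : Γ.J) : finrank ℂ (Γ.U j y) = Γ.k j := by
  obtain ⟨-, h0, U, hU, h⟩ := hy
  rw [(Γ.U_eq_of hU h0 h).2, hU]
lemma Ut_eq (hy : y ∈ Γ.Y.pts) : Γ.Ut y = Submodule.pi Set.univ fun j => Γ.U j y := by
  obtain ⟨-, h0, U, hU, h⟩ := hy
  simp only [(Γ.U_eq_of hU h0 h).1, (Γ.U_eq_of hU h0 h).2]
lemma finrank_Ut (hy : y ∈ Γ.Y.pts) : finrank ℂ (Γ.Ut y) = Γ.K := by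
  rw [Ut_eq hy, finrank_sub_pi]; exact Finset.sum_congr rfl fun j _ => finrank_U hy j
lemma vec_mem (hy : y ∈ Γ.Y.pts) : Γ.vec y ∈ lamS Γ.K (Γ.Ut y) := Plk.mem_lamS_ann (finrank_Ut hy)
lemma mem_of {U : ∀ j, Submodule ℂ (Γ.G j).V} (hU : ∀ j, finrank ℂ (U j) = Γ.k j)
    (hs : Γ.β.Supp Γ.b y) (h0 : Γ.vec y ≠ 0)
    (h : Γ.vec y ∈ lamS Γ.K (Submodule.pi Set.univ U)) : y ∈ Γ.Y.pts ∧ ∀ j, Γ.U j y = U j :=
  ⟨⟨hs, h0, U, hU, h⟩, (Γ.U_eq_of hU h0 h).2⟩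
lemma vec_pt (v : Γ.Λ.V) : Γ.vec (Γ.β.pt Γ.b v) = v := Γ.β.vec_pt _ v
theorem exists_pt (U : ∀ j, Submodule ℂ (Γ.G j).V) (hU : ∀ j, finrank ℂ (U j) = Γ.k j) :
    ∃ y ∈ Γ.Y.pts, ∀ j, Γ.U j y = U j := by
  obtain ⟨v, hv, h0⟩ := Plk.exists_plk (U := Submodule.pi Set.univ U) (k := Γ.K)
    (by rw [finrank_sub_pi]; exact Finset.sum_congr rfl fun j _ => hU j)
  exact ⟨_, mem_of hU (Γ.β.supp_pt Γ.b v) (by rwa [vec_pt]) (by rwa [vec_pt])⟩
theorem uniq (hy : y ∈ Γ.Y.pts) (hy' : y' ∈ Γ.Y.pts) (h : ∀ j, Γ.U j y = Γ.U j y') :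
    ∃ c : ℂ, c ≠ 0 ∧ y' = c • y := by
  have h1 := vec_mem hy'
  rw [Ut_eq hy', ← funext h, ← Ut_eq hy,
    Plk.lamS_eq_span_plk (finrank_Ut hy) (vec_mem hy) (vec_ne hy)] at h1
  obtain ⟨c, hc⟩ := Submodule.mem_span_singleton.1 h1
  refine ⟨c, fun e => vec_ne hy' (by rw [← hc, e, zero_smul]),
    Γ.β.vec_inj (supp hy') ((supp hy).smul c) ?_⟩
  rw [map_smul]; exact hc.symm
lemma U_smul {c : ℂ} (hc : c ≠ 0) (j : Γ.J) (y : Pt) : Γ.U j (c • y) = Γ.U j y := by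
  rw [U, U, Ut_def, Ut_def, map_smul, Submodule.coe_smul, Plk.ann_smul hc]
lemma vec_restr {B : Finset ℕ} (hb : Γ.b ∈ B) (y : Pt) : Γ.vec (restr B y) = Γ.vec y :=
  Γ.β.vec_restr hb y
lemma U_restr {B : Finset ℕ} (hb : Γ.b ∈ B) (j : Γ.J) (y : Pt) : Γ.U j (restr B y) = Γ.U j y := by
  rw [U, U, Ut_def, Ut_def, vec_restr hb]
theorem isAB_U (j : Γ.J) : IsAB Γ.Y (Γ.G j) (Γ.U j) :=
  ⟨(Γ.hG j).mono (Finset.empty_subset _),
    ((cogA_ker (Γ.isRM_wj _ j).reg).congr fun x _ => Γ.ker_wj j x).alg_of_rk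
      fun _ hx => finrank_U hx j,
    (Eqv.ker (Γ.isRM_wj _ j)).congr fun x _ => Γ.ker_wj j x⟩
theorem isAB_stab : IsAB Γ.Y Γ.En Γ.stab := IsAB.pi fun j => (isAB_U j).homMap (isAB_U j)
lemma pm_g (φ : Γ.En.V) (w : Γ.W.V) : Γ.pm (Γ.En.g φ) (Γ.W.g w) = Γ.W.g (Γ.pm φ w) := by
  funext j
  change (Γ.G j).g (φ j ((Γ.G j).g.symm ((Γ.G j).g (w j)))) = (Γ.G j).g (φ j (w j))
  rw [LinearEquiv.symm_apply_apply]
lemma dE_g (φ : Γ.En.V) (η : Γ.Λ.V) :
    Plk.dE Γ.K (Γ.pm (Γ.En.g φ)) (Γ.Λ.g η) = Γ.Λ.g (Plk.dE Γ.K (Γ.pm φ) η) :=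
  Plk.dE_lamM Γ.W.g.toLinearMap (pm_g φ) η
theorem isRM_ks (X : Spc) : IsRM X Γ.En (Γ.Λ.shift (eB Γ.b)) Γ.ks :=
  (IsRM.of_bilin (V := Γ.En) (W := Γ.Λ.shift (eB Γ.b)) (Γ.β.isRV_vec Γ.b)
    (Plk.dE Γ.K ∘ₗ Γ.pm).flip fun u v => by
      rw [shift_g, shift_g, map_smul]
      exact congrArg (chi (eB Γ.b) • ·) (dE_g v u)).congr
    fun x _ => LinearMap.ext fun φ => (Γ.ks_apply x φ).symm
lemma mem_stab {φ : Γ.En.V} : φ ∈ Γ.stab y ↔ ∀ j, ∀ v ∈ Γ.U j y, φ j v ∈ Γ.U j y :=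
  ⟨fun h j => h j trivial, fun h j _ => h j⟩
lemma pm_single (φ : Γ.En.V) (j : Γ.J) (v : (Γ.G j).V) :
    Γ.pm φ (Pi.single j v) = Pi.single j (φ j v) := by
  funext i
  rw [pm_apply]
  by_cases h : i = j
  · subst h; simp
  · simp [h]
theorem ks_mem_span (hy : y ∈ Γ.Y.pts) {φ : Γ.En.V} :
    Γ.ks y φ ∈ Submodule.span ℂ {Γ.vec y} ↔ φ ∈ Γ.stab y := by
  rw [ks_apply, Plk.dE_mem_span_iff (finrank_Ut hy) (vec_ne hy), mem_stab, ← Ut_def]
  refine ⟨fun h j v hv => ?_, fun h u hu => ?_⟩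
  · have := h _ hv
    rwa [LinearMap.coe_single, pm_single] at this
  · rw [Ut_eq hy] at hu ⊢
    exact fun j _ => h j _ (hu j trivial)
lemma finrank_stab (hy : y ∈ Γ.Y.pts) :
    finrank ℂ (Γ.stab y) + Γ.dim = 1 + finrank ℂ Γ.En.V := by
  rw [stab, finrank_sub_pi, dim, Module.finrank_pi_fintype, add_left_comm,
    ← Finset.sum_add_distrib]
  refine congrArg _ (Finset.sum_congr rfl fun j _ => ?_)
  rw [← finrank_homMap (Γ.U j y) (Γ.U j y), finrank_U hy]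
end GrD

end Crest.Agent.N265
end
end

-- ▼ part N265/Q/Gr1

/-! # Task Q-GR (part 1): polynomial parametrisations; the tangent spaces of the Grassmannian -/

set_option autoImplicit false
noncomputable section
open MvPolynomial TensorProduct Module

namespace Crest.Agent.N265
open Alg _root_.Crest.Agent.N265.Pow GV Bun

section param
variable {σ : Type}
/-- polynomials as functions -/
def evA (σ : Type) : MvPolynomial σ ℂ →ₐ[ℂ] ((σ → ℂ) → ℂ) := AlgHom.pi fun t => aeval t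
/-- polynomial functions on an affine space -/
def polyFn (σ : Type) : Subalgebra ℂ ((σ → ℂ) → ℂ) := (evA σ).range
lemma exists_pdel (s : σ) : ∃ δ : ((σ → ℂ) → ℂ) →ₗ[ℂ] ℂ,
    ∀ p, δ (fun t => eval t p) = eval 0 (pderiv s p) := by
  obtain ⟨g, hg⟩ := (evA σ).toLinearMap.exists_leftInverse_of_injective
    (LinearMap.ker_eq_bot.2 fun p q h => MvPolynomial.funext (congrFun h))
  refine ⟨(aeval (0 : σ → ℂ)).toLinearMap ∘ₗ (pderiv s).toLinearMap ∘ₗ g, fun p => ?_⟩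
  have : g (fun t => eval t p) = p := LinearMap.congr_fun hg p
  rw [LinearMap.comp_apply, LinearMap.comp_apply, this]; rfl
/-- the partial derivative at the origin -/
def pdel (s : σ) : ((σ → ℂ) → ℂ) →ₗ[ℂ] ℂ := (exists_pdel s).choose
lemma pdel_eval (s : σ) (p : MvPolynomial σ ℂ) :
    pdel s (fun t => eval t p) = eval 0 (pderiv s p) := (exists_pdel s).choose_spec p
lemma pder_pdel (s : σ) : PDer (polyFn σ) 0 (pdel s) := by
  rintro _ ⟨p, rfl⟩ _ ⟨q, rfl⟩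
  have := pdel_eval s (p * q)
  simp only [map_mul, Derivation.leibniz, smul_eq_mul, map_add, ← pdel_eval] at this
  exact this
lemma regV_id [Finite σ] : RegV (polyFn σ) fun t => t :=
  regV_pi.2 fun i => ⟨X i, funext fun _ => eval_X i⟩
lemma dV_id [Finite σ] [DecidableEq σ] (s : σ) : dV (pdel s) (fun t => t) = Pi.single s 1 := by
  funext i
  have h1 := dV_spec (pdel s) (fun t => t) (LinearMap.proj i)
  have h2 := pdel_eval s (X i)
  simp only [eval_X, pderiv_X] at h2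
  rw [LinearMap.proj_apply] at h1
  rw [h1]
  refine h2.trans ?_
  by_cases h : i = s <;> simp [h]
lemma sub_mem_sq [Fintype σ] (p : MvPolynomial σ ℂ) :
    p - C (eval 0 p) - ∑ s, C (eval 0 (pderiv s p)) * X s ∈
      (RingHom.ker (eval (0 : σ → ℂ))) ^ 2 := by
  classical
  induction p using MvPolynomial.induction_on with
  | C c => simp
  | add p q hp hq =>
    convert add_mem hp hq using 1
    simp only [map_add, add_mul, Finset.sum_add_distrib]; ring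
  | mul_X p i _ =>
    have : p * X i - C (eval 0 (p * X i)) - ∑ s, C (eval 0 (pderiv s (p * X i))) * X s =
        (p - C (eval 0 p)) * X i := by
      rw [Finset.sum_eq_single i (fun s _ h => by simp [pderiv_X, h.symm]) (by simp)]
      simp [sub_mul]
    rw [this, sq]
    exact Ideal.mul_mem_mul (by simp [RingHom.mem_ker]) (by simp [RingHom.mem_ker])
lemma eval_aeval_poly (F : Var → MvPolynomial σ ℂ) (t : σ → ℂ) (r : R) :
    eval t (aeval F r) = eval (fun v => eval t (F v)) r := by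
  induction r using MvPolynomial.induction_on with
  | C c => simp
  | add p q hp hq => simp only [map_add, hp, hq]
  | mul_X p v hp => simp only [map_mul, hp, aeval_X, eval_X]
lemma exists_dual_single {M ι : Type} [AddCommGroup M] [Module ℂ M] {u : ι → M}
    (hu : LinearIndependent ℂ u) (c : ι → ℂ) : ∃ ℓ : Dual ℂ M, ∀ i, ℓ (u i) = c i := by
  obtain ⟨g, hg⟩ := LinearMap.exists_extend ((Basis.span hu).constr ℂ c)
  refine ⟨g, fun i => ?_⟩
  have := LinearMap.congr_fun hg (Basis.span hu i)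
  rwa [Basis.constr_basis, LinearMap.comp_apply, Submodule.subtype_apply, Basis.span_apply]
    at this
/-- lower bound for the dimension from a regular parametrisation with injective differential -/
theorem Blk.le_ldim [Fintype σ] {V : GV} (β : Blk V) (b : ℕ) {X : Spc} {x : Pt}
    (hx : β.Supp b x) {f : (σ → ℂ) → V.V} (hf : RegV (polyFn σ) f) (h0 : f 0 = β.vec b x)
    (hm : Near (polyFn σ) 0 fun t => β.pt b (f t) ∈ X.pts)
    (hd : LinearIndependent ℂ fun s => dV (pdel s) f) : (Fintype.card σ : ℕ∞) ≤ X.ldim x := by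
  classical
  have h1 : ∀ v, ∃ p, (fun t => eval t p) = fun t => β.pt b (f t) v := fun v => by
    by_cases h : ∃ i, v = β.var b i
    · obtain ⟨i, rfl⟩ := h
      simp only [β.pt_var]
      exact hf.coord β.e i
    · exact ⟨0, funext fun t => (β.supp_pt b _ v fun i e => h ⟨i, e⟩).symm⟩
  choose F hF using h1
  have h2 : ∀ t r, eval t (aeval F r) = eval (β.pt b (f t)) r := fun t r => by
    rw [eval_aeval_poly]; congr 2; funext v; exact congrFun (hF v) t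
  refine Spc.le_ldim_of_param F (fun v => ?_) (fun r hr => ?_) fun i => ?_
  · rw [congrFun (hF v) 0, h0, β.pt_vec b hx]
  · obtain ⟨_, ⟨q, rfl⟩, hq, h⟩ := hm
    have : q * aeval F r = 0 := MvPolynomial.funext fun t => by
      by_cases ht : eval t q = 0
      · simp [ht]
      · rw [map_mul, h2, hr _ (h t ht), mul_zero, map_zero]
    exact (mul_eq_zero.1 this).resolve_left fun e => hq (by rw [e]; rfl)
  · obtain ⟨ℓ, hℓ⟩ := exists_dual_single hd (Pi.single i 1)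
    let r : R := ∑ j, C (ℓ (β.e j)) * MvPolynomial.X (β.var b j)
    have hr : ∀ y, eval y r = ℓ (β.vec b y) := fun y => by
      simp [r, Blk.vec, mul_comm]
    have h3 : (fun t => eval t (aeval F r)) = fun t => ℓ (f t) := funext fun t => by
      rw [h2, hr, β.vec_pt]
    refine ⟨r - C (eval x r), by simp, ?_⟩
    convert sub_mem_sq (aeval F r) using 2
    · rw [map_sub, aeval_C, congrFun h3 0, h0, hr]; rfl
    · rw [Finset.sum_eq_single i (fun s _ h => ?_) (by simp)]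
      · rw [← pdel_eval, h3, ← dV_spec, hℓ]; simp
      · rw [← pdel_eval, h3, ← dV_spec, hℓ]; simp [h]
end param

/-- the derivative of `Λ^k A` at `A = 1` -/
lemma PDer.dV_lamM {T : Type} {𝒜 : Subalgebra ℂ (T → ℂ)} {x₀ : T} {δ : (T → ℂ) →ₗ[ℂ] ℂ}
    (h : PDer 𝒜 x₀ δ) {M : Type} [AddCommGroup M] [Module ℂ M] [FiniteDimensional ℂ M]
    {A : T → M →ₗ[ℂ] M} (hA : RegM 𝒜 A) (h0 : A x₀ = LinearMap.id) (k : ℕ) (z : Pow.Lam k M) :
    dV δ (fun x => lamM k (A x) z) = Plk.dE k (dV δ A) z := by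
  obtain ⟨z, hz⟩ := z
  suffices ∃ hz : z ∈ Pow.Lam k M, dV δ (fun x => lamM k (A x) ⟨z, hz⟩) = Plk.dE k (dV δ A) ⟨z, hz⟩
    from this.2
  refine Ks.pow_ind (LinearMap.range Ks.iE) (P := fun n z => ∃ hz : z ∈ Pow.Lam n M,
    dV δ (fun x => lamM n (A x) ⟨z, hz⟩) = Plk.dE n (dV δ A) ⟨z, hz⟩) (fun c => ?_) ?_ ?_ k z hz
  · have hc : algebraMap ℂ (Ks.EA M) c ∈ Pow.Lam 0 M := by
      rw [Plk.mem_Lam, pow_zero]; exact Submodule.algebraMap_mem c
    refine ⟨hc, ?_⟩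
    have : ∀ x, lamM 0 (A x) ⟨_, hc⟩ = ⟨_, hc⟩ := fun x => Subtype.ext (by simp [lamM_coe])
    simp only [this, h.dV_const]
    exact Subtype.ext (Plk.DA_alg _ c).symm
  · rintro n x y ⟨hx, e⟩ ⟨hy, e'⟩
    refine ⟨add_mem hx hy, ?_⟩
    have : (⟨x + y, add_mem hx hy⟩ : Pow.Lam n M) = ⟨x, hx⟩ + ⟨y, hy⟩ := rfl
    simp only [this, map_add, dV_add, e, e']
  · rintro n _ ⟨v, rfl⟩ x - ⟨hx, e⟩
    refine ⟨Plk.iE_mul_mem v hx, ?_⟩
    change dV δ (fun t => lamM (n + 1) (A t) (Plk.wg n ⟨x, hx⟩ v)) = Plk.dE _ _ (Plk.wg n ⟨x, hx⟩ v)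
    simp only [← Plk.wg_lamM]
    rw [h.dV_bilin (Plk.wg n) (hA.lamM n _) (hA v), e]
    beta_reduce
    rw [h0, lamM_id, Plk.dE_wg, ← dV_apply]
    exact add_comm _ _

namespace GrD
variable {Γ : GrD} {y y' ξ : Pt}
lemma supp_tan (hξ : ξ ∈ Γ.Y.Tan y) : Γ.β.Supp Γ.b ξ := Γ.β.supp_tan (fun _ h => supp h) hξ
lemma self_mem_tan {Z : Spc} (hy : y ∈ Z.pts) : y ∈ Z.Tan y := by
  have := Spc.euler_mem hy Z.B
  rwa [Z.restr_eq hy] at this
lemma finrank_map_vec {T : Submodule ℂ Pt} (hT : T ≤ Γ.Y.Tan y) :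
    finrank ℂ (T.map Γ.vec) = finrank ℂ T := by
  rw [← LinearMap.range_domRestrict]
  exact LinearMap.finrank_range_of_inj fun a c h =>
    Subtype.ext (Γ.β.vec_inj (supp_tan (hT a.2)) (supp_tan (hT c.2)) h)
lemma wj_of_isVar (hy : y ∈ Γ.Y.pts) (hξ : ξ ∈ Γ.Y.Tan y) {j : Γ.J} {φ : (Γ.G j).V →ₗ[ℂ] _}
    (h : IsVar Γ.Y.fn ⟨y, hy⟩ (Γ.Y.pd y ξ) (fun x => Γ.U j x.1) φ) {v : (Γ.G j).V}
    (hv : v ∈ Γ.U j y) : Γ.wj j (Γ.vec ξ) v + Γ.wj j (Γ.vec y) (φ v) = 0 := by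
  have := IsVar.kill (ψ := fun x : Γ.Y.pts => Γ.wj j (Γ.vec x.1)) (Spc.pder_pd hy hξ)
    (isAB_U j).alg (Γ.isRM_wj _ j).reg (fun x v hv => (Γ.ker_wj j x.1).ge hv) h v hv
  have e1 := dV_lin (δ := Γ.Y.pd y ξ) ((Γ.wj j).flip v) fun x : Γ.Y.pts => Γ.vec x.1
  have e2 : dV (Γ.Y.pd y ξ) (fun x : Γ.Y.pts => Γ.vec x.1) = Γ.vec ξ := Γ.β.dV_vec Γ.b hξ
  rw [e2] at e1
  rw [dV_apply] at this
  exact (congrArg (· + _) e1.symm).trans this
lemma sub_mem_of_isVar (hy : y ∈ Γ.Y.pts) (hξ : ξ ∈ Γ.Y.Tan y) {φ : Γ.En.V}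
    (h : ∀ j, IsVar Γ.Y.fn ⟨y, hy⟩ (Γ.Y.pd y ξ) (fun x => Γ.U j x.1) (φ j)) :
    Γ.vec ξ - Γ.ks y φ ∈ Submodule.span ℂ {Γ.vec y} := by
  rw [ks_apply, Plk.sub_dE_mem_span_iff (finrank_Ut hy) (vec_ne hy)]
  intro u hu
  rw [← Ut_def, Ut_eq hy] at hu
  have : (Plk.wg Γ.K (Γ.vec ξ) + Plk.wg Γ.K (Γ.vec y) ∘ₗ Γ.pm φ) u = 0 := by
    rw [← Finset.univ_sum_single u, map_sum]
    refine Finset.sum_eq_zero fun j _ => ?_
    rw [LinearMap.add_apply, LinearMap.comp_apply, pm_single]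
    exact wj_of_isVar hy hξ (h j) (hu j trivial)
  exact this
lemma exists_isVar (hy : y ∈ Γ.Y.pts) (hξ : ξ ∈ Γ.Y.Tan y) : ∃ φ : Γ.En.V,
    ∀ j, IsVar Γ.Y.fn ⟨y, hy⟩ (Γ.Y.pd y ξ) (fun x => Γ.U j x.1) (φ j) :=
  ⟨fun j => ((Spc.pder_pd hy hξ).exists_isVar (isAB_U j).alg).choose,
    fun j => ((Spc.pder_pd hy hξ).exists_isVar (isAB_U j).alg).choose_spec⟩
lemma map_tan_le (hy : y ∈ Γ.Y.pts) :
    (Γ.Y.Tan y).map Γ.vec ≤ LinearMap.range (Γ.ks y) ⊔ Submodule.span ℂ {Γ.vec y} := by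
  rintro _ ⟨ξ, hξ, rfl⟩
  obtain ⟨φ, h⟩ := exists_isVar hy hξ
  rw [← add_sub_cancel (Γ.ks y φ) (Γ.vec ξ)]
  exact Submodule.add_mem_sup ⟨φ, rfl⟩ (sub_mem_of_isVar hy hξ h)
lemma comap_span (hy : y ∈ Γ.Y.pts) :
    (Submodule.span ℂ {Γ.vec y}).comap (Γ.ks y) = Γ.stab y := Submodule.ext fun _ => ks_mem_span hy
lemma finrank_range_sup (hy : y ∈ Γ.Y.pts) : finrank ℂ
    (LinearMap.range (Γ.ks y) ⊔ Submodule.span ℂ {Γ.vec y} : Submodule ℂ _) = Γ.dim := by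
  have h1 := finrank_inf_comap_add ⊤ (Submodule.span ℂ {Γ.vec y}) (Γ.ks y)
  rw [top_inf_eq, comap_span hy, Submodule.map_top, finrank_top,
    finrank_span_singleton (vec_ne hy)] at h1
  have := finrank_stab hy
  omega
theorem dim_le_ldim (hy : y ∈ Γ.Y.pts) : (Γ.dim : ℕ∞) ≤ Γ.Y.ldim y := by
  classical
  obtain ⟨H, hH⟩ := (Γ.stab y).exists_isCompl
  let e := (finBasis ℂ (ℂ × H)).equivFun.symm
  have hc : Fintype.card (Fin (finrank ℂ (ℂ × H))) = Γ.dim := by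
    have h1 := finrank_stab hy
    have h2 := Submodule.finrank_add_eq_of_isCompl hH
    rw [Fintype.card_fin, Module.finrank_prod, Module.finrank_self]
    omega
  let a := LinearMap.fst ℂ ℂ H ∘ₗ e.toLinearMap
  let N := H.subtype ∘ₗ LinearMap.snd ℂ ℂ H ∘ₗ e.toLinearMap
  let A := fun t => LinearMap.id + Γ.pm (N t)
  have ha : (fun t => 1 + a t) ∈ polyFn _ :=
    fadd_mem (const_mem 1) (regV_scalar.1 (regV_id.map a))
  have hA : RegM (polyFn _) A := RegM.id.add (RegM.of_regV (regV_id.map (Γ.pm ∘ₗ N)))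
  have hA0 : A 0 = LinearMap.id := by simp [A]
  rw [← hc]
  refine Γ.β.le_ldim Γ.b (supp hy) (f := fun t => (1 + a t) • lamM Γ.K (A t) (Γ.vec y))
    ((hA.lamM _ _).smul ha) (by simp [hA0, vec]) ?_ ?_
  · refine ((Near.of_ne ha (by simp)).and
      (hA.near_injective (by rw [hA0]; exact fun _ _ h => h))).mono fun t ⟨h1, h2⟩ => ?_
    refine (mem_of (U := fun j => (Γ.U j y).map (LinearMap.id + N t j)) (fun j => ?_)
      (Γ.β.supp_pt _ _) ?_ ?_).1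
    · rw [← finrank_U hy j]
      refine (LinearEquiv.finrank_eq (Submodule.equivMapOfInjective _ (fun u v h => ?_) _)).symm
      refine Pi.single_injective (M := fun j => (Γ.G j).V) j (h2 ?_)
      simp only [A, LinearMap.add_apply, LinearMap.id_apply] at h ⊢
      rw [pm_single, pm_single, ← Pi.single_add, ← Pi.single_add, h]
    · rw [vec_pt]
      exact smul_ne_zero h1 fun h => vec_ne hy (lamM_injective _ h2 (h.trans (map_zero _).symm))
    · rw [vec_pt]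
      refine Submodule.smul_mem _ _ (lamM_mem Γ.K ?_ (vec_mem hy))
      intro w hw j _
      rw [Ut_eq hy] at hw
      exact ⟨w j, hw j trivial, rfl⟩
  · let Ψ : ℂ × H →ₗ[ℂ] Γ.Λ.V :=
      (LinearMap.toSpanSingleton ℂ _ (Γ.vec y)).coprod (Γ.ks y ∘ₗ H.subtype)
    have hΨ : LinearMap.ker Ψ = ⊥ := LinearMap.ker_eq_bot'.2 fun ⟨c, φ⟩ h => by
      have h1 : c • Γ.vec y + Γ.ks y φ = 0 := h
      have h2 : φ.1 ∈ Γ.stab y := (ks_mem_span hy).1 (Submodule.mem_span_singleton.2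
        ⟨-c, by rw [neg_smul]; exact neg_eq_of_add_eq_zero_right h1⟩)
      have h3 : φ = 0 := Subtype.ext (Submodule.disjoint_def.1 hH.disjoint _ h2 φ.2)
      subst h3
      simp only [Submodule.coe_zero, map_zero, add_zero, smul_eq_zero, vec_ne hy, or_false] at h1
      rw [h1]; rfl
    suffices (fun s => dV (pdel s) fun t => (1 + a t) • lamM Γ.K (A t) (Γ.vec y)) =
        Ψ ∘ finBasis ℂ (ℂ × H) by
      rw [this]; exact (finBasis ℂ (ℂ × H)).linearIndependent.map' Ψ hΨ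
    funext s
    have h1 : e (Pi.single s 1) = finBasis ℂ (ℂ × H) s := by simp [e]
    have h2 : pdel s (fun t => 1 + a t) = a (Pi.single s 1) := by
      rw [← dV_scalar, dV_add, (pder_pdel s).dV_const, dV_lin a, dV_id, zero_add]
    have h3 : dV (pdel s) A = Γ.pm (N (Pi.single s 1)) := by
      rw [dV_add, (pder_pdel s).dV_const, zero_add, ← dV_id]
      exact dV_lin (Γ.pm ∘ₗ N) _
    rw [(pder_pdel s).dV_smul ha (hA.lamM _ _), (pder_pdel s).dV_lamM hA hA0, h2, h3]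
    beta_reduce
    rw [hA0, lamM_id, ← ks_apply]
    simp [a, N, h1, Ψ]
end GrD

end Crest.Agent.N265
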